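import Mathlib

/-!
Semi-discrete Kantorovich duality for finitely many sites: potentials, cells, minimisers.
-/

open MeasureTheory Set
open scoped RealInnerProductSpace

namespace Vale.Agent.P074

/-- The ambient Euclidean space. -/
abbrev Euc (d : ℕ) := EuclideanSpace ℝ (Fin d)

set_option linter.unusedSectionVars false

variable {d : ℕ} {ι : Type*} [Fintype ι] [Nonempty ι]

/-- Piecewise affine convex potential with sites `y` and weights `q`. -/
noncomputable def pot (y : ι → Euc d) (q : ι → ℝ) (x : Euc d) : ℝ :=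
  Finset.univ.sup' Finset.univ_nonempty fun i => ⟪x, y i⟫ - q i

/-- Closed Laguerre cell. -/
def cell (K : Set (Euc d)) (y : ι → Euc d) (q : ι → ℝ) (i : ι) : Set (Euc d) :=
  {x | x ∈ K ∧ ∀ j, ⟪x, y j⟫ - q j ≤ ⟪x, y i⟫ - q i}

/-- Strict Laguerre cell. -/
def scell (K : Set (Euc d)) (y : ι → Euc d) (q : ι → ℝ) (i : ι) : Set (Euc d) :=
  {x | x ∈ K ∧ ∀ j, j ≠ i → ⟪x, y j⟫ - q j < ⟪x, y i⟫ - q i}

/-- Dual objective of semi-discrete transport. -/
noncomputable def Phi (K : Set (Euc d)) (g : Euc d → ℝ) (y : ι → Euc d) (m : ι → ℝ)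
    (q : ι → ℝ) : ℝ :=
  (∫ x in K, pot y q x * g x) + ∑ i, m i * q i

/-- `q` minimises the dual objective. -/
def IsMinPot (K : Set (Euc d)) (g : Euc d → ℝ) (y : ι → Euc d) (m q : ι → ℝ) : Prop :=
  ∀ q', Phi K g y m q ≤ Phi K g y m q'

/-- First moment of a cell. -/
noncomputable def mom (K : Set (Euc d)) (g : Euc d → ℝ) (y : ι → Euc d) (q : ι → ℝ) (i : ι) :
    Euc d :=
  ∫ x in cell K y q i, g x • x

theorem le_pot (y : ι → Euc d) (q : ι → ℝ) (x : Euc d) (i : ι) :
    ⟪x, y i⟫ - q i ≤ pot y q x :=
  Finset.le_sup' (fun i => ⟪x, y i⟫ - q i) (Finset.mem_univ i)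

theorem pot_le {y : ι → Euc d} {q : ι → ℝ} {x : Euc d} {c : ℝ}
    (h : ∀ i, ⟪x, y i⟫ - q i ≤ c) : pot y q x ≤ c :=
  Finset.sup'_le _ _ fun i _ => h i

theorem exists_pot_eq (y : ι → Euc d) (q : ι → ℝ) (x : Euc d) :
    ∃ i, pot y q x = ⟪x, y i⟫ - q i := by
  obtain ⟨i, -, hi⟩ := Finset.exists_mem_eq_sup' Finset.univ_nonempty fun i => ⟪x, y i⟫ - q i
  exact ⟨i, hi⟩

theorem pot_eq_of_mem_cell {K : Set (Euc d)} {y : ι → Euc d} {q : ι → ℝ} {x : Euc d} {i : ι}
    (h : x ∈ cell K y q i) : pot y q x = ⟪x, y i⟫ - q i :=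
  le_antisymm (pot_le h.2) (le_pot y q x i)

theorem continuous_pot (y : ι → Euc d) (q : ι → ℝ) : Continuous (pot y q) := by
  unfold pot
  exact Continuous.finset_sup'_apply _ fun i _ => by fun_prop

theorem pot_shift (y : ι → Euc d) (q : ι → ℝ) (c : ℝ) (x : Euc d) :
    pot y (fun i => q i + c) x = pot y q x - c := by
  refine le_antisymm (pot_le fun i => ?_) ?_
  · have := le_pot y q x i; linarith
  · obtain ⟨i, hi⟩ := exists_pot_eq y q x
    have := le_pot y (fun i => q i + c) x i
    linarith

theorem abs_pot_sub_le_dist_q (y : ι → Euc d) (q q' : ι → ℝ) (x : Euc d) :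
    |pot y q x - pot y q' x| ≤ dist q q' := by
  have h : ∀ q q' : ι → ℝ, pot y q x ≤ pot y q' x + dist q q' := by
    intro q q'
    refine pot_le fun i => ?_
    have h1 := le_pot y q' x i
    have h2 := dist_le_pi_dist q q' i
    rw [Real.dist_eq] at h2
    linarith [(abs_le.1 h2).1]
  rw [abs_le]
  constructor
  · have := h q' q; rw [dist_comm] at this; linarith
  · linarith [h q q']

theorem pot_sub_le_of_site {y y' : ι → Euc d} {δ R : ℝ} (hδ : ∀ i, ‖y' i - y i‖ ≤ δ)
    (q : ι → ℝ) {x : Euc d} (hx : ‖x‖ ≤ R) : pot y' q x ≤ pot y q x + R * δ := by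
  refine pot_le fun i => ?_
  have h1 := le_pot y q x i
  have h2 : ⟪x, y' i - y i⟫ ≤ R * δ :=
    (real_inner_le_norm _ _).trans
      (mul_le_mul hx (hδ i) (norm_nonneg _) ((norm_nonneg x).trans hx))
  rw [inner_sub_right] at h2
  linarith

theorem pot_lipschitz {y : ι → Euc d} {M : ℝ} (hM : ∀ i, ‖y i‖ ≤ M) (q : ι → ℝ) (x z : Euc d) :
    |pot y q x - pot y q z| ≤ M * ‖x - z‖ := by
  have h : ∀ x z, pot y q x ≤ pot y q z + M * ‖x - z‖ := by
    intro x z
    refine pot_le fun i => ?_
    have h1 := le_pot y q z i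
    have h2 : ⟪x - z, y i⟫ ≤ M * ‖x - z‖ := by
      refine (real_inner_le_norm _ _).trans ?_
      rw [mul_comm]
      exact mul_le_mul_of_nonneg_right (hM i) (norm_nonneg _)
    rw [inner_sub_left] at h2
    linarith
  rw [abs_le]
  constructor
  · have := h z x; rw [norm_sub_rev] at this; linarith
  · linarith [h x z]

theorem isClosed_cell {K : Set (Euc d)} (hK : IsClosed K) (y : ι → Euc d) (q : ι → ℝ) (i : ι) :
    IsClosed (cell K y q i) := by
  have : cell K y q i = K ∩ ⋂ j, {x | ⟪x, y j⟫ - q j ≤ ⟪x, y i⟫ - q i} := by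
    ext x; simp [cell]
  rw [this]
  exact hK.inter (isClosed_iInter fun j => isClosed_le (by fun_prop) (by fun_prop))

theorem measurableSet_cell {K : Set (Euc d)} (hK : IsClosed K) (y : ι → Euc d) (q : ι → ℝ)
    (i : ι) : MeasurableSet (cell K y q i) := (isClosed_cell hK y q i).measurableSet

theorem measurableSet_scell {K : Set (Euc d)} (hK : IsClosed K) (y : ι → Euc d) (q : ι → ℝ)
    (i : ι) : MeasurableSet (scell K y q i) := by
  have : scell K y q i = K ∩ ⋂ j, {x | j ≠ i → ⟪x, y j⟫ - q j < ⟪x, y i⟫ - q i} := by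
    ext x; simp [scell]
  rw [this]
  refine hK.measurableSet.inter (MeasurableSet.iInter fun j => ?_)
  by_cases h : j = i
  · simp [h]
  · simp only [ne_eq, h, not_false_eq_true, forall_true_left]
    exact (isOpen_lt (by fun_prop) (by fun_prop)).measurableSet

theorem cell_subset {K : Set (Euc d)} (y : ι → Euc d) (q : ι → ℝ) (i : ι) :
    cell K y q i ⊆ K := fun _ h => h.1

theorem scell_subset_cell {K : Set (Euc d)} (y : ι → Euc d) (q : ι → ℝ) (i : ι) :
    scell K y q i ⊆ cell K y q i := by
  intro x h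
  refine ⟨h.1, fun j => ?_⟩
  rcases eq_or_ne j i with rfl | hj
  · exact le_rfl
  · exact (h.2 j hj).le

theorem convex_cell {K : Set (Euc d)} (hK : Convex ℝ K) (y : ι → Euc d) (q q' : ι → ℝ) (i : ι)
    {x z : Euc d} (hx : x ∈ cell K y q i) (hz : z ∈ cell K y q' i) :
    (1 / 2 : ℝ) • (x + z) ∈ cell K y (fun j => (q j + q' j) / 2) i := by
  refine ⟨?_, fun j => ?_⟩
  · rw [smul_add]; exact hK hx.1 hz.1 (by norm_num) (by norm_num) (by norm_num)
  · have h1 := hx.2 j
    have h2 := hz.2 j
    simp only [real_inner_smul_left, inner_add_left]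
    linarith

theorem iUnion_cell (K : Set (Euc d)) (y : ι → Euc d) (q : ι → ℝ) : ⋃ i, cell K y q i = K := by
  ext x
  refine ⟨fun h => ?_, fun hx => ?_⟩
  · obtain ⟨i, hi⟩ := mem_iUnion.1 h; exact hi.1
  · obtain ⟨i, hi⟩ := exists_pot_eq y q x
    exact mem_iUnion.2 ⟨i, hx, fun j => hi ▸ le_pot y q x j⟩

theorem hyperplane_null (v : Euc d) (hv : v ≠ 0) (c : ℝ) :
    volume {x : Euc d | ⟪x, v⟫ = c} = 0 := by
  rcases eq_empty_or_nonempty {x : Euc d | ⟪x, v⟫ = c} with h | ⟨x₀, hx₀⟩
  · simp [h]
  have hW : (ℝ ∙ v)ᗮ ≠ ⊤ := by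
    intro htop
    have : v ∈ (ℝ ∙ v)ᗮ := htop ▸ Submodule.mem_top
    rw [Submodule.mem_orthogonal_singleton_iff_inner_right] at this
    exact hv (inner_self_eq_zero.1 this)
  have hsub : {x : Euc d | ⟪x, v⟫ = c} ⊆ (fun x => x + -x₀) ⁻¹' ((ℝ ∙ v)ᗮ : Set (Euc d)) := by
    intro x hx
    simp only [mem_preimage, SetLike.mem_coe, Submodule.mem_orthogonal_singleton_iff_inner_right]
    simp only [mem_ofPred_eq] at hx hx₀
    rw [inner_add_right, inner_neg_right, real_inner_comm, hx, real_inner_comm, hx₀, add_neg_cancel]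
  refine measure_mono_null hsub ?_
  rw [measure_preimage_add_right]
  exact Measure.addHaar_submodule _ _ hW

theorem aedisjoint_cell {K : Set (Euc d)} {y : ι → Euc d} (hy : Function.Injective y)
    (q : ι → ℝ) : Pairwise fun i j => AEDisjoint volume (cell K y q i) (cell K y q j) := by
  intro i j hij
  refine measure_mono_null ?_ (hyperplane_null (y i - y j)
    (sub_ne_zero.2 fun h => hij (hy h)) (q i - q j))
  rintro x ⟨hi, hj⟩
  have h1 := hi.2 j
  have h2 := hj.2 i
  simp only [mem_ofPred_eq, inner_sub_right]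
  linarith

theorem ae_mem_scell {K : Set (Euc d)} {y : ι → Euc d} (hy : Function.Injective y) (q : ι → ℝ) :
    ∀ᵐ x : Euc d, ∀ i, x ∈ cell K y q i → x ∈ scell K y q i := by
  rw [ae_all_iff]
  intro i
  have : ∀ j, ∀ᵐ x : Euc d, j ≠ i → ⟪x, y j⟫ - q j ≠ ⟪x, y i⟫ - q i := by
    intro j
    by_cases hj : j = i
    · exact Filter.Eventually.of_forall fun x h => absurd hj h
    · have h0 := hyperplane_null (y j - y i) (sub_ne_zero.2 fun h => hj (hy h)) (q j - q i)
      have : ∀ᵐ x : Euc d, ⟪x, y j - y i⟫ ≠ q j - q i :=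
        ae_iff.2 (by simpa using h0)
      filter_upwards [this] with x hx _ heq
      apply hx
      rw [inner_sub_right]; linarith
  filter_upwards [ae_all_iff.2 this] with x hx hc
  exact ⟨hc.1, fun j hj => lt_of_le_of_ne (hc.2 j) (hx j hj)⟩

theorem sum_cell {K : Set (Euc d)} (hK : IsClosed K) {y : ι → Euc d} (hy : Function.Injective y)
    (q : ι → ℝ) {V : Type*} [NormedAddCommGroup V] [NormedSpace ℝ V] [CompleteSpace V]
    {F : Euc d → V} (hF : IntegrableOn F K) :
    ∑ i, ∫ x in cell K y q i, F x = ∫ x in K, F x := by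
  have h := integral_iUnion_ae (μ := volume) (f := F) (s := cell K y q)
    (fun i => (measurableSet_cell hK y q i).nullMeasurableSet) (aedisjoint_cell hy q)
    (by rw [iUnion_cell]; exact hF)
  rw [iUnion_cell, tsum_fintype] at h
  exact h.symm

theorem setIntegral_scell {K : Set (Euc d)} {y : ι → Euc d} (hy : Function.Injective y)
    (q : ι → ℝ) (i : ι) {V : Type*} [NormedAddCommGroup V] [NormedSpace ℝ V]
    (F : Euc d → V) : ∫ x in scell K y q i, F x = ∫ x in cell K y q i, F x := by
  refine setIntegral_congr_set ?_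
  filter_upwards [ae_mem_scell (K := K) hy q] with x hx
  exact propext ⟨fun h => scell_subset_cell y q i h, hx i⟩

theorem integrableOn_of_cont {K : Set (Euc d)} (hK : IsCompact K) {V : Type*}
    [NormedAddCommGroup V] {F : Euc d → V} (hF : Continuous F) : IntegrableOn F K :=
  hF.continuousOn.integrableOn_compact hK

theorem Phi_lipschitz {K : Set (Euc d)} (hK : IsCompact K) {g : Euc d → ℝ} (hg : Continuous g)
    (y : ι → Euc d) (m : ι → ℝ) (q q' : ι → ℝ) :
    |Phi K g y m q - Phi K g y m q'| ≤ ((∫ x in K, |g x|) + ∑ i, |m i|) * dist q q' := by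
  have hi : ∀ q, IntegrableOn (fun x => pot y q x * g x) K := fun q =>
    integrableOn_of_cont hK ((continuous_pot y q).mul hg)
  have e : Phi K g y m q - Phi K g y m q'
      = (∫ x in K, (pot y q x - pot y q' x) * g x) + ∑ i, m i * (q i - q' i) := by
    unfold Phi
    simp only [sub_mul, mul_sub, Finset.sum_sub_distrib]
    rw [integral_sub (hi q) (hi q')]
    ring
  rw [e, add_mul]
  refine (abs_add_le _ _).trans (add_le_add ?_ ?_)
  · refine (abs_integral_le_integral_abs).trans ?_
    rw [← integral_mul_const]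
    refine integral_mono ?_ ((integrableOn_of_cont hK hg).abs.mul_const _) fun x => ?_
    · exact (integrableOn_of_cont hK (((continuous_pot y q).sub (continuous_pot y q')).mul hg)).abs
    · dsimp only
      rw [abs_mul, mul_comm |g x|]
      exact mul_le_mul_of_nonneg_right (abs_pot_sub_le_dist_q y q q' x) (abs_nonneg _)
  · refine (Finset.abs_sum_le_sum_abs _ _).trans ?_
    rw [Finset.sum_mul]
    refine Finset.sum_le_sum fun i _ => ?_
    rw [abs_mul]
    exact mul_le_mul_of_nonneg_left (by
      have := dist_le_pi_dist q q' i; rwa [Real.dist_eq] at this) (abs_nonneg _)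

theorem continuous_Phi {K : Set (Euc d)} (hK : IsCompact K) {g : Euc d → ℝ} (hg : Continuous g)
    (y : ι → Euc d) (m : ι → ℝ) : Continuous (Phi K g y m) := by
  have hC : 0 ≤ (∫ x in K, |g x|) + ∑ i, |m i| :=
    add_nonneg (integral_nonneg fun x => abs_nonneg _) (Finset.sum_nonneg fun i _ => abs_nonneg _)
  refine (LipschitzWith.of_dist_le_mul (K := ⟨_, hC⟩) fun q q' => ?_).continuous
  rw [Real.dist_eq]
  exact Phi_lipschitz hK hg y m q q'

theorem Phi_shift {K : Set (Euc d)} (hK : IsCompact K) {g : Euc d → ℝ} (hg : Continuous g)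
    (y : ι → Euc d) {m : ι → ℝ} (hm : ∑ i, m i = ∫ x in K, g x) (q : ι → ℝ) (c : ℝ) :
    Phi K g y m (fun i => q i + c) = Phi K g y m q := by
  unfold Phi
  simp only [pot_shift, sub_mul, mul_add, Finset.sum_add_distrib, ← Finset.sum_mul, hm]
  have h1 : IntegrableOn (fun x => pot y q x * g x) K :=
    integrableOn_of_cont hK ((continuous_pot y q).mul hg)
  rw [integral_sub h1 ((integrableOn_of_cont hK hg).const_mul c), integral_const_mul]
  ring

/-- Existence of a minimiser in an explicit box. -/
theorem exists_min {K : Set (Euc d)} (hK : IsCompact K) {R M : ℝ} (hR : ∀ x ∈ K, ‖x‖ ≤ R)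
    {g : Euc d → ℝ} (hg : Continuous g) (hg0 : ∀ x ∈ K, 0 ≤ g x)
    {y : ι → Euc d} (hM : ∀ i, ‖y i‖ ≤ M) {m : ι → ℝ} (hm0 : ∀ i, 0 < m i)
    (hm : ∑ i, m i = ∫ x in K, g x) :
    ∃ q : ι → ℝ, (∀ i, 0 ≤ q i ∧ q i ≤ 2 * (M * R) * (∫ x in K, g x) / m i) ∧
      IsMinPot K g y m q := by
  set G := ∫ x in K, g x
  have hG : 0 ≤ G := setIntegral_nonneg hK.measurableSet hg0
  rcases K.eq_empty_or_nonempty with hKe | ⟨x₀, hx₀⟩
  · exfalso
    have : (∑ i, m i) = 0 := by simp [hm, G, hKe]
    have h2 : 0 < ∑ i, m i := Finset.sum_pos (fun i _ => hm0 i) Finset.univ_nonempty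
    linarith
  have hMR : 0 ≤ M * R := mul_nonneg ((norm_nonneg _).trans (hM (Classical.arbitrary ι)))
    ((norm_nonneg _).trans (hR x₀ hx₀))
  set L : ι → ℝ := fun i => 2 * (M * R) * G / m i
  have hL : ∀ i, 0 ≤ L i := fun i => div_nonneg (by positivity) (hm0 i).le
  obtain ⟨q, hq, hmin⟩ := (isCompact_univ_pi fun i => isCompact_Icc (a := (0 : ℝ)) (b := L i)).exists_isMinOn
    ⟨0, fun i _ => ⟨le_rfl, hL i⟩⟩ (continuous_Phi hK hg y m).continuousOn
  refine ⟨q, fun i => hq i (mem_univ i), fun q' => ?_⟩
  obtain ⟨j₀, hj₀⟩ := Finite.exists_min q'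
  set p : ι → ℝ := fun i => q' i + -q' j₀
  have hp : ∀ i, 0 ≤ p i := fun i => by have := hj₀ i; simp only [p]; linarith
  rw [← Phi_shift hK hg y hm q' (-q' j₀)]
  by_cases hbox : ∀ i, p i ≤ L i
  · exact hmin fun i _ => ⟨hp i, hbox i⟩
  push Not at hbox
  obtain ⟨j, hj⟩ := hbox
  refine le_trans (hmin (fun i _ => ⟨le_rfl, hL i⟩) : Phi K g y m q ≤ Phi K g y m 0) ?_
  have hin : ∀ x ∈ K, ∀ i, |⟪x, y i⟫| ≤ M * R := fun x hx i => by
    refine (abs_real_inner_le_norm _ _).trans ?_
    rw [mul_comm]
    exact mul_le_mul (hM i) (hR x hx) (norm_nonneg _) ((norm_nonneg _).trans (hM i))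
  have h0 : Phi K g y m 0 ≤ M * R * G := by
    unfold Phi
    simp only [Pi.zero_apply, mul_zero, Finset.sum_const_zero, add_zero]
    rw [← integral_const_mul]
    refine setIntegral_mono_on (integrableOn_of_cont hK ((continuous_pot y 0).mul hg))
      ((integrableOn_of_cont hK hg).const_mul _) hK.measurableSet fun x hx => ?_
    refine mul_le_mul_of_nonneg_right (pot_le fun i => ?_) (hg0 x hx)
    simpa using (abs_le.1 (hin x hx i)).2
  have h1 : -(M * R) * G + 2 * (M * R) * G ≤ Phi K g y m p := by
    unfold Phi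
    refine add_le_add ?_ ?_
    · rw [← integral_const_mul]
      refine setIntegral_mono_on ((integrableOn_of_cont hK hg).const_mul _)
        (integrableOn_of_cont hK ((continuous_pot y p).mul hg)) hK.measurableSet fun x hx => ?_
      refine mul_le_mul_of_nonneg_right ?_ (hg0 x hx)
      have h3 := le_pot y p x j₀
      have h4 : p j₀ = 0 := by simp [p]
      linarith [(abs_le.1 (hin x hx j₀)).1]
    · refine le_trans ?_ (Finset.single_le_sum (fun i _ => mul_nonneg (hm0 i).le (hp i))
        (Finset.mem_univ j))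
      have := (div_lt_iff₀ (hm0 j)).1 hj
      linarith
  calc Phi K g y m 0 ≤ M * R * G := h0
    _ ≤ Phi K g y m p := by linarith

/-- A minimiser gives cells of the prescribed masses. -/
theorem min_mass {K : Set (Euc d)} (hK : IsCompact K) {g : Euc d → ℝ} (hg : Continuous g)
    (hg0 : ∀ x ∈ K, 0 ≤ g x) {y : ι → Euc d} (hy : Function.Injective y) {m : ι → ℝ}
    (hm : ∑ i, m i = ∫ x in K, g x) {q : ι → ℝ} (hq : IsMinPot K g y m q) (i : ι) :
    ∫ x in cell K y q i, g x = m i := by
  classical
  have hle : ∀ i, ∫ x in cell K y q i, g x ≤ m i := by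
    intro i
    rw [← setIntegral_scell hy q i]
    set A : ℕ → Set (Euc d) := fun n =>
      {x | x ∈ K ∧ ∀ j, j ≠ i → ⟪x, y j⟫ - q j + 1 / ((n : ℝ) + 1) ≤ ⟪x, y i⟫ - q i}
    have hAm : ∀ n, MeasurableSet (A n) := by
      intro n
      have : A n = K ∩ ⋂ j, {x | j ≠ i →
          ⟪x, y j⟫ - q j + 1 / ((n : ℝ) + 1) ≤ ⟪x, y i⟫ - q i} := by
        ext x; simp [A]
      rw [this]
      refine hK.measurableSet.inter (MeasurableSet.iInter fun j => ?_)
      by_cases h : j = i
      · simp [h]
      · simp only [ne_eq, h, not_false_eq_true, forall_true_left]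
        exact (isClosed_le (by fun_prop) (by fun_prop)).measurableSet
    have hAmono : Monotone A := by
      intro a b hab x hx
      refine ⟨hx.1, fun j hj => le_trans ?_ (hx.2 j hj)⟩
      gcongr
    have hAU : ⋃ n, A n = scell K y q i := by
      ext x
      simp only [mem_iUnion]
      constructor
      · rintro ⟨n, hx⟩
        refine ⟨hx.1, fun j hj => lt_of_lt_of_le ?_ (hx.2 j hj)⟩
        have : (0 : ℝ) < 1 / ((n : ℝ) + 1) := by positivity
        linarith
      · intro hx
        have : ∀ j, ∃ n : ℕ, j ≠ i → 1 / ((n : ℝ) + 1) ≤ ⟪x, y i⟫ - q i - (⟪x, y j⟫ - q j) := by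
          intro j
          by_cases hj : j = i
          · exact ⟨0, fun h => absurd hj h⟩
          · obtain ⟨n, hn⟩ := exists_nat_one_div_lt (sub_pos.2 (hx.2 j hj))
            exact ⟨n, fun _ => hn.le⟩
        choose N hN using this
        refine ⟨Finset.univ.sup N, hx.1, fun j hj => ?_⟩
        have h1 := hN j hj
        have h2 : 1 / (((Finset.univ.sup N : ℕ) : ℝ) + 1) ≤ 1 / ((N j : ℝ) + 1) := by
          have h3 : (N j : ℝ) ≤ ((Finset.univ.sup N : ℕ) : ℝ) := by
            exact_mod_cast Finset.le_sup (f := N) (Finset.mem_univ j)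
          gcongr
        linarith
    have hAn : ∀ n, ∫ x in A n, g x ≤ m i := by
      intro n
      set t : ℝ := 1 / ((n : ℝ) + 1)
      have ht : 0 < t := by positivity
      set q' : ι → ℝ := Function.update q i (q i + t)
      have h := hq q'
      unfold Phi at h
      have hsum : ∑ j, m j * q' j = (∑ j, m j * q j) + t * m i := by
        have : ∀ j, m j * q' j = m j * q j + (if j = i then t * m i else 0) := by
          intro j
          rcases eq_or_ne j i with rfl | hj
          · simp [q']; ring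
          · simp [q', hj]
        simp [this, Finset.sum_add_distrib]
      have hi1 : IntegrableOn (fun x => pot y q x * g x) K :=
        integrableOn_of_cont hK ((continuous_pot y q).mul hg)
      have hi2 : IntegrableOn (fun x => pot y q' x * g x) K :=
        integrableOn_of_cont hK ((continuous_pot y q').mul hg)
      have hbound : t * ∫ x in A n, g x ≤ ∫ x in K, (pot y q x * g x - pot y q' x * g x) := by
        rw [← integral_const_mul]
        refine le_trans (setIntegral_mono_on ?_ ?_ (hAm n) fun x hx => ?_)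
          (setIntegral_mono_set (hi1.sub hi2) ?_ (Filter.Eventually.of_forall fun x hx => hx.1))
        · exact (integrableOn_of_cont hK (continuous_const.mul hg)).mono_set fun x hx => hx.1
        · exact (hi1.sub hi2).mono_set fun x hx => hx.1
        · rw [← sub_mul]
          refine mul_le_mul_of_nonneg_right ?_ (hg0 x hx.1)
          have hqi := le_pot y q x i
          have : pot y q' x ≤ ⟪x, y i⟫ - q i - t := by
            refine pot_le fun j => ?_
            rcases eq_or_ne j i with rfl | hj
            · simp [q']; try linarith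
            · have := hx.2 j hj
              simp [q', hj]; linarith
          linarith
        · refine (ae_restrict_mem hK.measurableSet).mono fun x hx => ?_
          simp only [Pi.zero_apply]
          rw [← sub_mul]
          refine mul_nonneg (sub_nonneg.2 (pot_le fun j => ?_)) (hg0 x hx)
          refine le_trans ?_ (le_pot y q x j)
          rcases eq_or_ne j i with rfl | hj
          · simp [q']; linarith
          · simp [q', hj]
      rw [integral_sub hi1 hi2] at hbound
      have : t * ∫ x in A n, g x ≤ t * m i := by linarith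
      exact le_of_mul_le_mul_left this ht
    have hint : IntegrableOn g (⋃ n, A n) :=
      (integrableOn_of_cont hK hg).mono_set (iUnion_subset fun n x hx => hx.1)
    have hlim := tendsto_setIntegral_of_monotone hAm hAmono hint
    rw [hAU] at hlim
    exact le_of_tendsto' hlim hAn
  have hsum : ∑ i, ∫ x in cell K y q i, g x = ∑ i, m i := by
    rw [sum_cell hK.isClosed hy q (integrableOn_of_cont hK hg), hm]
  exact ((Finset.sum_eq_sum_iff_of_le fun i _ => hle i).1 hsum) i (Finset.mem_univ i)

theorem inner_mom {K : Set (Euc d)} (hK : IsCompact K) {g : Euc d → ℝ} (hg : Continuous g)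
    (y : ι → Euc d) (q : ι → ℝ) (i : ι) (v : Euc d) :
    ⟪v, mom K g y q i⟫ = ∫ x in cell K y q i, ⟪x, v⟫ * g x := by
  have hint : IntegrableOn (fun x => g x • x) (cell K y q i) :=
    (integrableOn_of_cont hK (hg.smul continuous_id)).mono_set (cell_subset y q i)
  rw [mom, ← integral_inner hint v]
  refine integral_congr_ae (Filter.Eventually.of_forall fun x => ?_)
  simp only [inner_smul_right, real_inner_comm v x]
  ring

/-- Weak duality against a family of cells carrying the masses `m`. -/
theorem weak_duality {K : Set (Euc d)} (hK : IsCompact K) {g : Euc d → ℝ} (hg : Continuous g)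
    (hg0 : ∀ x ∈ K, 0 ≤ g x) {y : ι → Euc d} (hy : Function.Injective y) {m q : ι → ℝ}
    (hmass : ∀ i, ∫ x in cell K y q i, g x = m i) (y' : ι → Euc d) (q' : ι → ℝ) :
    ∑ i, ⟪y' i, mom K g y q i⟫ ≤ Phi K g y' m q' := by
  have hc : Continuous fun x => pot y' q' x * g x := (continuous_pot y' q').mul hg
  unfold Phi
  rw [← sum_cell hK.isClosed hy q (integrableOn_of_cont hK hc), ← Finset.sum_add_distrib]
  refine Finset.sum_le_sum fun i _ => ?_
  rw [inner_mom hK hg, ← hmass i, mul_comm (∫ x in cell K y q i, g x) (q' i), ← integral_const_mul,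
    ← integral_add ((integrableOn_of_cont hK hc).mono_set (cell_subset y q i))
      ((integrableOn_of_cont hK (show Continuous fun x => q' i * g x from continuous_const.mul hg)).mono_set (cell_subset y q i))]
  refine setIntegral_mono_on ((integrableOn_of_cont hK (by fun_prop)).mono_set (cell_subset y q i))
    ((integrableOn_of_cont hK (hc.add (continuous_const.mul hg))).mono_set (cell_subset y q i))
    (measurableSet_cell hK.isClosed y q i) fun x hx => ?_
  rw [← add_mul]
  refine mul_le_mul_of_nonneg_right ?_ (hg0 x hx.1)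
  linarith [le_pot y' q' x i]

theorem strong_duality {K : Set (Euc d)} (hK : IsCompact K) {g : Euc d → ℝ} (hg : Continuous g)
    {y : ι → Euc d} (hy : Function.Injective y) {m q : ι → ℝ}
    (hmass : ∀ i, ∫ x in cell K y q i, g x = m i) :
    Phi K g y m q = ∑ i, ⟪y i, mom K g y q i⟫ := by
  have hc : Continuous fun x => pot y q x * g x := (continuous_pot y q).mul hg
  unfold Phi
  rw [← sum_cell hK.isClosed hy q (integrableOn_of_cont hK hc), ← Finset.sum_add_distrib]
  refine Finset.sum_congr rfl fun i _ => ?_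
  rw [inner_mom hK hg, ← hmass i, mul_comm (∫ x in cell K y q i, g x) (q i), ← integral_const_mul,
    ← integral_add ((integrableOn_of_cont hK hc).mono_set (cell_subset y q i))
      ((integrableOn_of_cont hK (show Continuous fun x => q i * g x from continuous_const.mul hg)).mono_set (cell_subset y q i))]
  refine setIntegral_congr_fun (measurableSet_cell hK.isClosed y q i) fun x hx => ?_
  simp only [pot_eq_of_mem_cell hx]
  ring

/-- Two minimisers for the uniform density differ by a constant on `K`. -/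
theorem min_unique {K : Set (Euc d)} (hK : IsCompact K) (hKc : Convex ℝ K)
    (hKi : (interior K).Nonempty) {y : ι → Euc d} (hy : Function.Injective y) {m q q' : ι → ℝ}
    (hm : ∑ i, m i = ∫ _x in K, (1 : ℝ))
    (hq : IsMinPot K (fun _ => 1) y m q) (hq' : IsMinPot K (fun _ => 1) y m q') :
    ∃ c, ∀ x ∈ K, pot y q x - pot y q' x = c := by
  classical
  have hg : Continuous fun _ : Euc d => (1 : ℝ) := continuous_const
  have hmass := min_mass hK hg (fun _ _ => zero_le_one) hy hm hq
  have heq : Phi K (fun _ => 1) y m q' = ∑ i, ⟪y i, mom K (fun _ => 1) y q i⟫ :=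
    le_antisymm ((hq' q).trans (strong_duality hK hg hy hmass).le)
      (weak_duality hK hg (fun _ _ => zero_le_one) hy hmass y q')
  set D : ι → Euc d → ℝ := fun i x => pot y q' x - (⟪x, y i⟫ - q' i)
  have hDint : ∀ i, IntegrableOn (D i) (cell K y q i) := fun i =>
    (integrableOn_of_cont hK ((continuous_pot y q').sub (by fun_prop))).mono_set (cell_subset y q i)
  have hsum : ∑ i, ∫ x in cell K y q i, D i x = 0 := by
    have h1 : ∀ i, ∫ x in cell K y q i, D i x = (∫ x in cell K y q i, pot y q' x)
        - ⟪y i, mom K (fun _ => 1) y q i⟫ + m i * q' i := by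
      intro i
      rw [inner_mom hK hg, ← hmass i, mul_comm _ (q' i), ← integral_const_mul,
        ← integral_sub ((integrableOn_of_cont hK (continuous_pot y q')).mono_set (cell_subset y q i))
          ((integrableOn_of_cont hK (by fun_prop)).mono_set (cell_subset y q i)),
        ← integral_add]
      · refine integral_congr_ae (Filter.Eventually.of_forall fun x => ?_)
        simp only [D]; ring
      · exact (integrableOn_of_cont hK ((continuous_pot y q').sub (by fun_prop))).mono_set
          (cell_subset y q i)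
      · exact (integrableOn_of_cont hK continuous_const).mono_set (cell_subset y q i)
    simp only [h1, Finset.sum_add_distrib, Finset.sum_sub_distrib]
    rw [sum_cell hK.isClosed hy q (integrableOn_of_cont hK (continuous_pot y q')), ← heq]
    simp [Phi]
  have hzero : ∀ i, ∀ᵐ x ∂(volume.restrict (cell K y q i)), D i x = 0 := by
    intro i
    have h0 : ∫ x in cell K y q i, D i x = 0 :=
      (Finset.sum_eq_zero_iff_of_nonneg fun j _ =>
        integral_nonneg fun x => sub_nonneg.2 (le_pot y q' x j)).1 hsum i (Finset.mem_univ i)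
    exact (integral_eq_zero_iff_of_nonneg (fun x => sub_nonneg.2 (le_pot y q' x i)) (hDint i)).1 h0
  set u := fun x => pot y q x - pot y q' x
  set S : Set ℝ := range fun i => q' i - q i
  have hS : S.Finite := finite_range _
  have hu : Continuous u := (continuous_pot y q).sub (continuous_pot y q')
  have hae : ∀ᵐ x : Euc d, x ∈ K → u x ∈ S := by
    have h2 : ∀ i, ∀ᵐ x : Euc d, x ∈ cell K y q i → D i x = 0 := fun i =>
      (ae_restrict_iff' (measurableSet_cell hK.isClosed y q i)).1 (hzero i)
    filter_upwards [ae_all_iff.2 h2] with x hx hxK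
    obtain ⟨i, hi⟩ := mem_iUnion.1 ((iUnion_cell K y q).symm ▸ hxK)
    refine ⟨i, ?_⟩
    have h3 := hx i hi
    simp only [D] at h3
    simp only [u, pot_eq_of_mem_cell hi]
    linarith
  have hint : interior K ⊆ u ⁻¹' S := by
    intro x hx
    by_contra hxS
    have hopen : IsOpen (interior K ∩ (u ⁻¹' S)ᶜ) :=
      isOpen_interior.inter (hS.isClosed.preimage hu).isOpen_compl
    have hpos := hopen.measure_pos volume ⟨x, hx, hxS⟩
    have : volume (interior K ∩ (u ⁻¹' S)ᶜ) = 0 :=
      measure_mono_null (t := {z | ¬(z ∈ K → u z ∈ S)})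
        (fun z hz h => hz.2 (h (interior_subset hz.1))) (ae_iff.1 hae)
    exact hpos.ne' this
  have hall : u '' K ⊆ S := by
    rintro _ ⟨x, hx, rfl⟩
    have hx' : x ∈ closure (interior K) := by
      rw [hKc.closure_interior_eq_closure_of_nonempty_interior hKi]; exact subset_closure hx
    exact closure_minimal hint (hS.isClosed.preimage hu) hx'
  obtain ⟨x₀, hx₀⟩ := hKi
  refine ⟨u x₀, fun x hx => ?_⟩
  have hsub := (hKc.isPreconnected.image u hu.continuousOn).ordConnected
  by_contra hne
  have h1 : uIcc (u x) (u x₀) ⊆ S :=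
    (hsub.uIcc_subset (mem_image_of_mem u hx) (mem_image_of_mem u (interior_subset hx₀))).trans hall
  exact (Icc_infinite (min_lt_max.2 hne)) (hS.subset h1)

end Vale.Agent.P074
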