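import Mathlib
import Vale.Agent.P074.Laguerre

/-!
Conjugates, semi-discrete optimal maps, and approximation of a pair of measures by atoms.
-/

open MeasureTheory Set Filter
open scoped RealInnerProductSpace Topology ENNReal

namespace Vale.Agent.P074

variable {d : ℕ}

/-- Legendre transform relative to `K`. -/
noncomputable def conj (K : Set (Euc d)) (φ : Euc d → ℝ) (y : Euc d) : ℝ :=
  sSup ((fun z => ⟪z, y⟫ - φ z) '' K)

theorem le_conj {K : Set (Euc d)} (hK : IsCompact K) {φ : Euc d → ℝ} (hφ : Continuous φ)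
    (y : Euc d) {z : Euc d} (hz : z ∈ K) : ⟪z, y⟫ - φ z ≤ conj K φ y :=
  le_csSup (hK.bddAbove_image (by fun_prop : Continuous fun z => ⟪z, y⟫ - φ z).continuousOn)
    (mem_image_of_mem _ hz)

theorem conj_le {K : Set (Euc d)} (hne : K.Nonempty) {φ : Euc d → ℝ} (y : Euc d) {c : ℝ}
    (h : ∀ z ∈ K, ⟪z, y⟫ - φ z ≤ c) : conj K φ y ≤ c :=
  csSup_le (hne.image _) (by rintro _ ⟨z, hz, rfl⟩; exact h z hz)

theorem conj_lipschitz {K : Set (Euc d)} (hK : IsCompact K) (hne : K.Nonempty) {R : ℝ}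
    (hR : ∀ x ∈ K, ‖x‖ ≤ R) {φ : Euc d → ℝ} (hφ : Continuous φ) (y w : Euc d) :
    |conj K φ y - conj K φ w| ≤ R * ‖y - w‖ := by
  have h : ∀ y w, conj K φ y ≤ conj K φ w + R * ‖y - w‖ := by
    intro y w
    refine conj_le hne y fun z hz => ?_
    have h1 := le_conj hK hφ w hz
    have h2 : ⟪z, y - w⟫ ≤ R * ‖y - w‖ :=
      (real_inner_le_norm _ _).trans (mul_le_mul_of_nonneg_right (hR z hz) (norm_nonneg _))
    rw [inner_sub_right] at h2
    linarith
  rw [abs_le]
  constructor
  · have := h w y; rw [norm_sub_rev] at this; linarith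
  · linarith [h y w]

theorem continuous_conj {K : Set (Euc d)} (hK : IsCompact K) (hne : K.Nonempty) {R : ℝ}
    (hR : ∀ x ∈ K, ‖x‖ ≤ R) {φ : Euc d → ℝ} (hφ : Continuous φ) : Continuous (conj K φ) := by
  have hR0 : 0 ≤ R := by obtain ⟨x, hx⟩ := hne; exact (norm_nonneg x).trans (hR x hx)
  refine (LipschitzWith.of_dist_le_mul (K := ⟨R, hR0⟩) fun y w => ?_).continuous
  rw [Real.dist_eq, dist_eq_norm]
  exact conj_lipschitz hK hne hR hφ y w

theorem conj_pot_site {K : Set (Euc d)} (hne : K.Nonempty) {ι : Type*} [Fintype ι] [Nonempty ι]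
    (a : ι → Euc d) (q : ι → ℝ) (i : ι) : conj K (pot a q) (a i) ≤ q i :=
  conj_le hne _ fun z _ => by have := le_pot a q z i; linarith

/-- A finite family of atoms within distance `δ` of a measure `ν`, with an allocation map. -/
structure Atoms (ν : Measure (Euc d)) (δ : ℝ) (ι : Type) [Fintype ι] where
  /-- sites -/
  a : ι → Euc d
  /-- weights -/
  m : ι → ℝ
  inj : Function.Injective a
  pos : ∀ i, 0 < m i
  mass : ∑ i, m i = ν.real univ
  near : ∀ f : Euc d → ℝ, Continuous f → ∀ L : ℝ, 0 ≤ L →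
    (∀ x y, |f x - f y| ≤ L * ‖x - y‖) → |∑ i, m i * f (a i) - ∫ y, f y ∂ν| ≤ L * δ * ν.real univ

/-- Two atomic approximations of the marginals of a coupling, indexed by the same finite type. -/
theorem atomize (hd : 1 ≤ d) (γ : Measure (Euc d × Euc d)) [IsFiniteMeasure γ] (hγ : γ ≠ 0)
    {M : ℝ} (hM : 0 ≤ M) (hsupp : ∀ᵐ p ∂γ, ‖p.1‖ ≤ M ∧ ‖p.2‖ ≤ M) {δ : ℝ} (hδ : 0 < δ)
    (hδ1 : δ ≤ 1) :
    ∃ (ι : Type) (_ : Fintype ι) (_ : Nonempty ι) (A : Atoms (γ.map Prod.fst) δ ι)
      (B : Atoms (γ.map Prod.snd) δ ι), A.m = B.m ∧ (∀ i, ‖A.a i‖ ≤ M + 1) ∧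
        (∀ i, ‖B.a i‖ ≤ M + 1) ∧
        ∑ i, A.m i * ‖B.a i - A.a i‖ ^ 2
          ≤ (∫ p, ‖p.2 - p.1‖ ^ 2 ∂γ) + 8 * (M + 1) * δ * γ.real univ := by
  classical
  set Q : Set (Euc d × Euc d) := Metric.closedBall 0 M ×ˢ Metric.closedBall 0 M
  have hQ : IsCompact Q := (isCompact_closedBall 0 M).prod (isCompact_closedBall 0 M)
  have hQae : ∀ᵐ p ∂γ, p ∈ Q := hsupp.mono fun p hp => by simp [Q, hp.1, hp.2]
  obtain ⟨T, hTQ, hTfin, hcov⟩ := finite_cover_balls_of_compact hQ (show 0 < δ / 2 by positivity)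
  have h0 : (0 : Euc d × Euc d) ∈ Q := by simp [Q, hM]
  set l := hTfin.toFinset.toList
  set e : ℕ → Euc d × Euc d := fun n => l.getD n 0
  have heQ : ∀ n, e n ∈ Q := by
    intro n
    rcases lt_or_ge n l.length with hn | hn
    · have : e n = l[n] := List.getD_eq_getElem l 0 hn
      rw [this]
      exact hTQ (hTfin.mem_toFinset.1 (Finset.mem_toList.1 (List.getElem_mem hn)))
    · have : e n = 0 := List.getD_eq_default l 0 hn
      rw [this]; exact h0
  set f := SimpleFunc.nearestPt e l.length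
  have hfQ : ∀ p, f p ∈ Q := by
    intro p
    have : f p = e (SimpleFunc.nearestPtInd e l.length p) := rfl
    rw [this]; exact heQ _
  have hfnear : ∀ p ∈ Q, ‖f p - p‖ ≤ δ / 2 := by
    intro p hp
    obtain ⟨c, hc, hpc⟩ := mem_iUnion₂.1 (hcov hp)
    obtain ⟨n, hn, hne⟩ := List.getElem_of_mem (Finset.mem_toList.2 (hTfin.mem_toFinset.2 hc))
    have h1 := SimpleFunc.edist_nearestPt_le e p (k := n) (N := l.length) hn.le
    have h2 : e n = c := (List.getD_eq_getElem l 0 hn).trans hne
    rw [h2, edist_dist, edist_dist, ENNReal.ofReal_le_ofReal_iff dist_nonneg] at h1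
    rw [← dist_eq_norm]
    refine h1.trans ?_
    rw [dist_comm]
    exact (Metric.mem_ball.1 hpc).le
  set P := f.range.filter fun x => 0 < γ.real (f ⁻¹' {x})
  have hsum : ∀ F : Euc d × Euc d → ℝ,
      ∫ p, F (f p) ∂γ = ∑ x ∈ P, γ.real (f ⁻¹' {x}) * F x := by
    intro F
    have e1 : ∀ p, F (f p) = ∑ x ∈ f.range, (f ⁻¹' {x}).indicator (fun _ => F x) p := by
      intro p
      rw [Finset.sum_eq_single (f p)]
      · exact (indicator_of_mem (rfl : p ∈ f ⁻¹' {f p}) fun _ => F (f p)).symm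
      · intro x _ hx
        exact indicator_of_notMem (show p ∉ f ⁻¹' {x} from fun h => hx h.symm) _
      · intro h; exact absurd (f.mem_range_self p) h
    simp only [e1]
    rw [integral_finsetSum _ fun x _ => (integrable_const _).indicator (f.measurableSet_preimage _)]
    simp only [integral_indicator_const _ (f.measurableSet_preimage _), smul_eq_mul]
    refine (Finset.sum_filter_of_ne fun x _ hx => ?_).symm
    exact lt_of_le_of_ne measureReal_nonneg fun h => hx (by rw [← h, zero_mul])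
  have hV : 0 < γ.real univ := by
    rw [measureReal_def]
    exact ENNReal.toReal_pos (by simpa using hγ) (measure_ne_top _ _)
  have hPne : P.Nonempty := by
    by_contra h
    have h1 := hsum fun _ => 1
    rw [Finset.not_nonempty_iff_eq_empty.1 h] at h1
    simp at h1
    linarith
  let ι := {x // x ∈ P}
  have : Nonempty ι := hPne.coe_sort
  set m : ι → ℝ := fun i => γ.real (f ⁻¹' {i.1})
  have hmsum : ∀ F : Euc d × Euc d → ℝ, ∫ p, F (f p) ∂γ = ∑ i : ι, m i * F i.1 := fun F => by
    rw [hsum F]; exact (Finset.sum_coe_sort P fun x => γ.real (f ⁻¹' {x}) * F x).symm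
  set e0 : Euc d := EuclideanSpace.single (⟨0, hd⟩ : Fin d) 1
  have he0 : ‖e0‖ = 1 := by simp [e0]
  set nu : ι → ℝ := fun i => ((Fintype.equivFin ι i : ℕ) : ℝ) / (Fintype.card ι : ℝ)
  have hnu : ∀ i, 0 ≤ nu i ∧ nu i ≤ 1 := fun i => ⟨by positivity, by
    rw [div_le_one (by exact_mod_cast Fintype.card_pos)]
    exact_mod_cast (Fintype.equivFin ι i).isLt.le⟩
  have hnuinj : Function.Injective nu := fun i j h => by
    have := (div_left_inj' (by exact_mod_cast Fintype.card_ne_zero)).1 h
    exact (Fintype.equivFin ι).injective (Fin.ext (by exact_mod_cast this))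
  have hbad : ∀ g : ι → Euc d, {s : ℝ | ¬ Function.Injective fun i => g i + (s * nu i) • e0}.Finite := by
    intro g
    have hsub : {s : ℝ | ¬ Function.Injective fun i => g i + (s * nu i) • e0}
        ⊆ ⋃ p : ι × ι, {s | p.1 ≠ p.2 ∧ g p.1 + (s * nu p.1) • e0 = g p.2 + (s * nu p.2) • e0} := by
      intro s hs
      simp only [mem_ofPred_eq, Function.Injective] at hs
      push Not at hs
      obtain ⟨i, j, hij, hne⟩ := hs
      exact mem_iUnion.2 ⟨(i, j), hne, hij⟩
    refine (finite_iUnion fun p => Set.Subsingleton.finite ?_).subset hsub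
    rintro s ⟨hne, hs⟩ s' ⟨-, hs'⟩
    by_contra h
    have h1 := congrArg (fun w => ⟪w, e0⟫) hs
    have h2 := congrArg (fun w => ⟪w, e0⟫) hs'
    simp only [inner_add_left, real_inner_smul_left, real_inner_self_eq_norm_sq, he0] at h1 h2
    have : (s - s') * (nu p.1 - nu p.2) = 0 := by linarith
    rcases mul_eq_zero.1 this with h3 | h3
    · exact h (sub_eq_zero.1 h3)
    · exact hne (hnuinj (sub_eq_zero.1 h3))
  obtain ⟨s, ⟨hs0, hs1⟩, hsbad⟩ := ((Ioo_infinite (show (0 : ℝ) < δ / 2 by positivity)).sdiff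
    ((hbad fun i : ι => i.1.1).union (hbad fun i : ι => i.1.2))).nonempty
  simp only [mem_union, mem_ofPred_eq, not_or, not_not] at hsbad
  set a : ι → Euc d := fun i => i.1.1 + (s * nu i) • e0
  set b : ι → Euc d := fun i => i.1.2 + (s * nu i) • e0
  have hshift : ∀ i, ‖(s * nu i) • e0‖ ≤ δ / 2 := fun i => by
    rw [norm_smul, he0, mul_one, Real.norm_eq_abs, abs_of_nonneg (mul_nonneg hs0.le (hnu i).1)]
    exact (mul_le_of_le_one_right hs0.le (hnu i).2).trans hs1.le
  have hnorm : ∀ i : ι, ‖i.1.1‖ ≤ M ∧ ‖i.1.2‖ ≤ M := by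
    intro i
    obtain ⟨p, hp⟩ := SimpleFunc.mem_range.1 (Finset.mem_filter.1 i.2).1
    have := hfQ p
    rw [hp] at this
    simpa [Q] using this
  have near : ∀ (pr : Euc d × Euc d → Euc d), Continuous pr → (∀ p q, ‖pr p - pr q‖ ≤ ‖p - q‖) →
      ∀ c : ι → Euc d, (∀ i, ‖c i - pr i.1‖ ≤ δ / 2) →
      ∀ g : Euc d → ℝ, Continuous g → ∀ L : ℝ, 0 ≤ L →
        (∀ x y, |g x - g y| ≤ L * ‖x - y‖) →
        |∑ i, m i * g (c i) - ∫ y, g y ∂γ.map pr| ≤ L * δ * (γ.map pr).real univ := by
    intro pr hpr hprl c hc g hg L hL hgl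
    have hu : (γ.map pr).real univ = γ.real univ := by
      rw [measureReal_def, measureReal_def, Measure.map_apply hpr.measurable MeasurableSet.univ,
        preimage_univ]
    rw [hu, integral_map hpr.aemeasurable hg.aestronglyMeasurable]
    set F : Euc d × Euc d → ℝ := fun x => if h : x ∈ P then g (c ⟨x, h⟩) else g (pr x)
    have hF : ∀ x, |F x - g (pr x)| ≤ L * (δ / 2) := by
      intro x
      by_cases h : x ∈ P
      · simp only [F, dif_pos h]
        exact (hgl _ _).trans (mul_le_mul_of_nonneg_left (hc ⟨x, h⟩) hL)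
      · simp only [F, dif_neg h, sub_self, abs_zero]; positivity
    have hFs : ∫ p, F (f p) ∂γ = ∑ i : ι, m i * g (c i) := by
      rw [hmsum]
      exact Finset.sum_congr rfl fun i _ => by simp only [F, dif_pos i.2, Subtype.coe_eta]
    rw [← hFs]
    have hi1 : Integrable (fun p => F (f p)) γ := (f.map F).integrable_of_isFiniteMeasure
    have hi2 : Integrable (fun p => g (pr p)) γ := by
      obtain ⟨C, hC⟩ := hQ.exists_bound_of_continuousOn (hg.comp hpr).continuousOn
      exact Integrable.of_bound (hg.comp hpr).aestronglyMeasurable C (hQae.mono fun p hp => hC p hp)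
    rw [← integral_sub hi1 hi2, ← Real.norm_eq_abs]
    refine (norm_integral_le_of_norm_le_const (C := L * δ) ?_).trans (le_of_eq rfl)
    refine hQae.mono fun p hp => ?_
    rw [Real.norm_eq_abs]
    have h1 := abs_add_le (F (f p) - g (pr (f p))) (g (pr (f p)) - g (pr p))
    rw [sub_add_sub_cancel] at h1
    have h2 := hgl (pr (f p)) (pr p)
    have h3 := mul_le_mul_of_nonneg_left ((hprl (f p) p).trans (hfnear p hp)) hL
    linarith [hF (f p)]
  have hmass : ∀ pr : Euc d × Euc d → Euc d, Continuous pr →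
      ∑ i, m i = (γ.map pr).real univ := by
    intro pr hpr
    have h1 := hmsum fun _ => 1
    simp only [mul_one, integral_const, smul_eq_mul] at h1
    rw [measureReal_def, Measure.map_apply hpr.measurable MeasurableSet.univ, preimage_univ,
      ← measureReal_def, ← h1]
  let A : Atoms (γ.map Prod.fst) δ ι :=
    { a := a, m := m, inj := hsbad.1, pos := fun i => (Finset.mem_filter.1 i.2).2
      mass := hmass _ continuous_fst
      near := near _ continuous_fst (fun p q => norm_fst_le (p - q)) a fun i => by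
        simpa [a] using hshift i }
  let B : Atoms (γ.map Prod.snd) δ ι :=
    { a := b, m := m, inj := hsbad.2, pos := fun i => (Finset.mem_filter.1 i.2).2
      mass := hmass _ continuous_snd
      near := near _ continuous_snd (fun p q => norm_snd_le (p - q)) b fun i => by
        simpa [b] using hshift i }
  refine ⟨ι, inferInstance, inferInstance, A, B, rfl, fun i => ?_, fun i => ?_, ?_⟩
  · refine (norm_add_le _ _).trans ?_
    linarith [(hnorm i).1, hshift i]
  · refine (norm_add_le _ _).trans ?_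
    linarith [(hnorm i).2, hshift i]
  · have e2 : ∀ i, b i - a i = i.1.2 - i.1.1 := fun i => by simp [a, b]
    change ∑ i, m i * ‖b i - a i‖ ^ 2 ≤ _
    simp only [e2]
    rw [← hmsum fun x => ‖x.2 - x.1‖ ^ 2]
    have hc : Continuous fun p : Euc d × Euc d => ‖p.2 - p.1‖ ^ 2 := by fun_prop
    obtain ⟨C, hC⟩ := hQ.exists_bound_of_continuousOn hc.continuousOn
    have hi : Integrable (fun p => ‖p.2 - p.1‖ ^ 2) γ :=
      Integrable.of_bound hc.aestronglyMeasurable C (hQae.mono fun p hp => hC p hp)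
    have hcst : 8 * (M + 1) * δ * γ.real univ = ∫ _p, 8 * (M + 1) * δ ∂γ := by
      rw [integral_const, smul_eq_mul]; ring
    rw [hcst, ← integral_add hi (integrable_const _)]
    have hif : Integrable (fun p => ‖(f p).2 - (f p).1‖ ^ 2) γ :=
      (SimpleFunc.integrable_of_isFiniteMeasure (μ := γ)
        (f.map fun x : Euc d × Euc d => ‖x.2 - x.1‖ ^ 2)).congr
          (Filter.Eventually.of_forall fun p => by simp [SimpleFunc.map_apply])
    refine integral_mono_ae hif
      (hi.add (integrable_const _)) (hQae.mono fun p hp => ?_)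
    have h1 := hfnear p hp
    have h2 := (norm_fst_le (f p - p)).trans h1
    have h3 := (norm_snd_le (f p - p)).trans h1
    simp only [Prod.fst_sub, Prod.snd_sub] at h2 h3
    have h4 : ‖(f p).2 - (f p).1‖ ≤ ‖p.2 - p.1‖ + δ := by
      have : (f p).2 - (f p).1 = (p.2 - p.1) + (((f p).2 - p.2) - ((f p).1 - p.1)) := by abel
      rw [this]
      refine (norm_add_le _ _).trans ?_
      linarith [norm_sub_le ((f p).2 - p.2) ((f p).1 - p.1)]
    have h5 : ‖p.2 - p.1‖ ≤ 2 * M := by
      simp [Q] at hp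
      linarith [norm_sub_le p.2 p.1, hp.1, hp.2]
    simp only
    nlinarith [norm_nonneg (p.2 - p.1), pow_le_pow_left₀ (norm_nonneg _) h4 2,
      mul_le_mul_of_nonneg_left h5 hδ.le]

end Vale.Agent.P074
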