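import Mathlib

/-!
Definitions used in the statement of the stability exponent theorem.
-/

open MeasureTheory Set
open scoped ENNReal NNReal

namespace Vale.Agent.P074

/-- The uniform probability measure on `K`. -/
noncomputable def srcMeasure {d : ℕ} (K : Set (EuclideanSpace ℝ (Fin d))) :
    Measure (EuclideanSpace ℝ (Fin d)) :=
  (volume K)⁻¹ • volume.restrict K

/-- `T` is a quadratic optimal transport map from `ρ` to `μ`. -/
def IsOTMap {d : ℕ} (ρ μ : Measure (EuclideanSpace ℝ (Fin d)))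
    (T : EuclideanSpace ℝ (Fin d) → EuclideanSpace ℝ (Fin d)) : Prop :=
  Measurable T ∧ Measure.map T ρ = μ ∧
    ∀ S : EuclideanSpace ℝ (Fin d) → EuclideanSpace ℝ (Fin d), Measurable S →
      Measure.map S ρ = μ →
        ∫⁻ x, edist x (T x) ^ 2 ∂ρ ≤ ∫⁻ x, edist x (S x) ^ 2 ∂ρ

/-- The quadratic Wasserstein distance. -/
noncomputable def W2 {d : ℕ} (μ ν : Measure (EuclideanSpace ℝ (Fin d))) : ℝ≥0∞ :=
  (⨅ (π : Measure (EuclideanSpace ℝ (Fin d) × EuclideanSpace ℝ (Fin d)))
    (_ : Measure.map Prod.fst π = μ) (_ : Measure.map Prod.snd π = ν),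
      ∫⁻ p, edist p.1 p.2 ^ 2 ∂π) ^ (1 / 2 : ℝ)

/-- The exponent `α` is admissible in dimension `d`: uniform Hölder stability with exponent `α`
for every convex body `K` and every nonempty compact target set `Y`. -/
def Admissible (d : ℕ) (α : ℝ) : Prop :=
  0 < α ∧ α ≤ 1 ∧
    ∀ K Y : Set (EuclideanSpace ℝ (Fin d)), IsCompact K → Convex ℝ K → (interior K).Nonempty →
      IsCompact Y → Y.Nonempty →
        ∃ C : ℝ≥0, ∀ μ ν : Measure (EuclideanSpace ℝ (Fin d)),
          IsProbabilityMeasure μ → IsProbabilityMeasure ν → μ Yᶜ = 0 → ν Yᶜ = 0 →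
            ∀ T S : EuclideanSpace ℝ (Fin d) → EuclideanSpace ℝ (Fin d),
              IsOTMap (srcMeasure K) μ T → IsOTMap (srcMeasure K) ν S →
                (∫⁻ x, edist (T x) (S x) ^ 2 ∂srcMeasure K) ^ (1 / 2 : ℝ)
                  ≤ (C : ℝ≥0∞) * W2 μ ν ^ α

end Vale.Agent.P074
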