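import Mathlib
import Vale.Agent.P074.Laguerre

/-!
Interpolation between L² closeness of convex potentials and L² closeness of their (approximate)
subgradient selections.
-/

open MeasureTheory Set
open scoped RealInnerProductSpace

namespace Vale.Agent.P074

variable {d : ℕ}

/-- The part of `K` that stays in `K` after translation by `v`. -/
def shiftIn (K : Set (Euc d)) (v : Euc d) : Set (Euc d) := {x | x ∈ K ∧ x + v ∈ K}

theorem measurableSet_shiftIn {K : Set (Euc d)} (hK : IsClosed K) (v : Euc d) :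
    MeasurableSet (shiftIn K v) :=
  (hK.inter (hK.preimage (by fun_prop : Continuous fun x : Euc d => x + v))).measurableSet

theorem shift_defect {K : Set (Euc d)} (hK : IsCompact K) (hKc : Convex ℝ K) {c : Euc d} {r : ℝ}
    (hr : 0 < r) (hball : Metric.closedBall c r ⊆ K) (v : Euc d) :
    volume.real (K \ shiftIn K v) ≤ d * ‖v‖ / r * volume.real K := by
  have hfin : volume K ≠ ⊤ := hK.measure_lt_top.ne
  have hVn : 0 ≤ volume.real K := measureReal_nonneg
  rcases le_or_gt r ‖v‖ with hvr | hvr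
  · rcases Nat.eq_zero_or_pos d with hd | hd
    · subst hd
      have : v = 0 := Subsingleton.elim _ _
      simp [this] at hvr
      linarith
    refine (measureReal_mono sdiff_subset hfin).trans ?_
    refine le_mul_of_one_le_left hVn ?_
    rw [one_le_div hr]
    have : (1 : ℝ) ≤ d := by exact_mod_cast hd
    nlinarith [norm_nonneg v]
  · set l := 1 - ‖v‖ / r
    have hl0 : 0 ≤ l := by
      have : ‖v‖ / r ≤ 1 := (div_le_one hr).2 hvr.le
      linarith
    have hl1 : l ≤ 1 := by
      have : 0 ≤ ‖v‖ / r := by positivity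
      linarith
    have hsub : AffineMap.homothety c l '' K ⊆ shiftIn K v := by
      rintro _ ⟨x, hx, rfl⟩
      have hc : c ∈ K := hball (Metric.mem_closedBall_self hr.le)
      simp only [AffineMap.homothety_apply, vsub_eq_sub, vadd_eq_add]
      refine ⟨?_, ?_⟩
      · have := hKc hx hc hl0 (sub_nonneg.2 hl1) (by ring)
        convert this using 1
        module
      · rcases eq_or_ne v 0 with rfl | hv
        · have := hKc hx hc hl0 (sub_nonneg.2 hl1) (by ring)
          convert this using 1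
          module
        · have hw : c + (r / ‖v‖) • v ∈ K := hball (by
            rw [Metric.mem_closedBall, dist_eq_norm, add_sub_cancel_left, norm_smul,
              Real.norm_eq_abs, abs_of_nonneg (by positivity),
              div_mul_cancel₀ _ (norm_ne_zero_iff.2 hv)])
          have := hKc hx hw hl0 (sub_nonneg.2 hl1) (by ring)
          convert this using 1
          have e : (1 - l) * (r / ‖v‖) = 1 := by
            simp only [l]; field_simp [norm_ne_zero_iff.2 hv, hr.ne']; ring
          rw [smul_add, smul_smul, e, one_smul]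
          module
    have h1 : l ^ d * volume.real K ≤ volume.real (shiftIn K v) := by
      have hfin' : volume (shiftIn K v) ≠ ⊤ :=
        ne_top_of_le_ne_top hfin (measure_mono fun x hx => hx.1)
      refine le_trans (le_of_eq ?_) (measureReal_mono hsub hfin')
      simp only [measureReal_def, Measure.addHaar_image_homothety, finrank_euclideanSpace_fin,
        ENNReal.toReal_mul]
      rw [ENNReal.toReal_ofReal (abs_nonneg _), abs_of_nonneg (pow_nonneg hl0 _)]
    have h2 : 1 - (d : ℝ) * (‖v‖ / r) ≤ l ^ d := by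
      have := one_add_mul_le_pow (a := -(‖v‖ / r)) (by linarith) d
      simp only [l, sub_eq_add_neg]
      linarith
    rw [measureReal_sdiff (s₁ := K) (fun x hx => hx.1) (measurableSet_shiftIn hK.isClosed v) hfin]
    have h3 := mul_le_mul_of_nonneg_right h2 hVn
    have h4 : (d : ℝ) * ‖v‖ / r * volume.real K = d * (‖v‖ / r) * volume.real K := by ring
    linarith

theorem integral_shiftIn {K : Set (Euc d)} (hK : IsClosed K) (v : Euc d) (F : Euc d → ℝ) :
    ∫ x in shiftIn K v, F (x + v) = ∫ x in shiftIn K (-v), F x := by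
  rw [← integral_indicator (measurableSet_shiftIn hK v),
    ← integral_indicator (measurableSet_shiftIn hK (-v)),
    ← integral_add_right_eq_self ((shiftIn K (-v)).indicator F) v]
  refine integral_congr_ae (Filter.Eventually.of_forall fun x => ?_)
  by_cases hx : x ∈ shiftIn K v
  · have h2 : x + v ∈ shiftIn K (-v) := ⟨hx.2, by simpa using hx.1⟩
    simp [indicator_of_mem hx, indicator_of_mem h2]
  · have h2 : x + v ∉ shiftIn K (-v) := fun ⟨h1, h2⟩ => hx ⟨by simpa using h2, h1⟩
    simp [indicator_of_notMem hx, indicator_of_notMem h2]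

theorem integrableOn_translate {K : Set (Euc d)} (v : Euc d) {F : Euc d → ℝ}
    (hK : IsClosed K) (hF : IntegrableOn F K) : IntegrableOn (fun x => F (x + v)) (shiftIn K v) := by
  have hs := measurableSet_shiftIn hK v
  have hs' := measurableSet_shiftIn hK (-v)
  rw [← integrable_indicator_iff hs]
  have h := (integrable_indicator_iff hs').2 (hF.mono_set fun x hx => hx.1)
  refine (h.comp_add_right v).congr (Filter.Eventually.of_forall fun x => ?_)
  by_cases hx : x ∈ shiftIn K v
  · have h2 : x + v ∈ shiftIn K (-v) := ⟨hx.2, by simpa using hx.1⟩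
    simp [indicator_of_mem hx, indicator_of_mem h2]
  · have h2 : x + v ∉ shiftIn K (-v) := fun ⟨h1, h2⟩ => hx ⟨by simpa using h2, h1⟩
    simp [indicator_of_notMem hx, indicator_of_notMem h2]

theorem integrableOn_of_bdd {K : Set (Euc d)} (hK : IsCompact K) {F : Euc d → ℝ}
    (hF : Measurable F) {C : ℝ} (h : ∀ᵐ x ∂(volume.restrict K), |F x| ≤ C) : IntegrableOn F K :=
  Measure.integrableOn_of_bounded hK.measure_lt_top.ne hF.aestronglyMeasurable
    (by simpa [Real.norm_eq_abs] using h)

/-- `T` is a subgradient selection of `φ` on `K`, up to the error `s`. -/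
def ApproxSub (K : Set (Euc d)) (φ : Euc d → ℝ) (T : Euc d → Euc d) (s : Euc d → ℝ) : Prop :=
  ∀ᵐ x ∂(volume.restrict K), ∀ z ∈ K, φ x + ⟪T x, z - x⟫ - s x ≤ φ z

theorem pt_bound {t M u u' w w' T₁ T₂ S₁ S₂ s₁ s₂ : ℝ} (ht : 0 < t)
    (hT : |T₁| ≤ M) (hS : |S₁| ≤ M) (hu : |u' - u| ≤ M * t) (hw : |w' - w| ≤ M * t)
    (p1 : u + t * T₁ - s₁ ≤ u') (p3 : u' - t * T₂ - s₂ ≤ u)
    (p2 : w + t * S₁ ≤ w') (p4 : w' - t * S₂ ≤ w) (hs₁ : 0 ≤ s₁) :
    (T₁ - S₁) ^ 2 ≤ 3 * (2 * (u' - w') ^ 2 + 2 * (u - w) ^ 2) / t ^ 2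
      + 6 * M * ((T₂ - T₁) + (2 * s₁ + s₂) / t) + 6 * M * (S₂ - S₁) := by
  set A := (u' - u) / t - T₁
  set B := (w' - w) / t - S₁
  set D := ((u' - w') - (u - w)) / t
  have hq : ∀ z, |z| ≤ M * t → |z / t| ≤ M := fun z h => by
    rwa [abs_div, abs_of_pos ht, div_le_iff₀ ht]
  have hA1 : |A| ≤ 2 * M := by
    linarith [abs_sub ((u' - u) / t) T₁, hq _ hu]
  have hB1 : |B| ≤ 2 * M := by
    linarith [abs_sub ((w' - w) / t) S₁, hq _ hw]
  set P := (T₂ - T₁) + (2 * s₁ + s₂) / t
  set P' := S₂ - S₁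
  have eA : A * t = u' - u - T₁ * t := by simp only [A, sub_mul, div_mul_cancel₀ _ ht.ne']
  have eB : B * t = w' - w - S₁ * t := by simp only [B, sub_mul, div_mul_cancel₀ _ ht.ne']
  have eP : P * t = (T₂ - T₁) * t + (2 * s₁ + s₂) := by
    simp only [P, add_mul, div_mul_cancel₀ _ ht.ne']
  have hA2 : |A| ≤ P := by
    rw [abs_le]
    constructor
    · exact le_of_mul_le_mul_right (by linarith) ht
    · exact le_of_mul_le_mul_right (by linarith) ht
  have hB2 : |B| ≤ P' := by
    rw [abs_le]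
    constructor
    · exact le_of_mul_le_mul_right (by simp only [P']; linarith) ht
    · exact le_of_mul_le_mul_right (by simp only [P']; linarith) ht
  have hkey : T₁ - S₁ = D - A + B := by simp only [A, B, D]; ring
  have h3 : A ^ 2 ≤ 2 * M * P := by
    rw [← sq_abs, pow_two]
    exact mul_le_mul hA1 hA2 (abs_nonneg _) ((abs_nonneg A).trans hA1)
  have h4 : B ^ 2 ≤ 2 * M * P' := by
    rw [← sq_abs, pow_two]
    exact mul_le_mul hB1 hB2 (abs_nonneg _) ((abs_nonneg B).trans hB1)
  have hD : D ^ 2 ≤ (2 * (u' - w') ^ 2 + 2 * (u - w) ^ 2) / t ^ 2 := by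
    simp only [D, div_pow]
    refine div_le_div_of_nonneg_right ?_ (sq_nonneg t)
    nlinarith [sq_nonneg ((u' - w') + (u - w))]
  have hsq : (D - A + B) ^ 2 ≤ 3 * (D ^ 2 + A ^ 2 + B ^ 2) := by
    nlinarith [sq_nonneg (D + A), sq_nonneg (D - B), sq_nonneg (A + B)]
  rw [hkey]
  have e : 3 * (2 * (u' - w') ^ 2 + 2 * (u - w) ^ 2) / t ^ 2
      = 3 * ((2 * (u' - w') ^ 2 + 2 * (u - w) ^ 2) / t ^ 2) := by ring
  linarith

theorem majorant_integral {Q : Set (Euc d)} {a b c e f g h i : Euc d → ℝ} {t M : ℝ}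
    (ha : IntegrableOn a Q) (hb : IntegrableOn b Q) (hc : IntegrableOn c Q)
    (he : IntegrableOn e Q) (hf : IntegrableOn f Q) (hg : IntegrableOn g Q)
    (hh : IntegrableOn h Q) (hi : IntegrableOn i Q) :
    ∫ x in Q, (3 * (2 * a x + 2 * b x) / t ^ 2 + 6 * M * ((c x - e x) + (2 * f x + g x) / t)
        + 6 * M * (h x - i x))
      = 3 * (2 * (∫ x in Q, a x) + 2 * ∫ x in Q, b x) / t ^ 2
        + 6 * M * (((∫ x in Q, c x) - ∫ x in Q, e x) + (2 * (∫ x in Q, f x) + ∫ x in Q, g x) / t)
        + 6 * M * ((∫ x in Q, h x) - ∫ x in Q, i x) := by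
  have j1 : IntegrableOn (fun x => 3 * (2 * a x + 2 * b x) / t ^ 2) Q :=
    (((ha.const_mul 2).add (hb.const_mul 2)).const_mul 3).div_const _
  have k1 : IntegrableOn (fun x => c x - e x) Q := hc.sub he
  have k2 : IntegrableOn (fun x => (2 * f x + g x) / t) Q := ((hf.const_mul 2).add hg).div_const t
  have j2 : IntegrableOn (fun x => 6 * M * ((c x - e x) + (2 * f x + g x) / t)) Q :=
    (k1.add k2).const_mul _
  have j3 : IntegrableOn (fun x => 6 * M * (h x - i x)) Q := (hh.sub hi).const_mul _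
  have j12 : IntegrableOn (fun x => 3 * (2 * a x + 2 * b x) / t ^ 2
      + 6 * M * ((c x - e x) + (2 * f x + g x) / t)) Q := j1.add j2
  rw [integral_add j12 j3, integral_add j1 j2, integral_div, integral_const_mul,
    integral_add (ha.const_mul 2) (hb.const_mul 2), integral_const_mul, integral_const_mul,
    integral_const_mul, integral_add k1 k2, integral_sub hc he, integral_div,
    integral_add (hf.const_mul 2) hg, integral_const_mul, integral_const_mul, integral_sub hh hi]

theorem interp_coord {K : Set (Euc d)} (hK : IsCompact K) (hKc : Convex ℝ K) {c : Euc d} {r : ℝ}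
    (hr : 0 < r) (hball : Metric.closedBall c r ⊆ K) {φ ψ : Euc d → ℝ} {M : ℝ} (hM : 0 ≤ M)
    (hφc : Continuous φ) (hψc : Continuous ψ)
    (hφ : ∀ x z, |φ x - φ z| ≤ M * ‖x - z‖) (hψ : ∀ x z, |ψ x - ψ z| ≤ M * ‖x - z‖)
    {T S : Euc d → Euc d} (hT : Measurable T) (hS : Measurable S)
    (hTM : ∀ᵐ x ∂(volume.restrict K), ‖T x‖ ≤ M) (hSM : ∀ᵐ x ∂(volume.restrict K), ‖S x‖ ≤ M)
    {s : Euc d → ℝ} (hs : IntegrableOn s K) (hs0 : ∀ᵐ x ∂(volume.restrict K), 0 ≤ s x)
    (hTs : ApproxSub K φ T s) (hSs : ApproxSub K ψ S fun _ => 0) {t : ℝ} (ht : 0 < t) (k : Fin d) :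
    ∫ x in K, (T x k - S x k) ^ 2 ≤ 12 * (∫ x in K, (φ x - ψ x) ^ 2) / t ^ 2
      + 28 * M ^ 2 * (d * t / r * volume.real K) + 18 * M * (∫ x in K, s x) / t := by
  set v : Euc d := t • EuclideanSpace.single k (1 : ℝ) with hv
  have hvn : ‖v‖ = t := by simp [hv, norm_smul, abs_of_pos ht]
  have hin : ∀ w : Euc d, ⟪w, v⟫ = t * w k := by
    intro w; simp [hv, inner_smul_right, EuclideanSpace.inner_single_right]
  set ω := (d : ℝ) * t / r * volume.real K
  have hω : volume.real (K \ shiftIn K v) ≤ ω := by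
    simpa [hvn] using shift_defect hK hKc hr hball v
  have hω' : volume.real (K \ shiftIn K (-v)) ≤ ω := by
    simpa [hvn] using shift_defect hK hKc hr hball (-v)
  have hm := measurableSet_shiftIn hK.isClosed v
  have hKm : MeasurableSet K := hK.measurableSet
  have hsub : shiftIn K v ⊆ K := fun x hx => hx.1
  have hsub' : shiftIn K (-v) ⊆ K := fun x hx => hx.1
  have hcoord : Measurable fun w : Euc d => w k :=
    (PiLp.continuous_apply 2 (fun _ => ℝ) k).measurable
  set Te : Euc d → ℝ := fun x => T x k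
  set Se : Euc d → ℝ := fun x => S x k
  have hTe : ∀ᵐ x ∂(volume.restrict K), |Te x| ≤ M := hTM.mono fun x h =>
    le_trans (PiLp.norm_apply_le (T x) k) h
  have hSe : ∀ᵐ x ∂(volume.restrict K), |Se x| ≤ M := hSM.mono fun x h =>
    le_trans (PiLp.norm_apply_le (S x) k) h
  have hTi : IntegrableOn Te K := integrableOn_of_bdd hK (hcoord.comp hT) hTe
  have hSi : IntegrableOn Se K := integrableOn_of_bdd hK (hcoord.comp hS) hSe
  set F : Euc d → ℝ := fun x => (T x k - S x k) ^ 2
  have hFb : ∀ᵐ x ∂(volume.restrict K), |F x| ≤ 4 * M ^ 2 := by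
    filter_upwards [hTe, hSe] with x h1 h2
    simp only [F]
    rw [abs_of_nonneg (sq_nonneg _)]
    nlinarith [abs_le.1 h1, abs_le.1 h2]
  have hFi : IntegrableOn F K :=
    integrableOn_of_bdd hK (((hcoord.comp hT).sub (hcoord.comp hS)).pow_const 2) hFb
  set U : Euc d → ℝ := fun x => (φ x - ψ x) ^ 2
  have hUi : IntegrableOn U K := integrableOn_of_cont hK ((hφc.sub hψc).pow 2)
  -- decomposition of the domain
  have hsplit : ∫ x in K, F x = (∫ x in shiftIn K v, F x) + ∫ x in K \ shiftIn K v, F x := by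
    rw [← setIntegral_union disjoint_sdiff_right (MeasurableSet.diff hKm hm) (hFi.mono_set hsub)
      (hFi.mono_set sdiff_subset), union_sdiff_cancel hsub]
  have hbad : ∫ x in K \ shiftIn K v, F x ≤ 4 * M ^ 2 * ω := by
    refine le_trans ?_ (mul_le_mul_of_nonneg_left hω (by positivity))
    have hfin : volume (K \ shiftIn K v) < ⊤ :=
      lt_of_le_of_lt (measure_mono sdiff_subset) hK.measure_lt_top
    calc ∫ x in K \ shiftIn K v, F x ≤ ∫ _x in K \ shiftIn K v, 4 * M ^ 2 := by
          refine setIntegral_mono_ae_restrict (hFi.mono_set sdiff_subset)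
            (integrableOn_const hfin.ne) ?_
          exact (ae_restrict_of_ae_restrict_of_subset sdiff_subset hFb).mono fun x hx =>
            (le_abs_self _).trans hx
      _ = 4 * M ^ 2 * volume.real (K \ shiftIn K v) := by
          rw [setIntegral_const, smul_eq_mul]; ring
  -- pointwise bound on the good part
  set H : Euc d → ℝ := fun x => 3 * (2 * U (x + v) + 2 * U x) / t ^ 2
    + 6 * M * ((Te (x + v) - Te x) + (2 * s x + s (x + v)) / t)
    + 6 * M * (Se (x + v) - Se x)
  have hHi : IntegrableOn H (shiftIn K v) := by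
    have i1 := integrableOn_translate v hK.isClosed hUi
    have i2 := integrableOn_translate v hK.isClosed hTi
    have i3 := integrableOn_translate v hK.isClosed hSi
    have i4 := integrableOn_translate v hK.isClosed hs
    exact (((((i1.const_mul 2).add ((hUi.mono_set hsub).const_mul 2)).const_mul 3).div_const _).add
      (((i2.sub (hTi.mono_set hsub)).add
        ((((hs.mono_set hsub).const_mul 2).add i4).div_const t)).const_mul _)).add
      ((i3.sub (hSi.mono_set hsub)).const_mul _)
  have hpt : ∫ x in shiftIn K v, F x ≤ ∫ x in shiftIn K v, H x := by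
    refine setIntegral_mono_ae_restrict (hFi.mono_set hsub) hHi ?_
    have hTs' : ∀ᵐ x : Euc d, x ∈ K → (|Te x| ≤ M ∧ |Se x| ≤ M ∧ 0 ≤ s x ∧
        (∀ z ∈ K, φ x + ⟪T x, z - x⟫ - s x ≤ φ z) ∧ ∀ z ∈ K, ψ x + ⟪S x, z - x⟫ - 0 ≤ ψ z) := by
      filter_upwards [(ae_restrict_iff' hKm).1 hTe, (ae_restrict_iff' hKm).1 hSe,
        (ae_restrict_iff' hKm).1 hs0, (ae_restrict_iff' hKm).1 hTs,
        (ae_restrict_iff' hKm).1 hSs] with x a b e f g hx
      exact ⟨a hx, b hx, e hx, f hx, g hx⟩
    have hTs'' := (measurePreserving_add_right (volume : Measure (Euc d)) v).quasiMeasurePreserving.ae hTs'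
    change ∀ᵐ x ∂(volume.restrict (shiftIn K v)), F x ≤ H x
    rw [ae_restrict_iff' hm]
    filter_upwards [hTs', hTs''] with x h1 h2 hx
    obtain ⟨a1, b1, e1, f1, g1⟩ := h1 hx.1
    obtain ⟨a2, b2, e2, f2, g2⟩ := h2 hx.2
    have p1 := f1 (x + v) hx.2
    have p2 := g1 (x + v) hx.2
    have p3 := f2 x hx.1
    have p4 := g2 x hx.1
    rw [add_sub_cancel_left, hin] at p1 p2
    rw [show x - (x + v) = -v by abel, inner_neg_right, hin] at p3 p4
    have hpx := hφ (x + v) x
    have hqx := hψ (x + v) x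
    rw [add_sub_cancel_left, hvn] at hpx hqx
    exact pt_bound ht a1 b1 hpx hqx
      (by linarith) (by linarith) (by linarith) (by linarith) e1
  -- integral of the majorant
  have hint : ∀ {G : Euc d → ℝ}, IntegrableOn G K →
      (∀ᵐ x ∂(volume.restrict K), |G x| ≤ M) →
      (∫ x in shiftIn K v, G (x + v)) - ∫ x in shiftIn K v, G x ≤ 2 * M * ω := by
    intro G hG hGb
    rw [integral_shiftIn hK.isClosed]
    have hm' := measurableSet_shiftIn hK.isClosed (-v)
    have e1 : ∫ x in K, G x = (∫ x in shiftIn K (-v), G x) + ∫ x in K \ shiftIn K (-v), G x := by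
      rw [← setIntegral_union disjoint_sdiff_right (MeasurableSet.diff hKm hm') (hG.mono_set hsub')
        (hG.mono_set sdiff_subset), union_sdiff_cancel hsub']
    have e2 : ∫ x in K, G x = (∫ x in shiftIn K v, G x) + ∫ x in K \ shiftIn K v, G x := by
      rw [← setIntegral_union disjoint_sdiff_right (MeasurableSet.diff hKm hm) (hG.mono_set hsub)
        (hG.mono_set sdiff_subset), union_sdiff_cancel hsub]
    have b : ∀ w : Euc d, volume.real (K \ shiftIn K w) ≤ ω →
        |∫ x in K \ shiftIn K w, G x| ≤ M * ω := by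
      intro w hw
      have h := norm_setIntegral_le_of_norm_le_const_ae' (μ := volume) (f := G)
        (s := K \ shiftIn K w) (C := M)
        (lt_of_le_of_lt (measure_mono sdiff_subset) hK.measure_lt_top) (by
          filter_upwards [(ae_restrict_iff' hKm).1 hGb] with x hx hxs
          exact hx hxs.1)
      exact h.trans (mul_le_mul_of_nonneg_left hw hM)
    linarith [(abs_le.1 (b v hω)).2, (abs_le.1 (b (-v) hω')).1]
  have hT2 := hint hTi hTe
  have hS2 := hint hSi hSe
  have hmono : ∀ {G : Euc d → ℝ}, IntegrableOn G K → (∀ᵐ x ∂(volume.restrict K), 0 ≤ G x) →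
      (∫ x in shiftIn K v, G x) ≤ ∫ x in K, G x ∧
      (∫ x in shiftIn K v, G (x + v)) ≤ ∫ x in K, G x := by
    intro G hG h0
    refine ⟨setIntegral_mono_set hG h0 (Filter.Eventually.of_forall fun x hx => hx.1), ?_⟩
    rw [integral_shiftIn hK.isClosed]
    exact setIntegral_mono_set hG h0 (Filter.Eventually.of_forall fun x hx => hx.1)
  have hU2 := hmono hUi (Filter.Eventually.of_forall fun x => sq_nonneg _)
  have hs2 := hmono hs hs0
  have hH : ∫ x in shiftIn K v, H x ≤ 12 * (∫ x in K, U x) / t ^ 2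
      + 6 * M * (2 * M * ω + 3 * (∫ x in K, s x) / t) + 6 * M * (2 * M * ω) := by
    simp only [H]
    rw [majorant_integral (integrableOn_translate v hK.isClosed hUi) (hUi.mono_set hsub)
      (integrableOn_translate v hK.isClosed hTi) (hTi.mono_set hsub) (hs.mono_set hsub)
      (integrableOn_translate v hK.isClosed hs) (integrableOn_translate v hK.isClosed hSi)
      (hSi.mono_set hsub)]
    refine add_le_add (add_le_add ?_ ?_) (mul_le_mul_of_nonneg_left hS2 (by linarith))
    · refine div_le_div_of_nonneg_right ?_ (sq_nonneg t)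
      linarith [hU2.1, hU2.2]
    · refine mul_le_mul_of_nonneg_left (add_le_add hT2 ?_) (by linarith)
      refine div_le_div_of_nonneg_right ?_ ht.le
      linarith [hs2.1, hs2.2]
  calc ∫ x in K, (T x k - S x k) ^ 2 = ∫ x in K, F x := rfl
    _ = _ := hsplit
    _ ≤ _ := add_le_add hpt hbad
    _ ≤ _ := add_le_add hH le_rfl
    _ = _ := by simp only [U]; ring

/-- The interpolation inequality. -/
theorem interp {K : Set (Euc d)} (hK : IsCompact K) (hKc : Convex ℝ K) {c : Euc d} {r : ℝ}
    (hr : 0 < r) (hball : Metric.closedBall c r ⊆ K) {φ ψ : Euc d → ℝ} {M : ℝ} (hM : 0 ≤ M)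
    (hφc : Continuous φ) (hψc : Continuous ψ)
    (hφ : ∀ x z, |φ x - φ z| ≤ M * ‖x - z‖) (hψ : ∀ x z, |ψ x - ψ z| ≤ M * ‖x - z‖)
    {T S : Euc d → Euc d} (hT : Measurable T) (hS : Measurable S)
    (hTM : ∀ᵐ x ∂(volume.restrict K), ‖T x‖ ≤ M) (hSM : ∀ᵐ x ∂(volume.restrict K), ‖S x‖ ≤ M)
    {s : Euc d → ℝ} (hs : IntegrableOn s K) (hs0 : ∀ᵐ x ∂(volume.restrict K), 0 ≤ s x)
    (hTs : ApproxSub K φ T s) (hSs : ApproxSub K ψ S fun _ => 0) {t : ℝ} (ht : 0 < t) :
    ∫ x in K, ‖T x - S x‖ ^ 2 ≤ d * (12 * (∫ x in K, (φ x - ψ x) ^ 2) / t ^ 2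
      + 28 * M ^ 2 * (d * t / r * volume.real K) + 18 * M * (∫ x in K, s x) / t) := by
  have e : ∀ x, ‖T x - S x‖ ^ 2 = ∑ k : Fin d, (T x k - S x k) ^ 2 := fun x => by
    rw [EuclideanSpace.norm_sq_eq]
    simp [Real.norm_eq_abs, sq_abs]
  simp only [e]
  rw [integral_finsetSum]
  · refine (Finset.sum_le_sum fun k _ =>
      interp_coord hK hKc hr hball hM hφc hψc hφ hψ hT hS hTM hSM hs hs0 hTs hSs ht k).trans ?_
    rw [Finset.sum_const, Finset.card_univ, Fintype.card_fin, nsmul_eq_mul]
  · intro k _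
    have hcoord : Measurable fun w : Euc d => w k :=
      (PiLp.continuous_apply 2 (fun _ => ℝ) k).measurable
    refine integrableOn_of_bdd hK (((hcoord.comp hT).sub (hcoord.comp hS)).pow_const 2)
      (C := 4 * M ^ 2) ?_
    filter_upwards [hTM, hSM] with x h1 h2
    have a := (PiLp.norm_apply_le (T x) k).trans h1
    have b := (PiLp.norm_apply_le (S x) k).trans h2
    rw [Real.norm_eq_abs, abs_le] at a b
    change |(T x k - S x k) ^ 2| ≤ _
    rw [abs_of_nonneg (sq_nonneg _)]
    nlinarith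

end Vale.Agent.P074
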