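import Mathlib

/-!
A midpoint Prékopa–Leindler inequality on finite dimensional Euclidean space,
in the form (∫ F)(∫ G) ≤ (∫ H)^2 whenever F x * G z ≤ H((x+z)/2)^2.
-/

open MeasureTheory Set
open scoped ENNReal Pointwise

namespace Vale.Agent.P074

/-- One-dimensional Brunn–Minkowski inequality, midpoint form. -/
theorem bm_one {A B C : Set ℝ} (hA : MeasurableSet A) (hB : MeasurableSet B)
    (hAne : A.Nonempty) (hBne : B.Nonempty)
    (h : ∀ a ∈ A, ∀ b ∈ B, (a + b) / 2 ∈ C) :
    volume A + volume B ≤ 2 * volume C := by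
  have key : ∀ P Q : Set ℝ, IsCompact P → IsCompact Q → P.Nonempty → Q.Nonempty →
      P ⊆ A → Q ⊆ B → volume P + volume Q ≤ 2 * volume C := by
    intro P Q hP hQ hPne hQne hPA hQB
    obtain ⟨α, hαP, hα⟩ := hP.exists_isGreatest hPne
    obtain ⟨β, hβQ, hβ⟩ := hQ.exists_isLeast hQne
    set P' := (fun x => x + β) '' P
    set Q' := (fun x => x + α) '' Q
    have hsub : P' ∪ Q' ⊆ (2 : ℝ) • C := by
      rintro y (⟨a, ha, rfl⟩ | ⟨b, hb, rfl⟩)
      · exact ⟨(a + β) / 2, h a (hPA ha) β (hQB hβQ), by simp only [smul_eq_mul]; ring⟩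
      · exact ⟨(α + b) / 2, h α (hPA hαP) b (hQB hb), by simp only [smul_eq_mul]; ring⟩
    have hint : P' ∩ Q' ⊆ {α + β} := by
      rintro y ⟨⟨a, ha, rfl⟩, ⟨b, hb, hby⟩⟩
      have h1 := hα ha
      have h2 := hβ hb
      simp only [mem_singleton_iff]
      simp only at hby
      linarith
    have hQ'm : MeasurableSet Q' := (hQ.image (by fun_prop)).measurableSet
    have hvolP : volume P' = volume P := by simp [P', image_add_right]
    have hvolQ : volume Q' = volume Q := by simp [Q', image_add_right]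
    have hzero : volume (P' ∩ Q') = 0 := measure_mono_null hint (by simp)
    calc volume P + volume Q = volume (P' ∪ Q') + volume (P' ∩ Q') := by
          rw [measure_union_add_inter P' hQ'm, hvolP, hvolQ]
      _ = volume (P' ∪ Q') := by rw [hzero, add_zero]
      _ ≤ volume ((2 : ℝ) • C) := measure_mono hsub
      _ = 2 * volume C := by
          rw [Measure.addHaar_smul]
          simp [ENNReal.ofReal_ofNat]
  obtain ⟨a₀, ha₀⟩ := hAne
  obtain ⟨b₀, hb₀⟩ := hBne
  have hApprox : ∀ (S : Set ℝ) (x₀ : ℝ), MeasurableSet S → x₀ ∈ S → ∀ r < volume S,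
      ∃ P, P ⊆ S ∧ IsCompact P ∧ P.Nonempty ∧ r < volume P := by
    intro S x₀ hS hx r hr
    obtain ⟨P, hPS, hP, hrP⟩ := hS.exists_lt_isCompact hr
    exact ⟨insert x₀ P, insert_subset hx hPS, hP.insert x₀, insert_nonempty _ _,
      hrP.trans_le (measure_mono (subset_insert _ _))⟩
  rcases eq_or_ne (volume A) 0 with hA0 | hA0 <;> rcases eq_or_ne (volume B) 0 with hB0 | hB0
  · simp [hA0, hB0]
  · rw [hA0, zero_add]
    refine le_of_forall_lt fun r hr => ?_
    obtain ⟨Q, hQB, hQ, hQne, hrQ⟩ := hApprox B b₀ hB hb₀ r hr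
    have := key {a₀} Q isCompact_singleton hQ (singleton_nonempty _) hQne (by simpa using ha₀) hQB
    exact hrQ.trans_le ((self_le_add_left _ _).trans this)
  · rw [hB0, add_zero]
    refine le_of_forall_lt fun r hr => ?_
    obtain ⟨P, hPA, hP, hPne, hrP⟩ := hApprox A a₀ hA ha₀ r hr
    have := key P {b₀} hP isCompact_singleton hPne (singleton_nonempty _) hPA (by simpa using hb₀)
    exact hrP.trans_le ((self_le_add_right _ _).trans this)
  · refine ENNReal.le_of_forall_pos_le_add fun ε hε _ => ?_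
    by_contra hcon
    push Not at hcon
    have h2 : 2 * volume C < volume A + volume B := lt_of_le_of_lt le_self_add hcon
    obtain ⟨r, hr, s, hs, hrs⟩ := ENNReal.exists_lt_add_of_lt_add h2 hA0 hB0
    obtain ⟨P, hPA, hP, hPne, hrP⟩ := hApprox A a₀ hA ha₀ r hr
    obtain ⟨Q, hQB, hQ, hQne, hsQ⟩ := hApprox B b₀ hB hb₀ s hs
    exact absurd (key P Q hP hQ hPne hQne hPA hQB) (not_le.2 (hrs.trans_le (add_le_add hrP.le hsQ.le)))

/-- Layer cake for a bounded function, normalised by its bound. -/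
theorem layer_unit {X : Type*} [MeasurableSpace X] (μ : Measure X) {f : X → ℝ} {a : ℝ}
    (hf : Measurable f) (h0 : ∀ x, 0 ≤ f x) (ha : 0 < a) (hle : ∀ x, f x ≤ a) :
    ∫⁻ r in Ioo (0 : ℝ) 1, μ {x | r < f x / a} = (∫⁻ x, ENNReal.ofReal (f x) ∂μ) / ENNReal.ofReal a := by
  have h1 : ∫⁻ x, ENNReal.ofReal (f x / a) ∂μ = ∫⁻ r in Ioi (0 : ℝ), μ {x | r < f x / a} :=
    lintegral_eq_lintegral_meas_lt μ (Filter.Eventually.of_forall fun x => div_nonneg (h0 x) ha.le)
      (hf.div_const a).aemeasurable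
  have h2 : ∫⁻ r in Ioi (0 : ℝ), μ {x | r < f x / a}
      = ∫⁻ r in Ioo (0 : ℝ) 1, μ {x | r < f x / a} := by
    rw [← lintegral_indicator measurableSet_Ioi, ← lintegral_indicator measurableSet_Ioo]
    refine lintegral_congr fun r => ?_
    by_cases hr : r ∈ Ioi (0 : ℝ)
    · rw [indicator_of_mem hr]
      by_cases hr1 : r < 1
      · rw [indicator_of_mem (show r ∈ Ioo (0 : ℝ) 1 from ⟨hr, hr1⟩)]
      · rw [indicator_of_notMem (fun h => hr1 h.2)]
        have : {x | r < f x / a} = ∅ := by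
          ext x
          simp only [mem_ofPred_eq, mem_empty_iff_false, iff_false, not_lt]
          have := (div_le_one ha).2 (hle x)
          linarith [not_lt.1 hr1]
        simp [this]
    · rw [indicator_of_notMem hr, indicator_of_notMem (fun h => hr h.1)]
  rw [← h2, ← h1]
  simp_rw [ENNReal.ofReal_div_of_pos ha, div_eq_mul_inv]
  rw [lintegral_mul_const' _ _ (ENNReal.inv_ne_top.2 (by simp [ha]))]

/-- Midpoint Prékopa–Leindler on the line for bounded real functions. -/
theorem pl_one_bdd {f g h : ℝ → ℝ} (hf : Measurable f) (hg : Measurable g) (hh : Measurable h)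
    (f0 : ∀ x, 0 ≤ f x) (g0 : ∀ x, 0 ≤ g x) (h0 : ∀ x, 0 ≤ h x)
    {M : ℝ} (fM : ∀ x, f x ≤ M) (gM : ∀ x, g x ≤ M)
    (H : ∀ x z, f x * g z ≤ h ((x + z) / 2) ^ 2) :
    (∫⁻ x, ENNReal.ofReal (f x)) * (∫⁻ x, ENNReal.ofReal (g x))
      ≤ (∫⁻ x, ENNReal.ofReal (h x)) ^ 2 := by
  set a := ⨆ x, f x
  set b := ⨆ x, g x
  have bf : BddAbove (range f) := ⟨M, by rintro _ ⟨x, rfl⟩; exact fM x⟩
  have bg : BddAbove (range g) := ⟨M, by rintro _ ⟨x, rfl⟩; exact gM x⟩
  have fa : ∀ x, f x ≤ a := le_ciSup bf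
  have gb : ∀ x, g x ≤ b := le_ciSup bg
  by_cases ha : 0 < a
  swap
  · have : ∀ x, f x = 0 := fun x => le_antisymm ((fa x).trans (not_lt.1 ha)) (f0 x)
    simp [this]
  by_cases hb : 0 < b
  swap
  · have : ∀ x, g x = 0 := fun x => le_antisymm ((gb x).trans (not_lt.1 hb)) (g0 x)
    simp [this]
  set c := Real.sqrt (a * b)
  have hc : 0 < c := Real.sqrt_pos.2 (mul_pos ha hb)
  have hc2 : c ^ 2 = a * b := Real.sq_sqrt (mul_pos ha hb).le
  -- truncate h at c
  set k := fun x => min (h x) c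
  have hk : Measurable k := hh.min measurable_const
  have k0 : ∀ x, 0 ≤ k x := fun x => le_min (h0 x) hc.le
  have Hk : ∀ x z, f x * g z ≤ k ((x + z) / 2) ^ 2 := by
    intro x z
    rcases le_total (h ((x + z) / 2)) c with hl | hl
    · simp only [k, min_eq_left hl]; exact H x z
    · simp only [k, min_eq_right hl, hc2]; exact mul_le_mul (fa x) (gb z) (g0 z) ha.le
  have hineq : ∀ r ∈ Ioo (0 : ℝ) 1,
      volume {x | r < f x / a} + volume {x | r < g x / b} ≤ 2 * volume {x | r < k x / c} := by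
    intro r hr
    refine bm_one (measurableSet_lt measurable_const (hf.div_const a))
      (measurableSet_lt measurable_const (hg.div_const b)) ?_ ?_ ?_
    · obtain ⟨x, hx⟩ := exists_lt_of_lt_ciSup (show r * a < ⨆ x, f x from by nlinarith [hr.2])
      exact ⟨x, by simpa [lt_div_iff₀ ha] using hx⟩
    · obtain ⟨x, hx⟩ := exists_lt_of_lt_ciSup (show r * b < ⨆ x, g x from by nlinarith [hr.2])
      exact ⟨x, by simpa [lt_div_iff₀ hb] using hx⟩
    · intro x hx z hz
      simp only [mem_ofPred_eq, lt_div_iff₀ ha] at hx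
      simp only [mem_ofPred_eq, lt_div_iff₀ hb] at hz
      simp only [mem_ofPred_eq, lt_div_iff₀ hc]
      have h1 : (r * c) ^ 2 < k ((x + z) / 2) ^ 2 := by
        refine lt_of_lt_of_le ?_ (Hk x z)
        rw [mul_pow, hc2]
        have h2 : 0 ≤ r * b := mul_nonneg hr.1.le hb.le
        nlinarith [mul_lt_mul'' hx hz (mul_nonneg hr.1.le ha.le) h2]
      exact lt_of_pow_lt_pow_left₀ 2 (k0 _) h1
  have hint := setLIntegral_mono' (μ := volume) measurableSet_Ioo hineq
  have hkc : ∀ x, k x ≤ c := fun x => min_le_right _ _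
  have m1 : Measurable fun r : ℝ => volume {x | r < f x / a} :=
    Antitone.measurable fun r s hrs => measure_mono fun x (hx : s < f x / a) => lt_of_le_of_lt hrs hx
  rw [lintegral_add_left m1, lintegral_const_mul' _ _ (by simp), layer_unit _ hf f0 ha fa,
    layer_unit _ hg g0 hb gb, layer_unit _ hk k0 hc hkc] at hint
  have hkh : ∫⁻ x, ENNReal.ofReal (k x) ≤ ∫⁻ x, ENNReal.ofReal (h x) :=
    lintegral_mono fun x => ENNReal.ofReal_le_ofReal (min_le_left _ _)
  refine le_trans ?_ (pow_le_pow_left' hkh 2)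
  generalize (∫⁻ x, ENNReal.ofReal (f x)) = I at hint ⊢
  generalize (∫⁻ x, ENNReal.ofReal (g x)) = J at hint ⊢
  generalize (∫⁻ x, ENNReal.ofReal (k x)) = L at hint ⊢
  rcases eq_or_ne L ⊤ with hL | hL
  · simp [hL]
  have hI : I / ENNReal.ofReal a ≠ ⊤ := ne_top_of_le_ne_top
    (ENNReal.mul_ne_top (by simp) (ENNReal.div_ne_top hL (by simp [hc]))) (le_self_add.trans hint)
  have hJ : J / ENNReal.ofReal b ≠ ⊤ := ne_top_of_le_ne_top
    (ENNReal.mul_ne_top (by simp) (ENNReal.div_ne_top hL (by simp [hc]))) (le_add_self.trans hint)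
  have hI' : I ≠ ⊤ := fun h => hI (by simp [h, ENNReal.top_div])
  have hJ' : J ≠ ⊤ := fun h => hJ (by simp [h, ENNReal.top_div])
  lift I to NNReal using hI'
  lift J to NNReal using hJ'
  lift L to NNReal using hL
  have hr := ENNReal.toReal_mono (ENNReal.mul_ne_top (by simp)
    (ENNReal.div_ne_top (by simp) (by simp [hc]))) hint
  rw [ENNReal.toReal_add hI hJ] at hr
  simp [ENNReal.toReal_div, ENNReal.toReal_mul, ENNReal.toReal_ofReal, ha.le, hb.le, hc.le] at hr
  rw [← ENNReal.coe_mul, ← ENNReal.coe_pow, ENNReal.coe_le_coe, ← NNReal.coe_le_coe]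
  push_cast
  have e : (I : ℝ) * J = c ^ 2 * ((I / a) * (J / b)) := by rw [hc2]; field_simp
  have e' : (L : ℝ) ^ 2 = c ^ 2 * (L / c) ^ 2 := by field_simp
  rw [e, e']
  refine mul_le_mul_of_nonneg_left ?_ (sq_nonneg c)
  have p1 : 0 ≤ (I : ℝ) / a := by positivity
  have p2 : 0 ≤ (J : ℝ) / b := by positivity
  nlinarith [sq_nonneg ((I : ℝ) / a - J / b), mul_le_mul hr hr (by positivity) (by positivity)]

/-- Midpoint Prékopa–Leindler on the line. -/
theorem pl_one {f g h : ℝ → ℝ≥0∞} (hf : Measurable f) (hg : Measurable g) (hh : Measurable h)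
    (H : ∀ x z, f x * g z ≤ h ((x + z) / 2) ^ 2) :
    (∫⁻ x, f x) * (∫⁻ x, g x) ≤ (∫⁻ x, h x) ^ 2 := by
  have hsup : ∀ (u : ℝ → ℝ≥0∞), Measurable u →
      ∫⁻ x, u x = ⨆ n : ℕ, ∫⁻ x, min (u x) n := by
    intro u hu
    rw [← lintegral_iSup (fun n => hu.min measurable_const)
      (fun m n hmn x => min_le_min_left _ (by exact_mod_cast hmn))]
    refine lintegral_congr fun x => ?_
    refine le_antisymm ?_ (iSup_le fun n => min_le_left _ _)
    rcases eq_or_ne (u x) ⊤ with h | h
    · simp [h, ENNReal.iSup_natCast]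
    · obtain ⟨n, hn⟩ := ENNReal.exists_nat_gt h
      exact le_iSup_of_le n (by simp [hn.le])
  rw [hsup f hf, hsup g hg, ENNReal.iSup_mul]
  refine iSup_le fun n => ?_
  rw [ENNReal.mul_iSup]
  refine iSup_le fun m => ?_
  let N : ℝ := max n m
  have fin : ∀ (u : ℝ → ℝ≥0∞) (n : ℕ) x, min (u x) (n : ℝ≥0∞) ≠ ⊤ := fun u n x =>
    ne_top_of_le_ne_top (by simp) (min_le_right _ _)
  have fin' : ∀ x, min (h x) (ENNReal.ofReal N) ≠ ⊤ := fun x =>
    ne_top_of_le_ne_top (by simp) (min_le_right _ _)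
  have hN : 0 ≤ N := le_max_of_le_left (Nat.cast_nonneg n)
  have hbd : ∀ (u : ℝ → ℝ≥0∞) (k : ℕ) x, (min (u x) (k : ℝ≥0∞)).toReal ≤ k := fun u k x => by
    have := ENNReal.toReal_mono (ENNReal.natCast_ne_top k) (min_le_right (u x) (k : ℝ≥0∞))
    simpa using this
  have := pl_one_bdd (f := fun x => (min (f x) n).toReal) (g := fun x => (min (g x) m).toReal)
    (h := fun x => (min (h x) (ENNReal.ofReal N)).toReal) (M := N)
    (hf.min measurable_const).ennreal_toReal (hg.min measurable_const).ennreal_toReal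
    (hh.min measurable_const).ennreal_toReal
    (fun x => ENNReal.toReal_nonneg) (fun x => ENNReal.toReal_nonneg)
    (fun x => ENNReal.toReal_nonneg) (fun x => (hbd f n x).trans (le_max_left _ _))
    (fun x => (hbd g m x).trans (le_max_right _ _)) ?_
  · simp only [ENNReal.ofReal_toReal (fin f n _), ENNReal.ofReal_toReal (fin g m _),
      ENNReal.ofReal_toReal (fin' _)] at this
    exact this.trans (pow_le_pow_left' (lintegral_mono fun x => min_le_left _ _) 2)
  · intro x z
    rw [← ENNReal.toReal_mul, ← ENNReal.toReal_pow]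
    refine ENNReal.toReal_mono (ENNReal.pow_ne_top (fin' _)) ?_
    rcases le_total (h ((x + z) / 2)) (ENNReal.ofReal N) with hl | hl
    · rw [min_eq_left hl]
      exact (mul_le_mul' (min_le_left _ _) (min_le_left _ _)).trans (H x z)
    · rw [min_eq_right hl, pow_two]
      have e1 : (n : ℝ≥0∞) ≤ ENNReal.ofReal N := by
        rw [← ENNReal.ofReal_natCast]; exact ENNReal.ofReal_le_ofReal (le_max_left _ _)
      have e2 : (m : ℝ≥0∞) ≤ ENNReal.ofReal N := by
        rw [← ENNReal.ofReal_natCast]; exact ENNReal.ofReal_le_ofReal (le_max_right _ _)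
      exact mul_le_mul' ((min_le_right _ _).trans e1) ((min_le_right _ _).trans e2)

/-- Midpoint Prékopa–Leindler on a finite product of lines. -/
theorem pl_pi : ∀ (n : ℕ) {f g h : (Fin n → ℝ) → ℝ≥0∞}, Measurable f → Measurable g → Measurable h →
    (∀ x z, f x * g z ≤ h ((1 / 2 : ℝ) • (x + z)) ^ 2) →
    (∫⁻ x, f x) * (∫⁻ x, g x) ≤ (∫⁻ x, h x) ^ 2 := by
  intro n
  induction n with
  | zero =>
    intro f g h hf hg hh H
    have e : ∀ u : (Fin 0 → ℝ) → ℝ≥0∞, ∫⁻ x, u x = u default := fun u => by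
      rw [lintegral_unique, volume_pi, Measure.pi_of_empty, Measure.dirac_apply_of_mem (mem_univ _), mul_one]
      exact congrArg u (Subsingleton.elim _ _)
    rw [e, e, e]
    have h1 := H default default
    rwa [Subsingleton.elim ((1 / 2 : ℝ) • (default + default)) (default : Fin 0 → ℝ)] at h1
  | succ n ih =>
    intro f g h hf hg hh H
    set e := (MeasurableEquiv.piFinSuccAbove (fun _ : Fin (n + 1) => ℝ) 0).symm
    have split : ∀ u : (Fin (n + 1) → ℝ) → ℝ≥0∞, Measurable u →
        ∫⁻ x, u x = ∫⁻ t : ℝ, ∫⁻ y : Fin n → ℝ, u (e (t, y)) := by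
      intro u hu
      have h1 := ((volume_preserving_piFinSuccAbove (fun _ : Fin (n + 1) => ℝ) 0).symm
        (MeasurableEquiv.piFinSuccAbove (fun _ : Fin (n + 1) => ℝ) 0)).lintegral_comp hu
      rw [← h1, Measure.volume_eq_prod]
      exact lintegral_prod (fun p => u (e p)) (hu.comp e.measurable).aemeasurable
    have hmid : ∀ (t u : ℝ) (y w : Fin n → ℝ),
        (1 / 2 : ℝ) • (e (t, y) + e (u, w)) = e ((t + u) / 2, (1 / 2 : ℝ) • (y + w)) := by
      intro t u y w
      funext i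
      refine Fin.cases ?_ (fun j => ?_) i <;>
        simp [e, MeasurableEquiv.piFinSuccAbove, Fin.insertNthEquiv] <;> ring
    rw [split f hf, split g hg, split h hh]
    refine pl_one ?_ ?_ ?_ fun t u => ?_
    · exact (hf.comp e.measurable).lintegral_prod_right'
    · exact (hg.comp e.measurable).lintegral_prod_right'
    · exact (hh.comp e.measurable).lintegral_prod_right'
    · refine ih (hf.comp (e.measurable.comp measurable_prodMk_left))
        (hg.comp (e.measurable.comp measurable_prodMk_left))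
        (hh.comp (e.measurable.comp measurable_prodMk_left)) fun y w => ?_
      show f _ * g _ ≤ h _ ^ 2
      rw [← hmid]
      exact H _ _

/-- Midpoint Prékopa–Leindler on Euclidean space. -/
theorem pl_euclid {d : ℕ} {f g h : EuclideanSpace ℝ (Fin d) → ℝ≥0∞}
    (hf : Measurable f) (hg : Measurable g) (hh : Measurable h)
    (H : ∀ x z, f x * g z ≤ h ((1 / 2 : ℝ) • (x + z)) ^ 2) :
    (∫⁻ x, f x) * (∫⁻ x, g x) ≤ (∫⁻ x, h x) ^ 2 := by
  have hp := PiLp.volume_preserving_toLp (Fin d)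
  rw [← hp.lintegral_comp hf, ← hp.lintegral_comp hg, ← hp.lintegral_comp hh]
  refine pl_pi d (hf.comp hp.measurable) (hg.comp hp.measurable) (hh.comp hp.measurable) fun x z => ?_
  exact H (WithLp.toLp 2 x) (WithLp.toLp 2 z)

end Vale.Agent.P074
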