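import Mathlib
import Vale.Agent.P074.PL
import Vale.Agent.P074.Laguerre

/-!
Stability of cell centroids under a perturbation of the source density.
-/

open MeasureTheory Set
open scoped RealInnerProductSpace

namespace Vale.Agent.P074

set_option linter.unusedSectionVars false

variable {d : ℕ} {ι : Type*} [Fintype ι] [Nonempty ι]

/-- Gaussian weight. -/
noncomputable def wt (κ : ℝ) (x : Euc d) : ℝ := Real.exp (-(κ * ‖x‖ ^ 2))

/-- Weighted mass of a set. -/
noncomputable def wmass (κ : ℝ) (C : Set (Euc d)) : ℝ := ∫ x in C, wt κ x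

/-- Weighted average. -/
noncomputable def wavg (κ : ℝ) (C : Set (Euc d)) (f : Euc d → ℝ) : ℝ :=
  (∫ x in C, wt κ x * f x) / wmass κ C

theorem continuous_wt (κ : ℝ) : Continuous (wt (d := d) κ) := by unfold wt; fun_prop

theorem wt_pos (κ : ℝ) (x : Euc d) : 0 < wt κ x := Real.exp_pos _

theorem integral_exp_ge {C : Set (Euc d)} {κ : ℝ} {f : Euc d → ℝ}
    (hint : IntegrableOn (wt κ) C) (hint1 : IntegrableOn (fun x => wt κ x * f x) C)
    (hint2 : IntegrableOn (fun x => wt κ x * Real.exp (f x)) C) (hpos : 0 < wmass κ C) :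
    wmass κ C * Real.exp (wavg κ C f) ≤ ∫ x in C, wt κ x * Real.exp (f x) := by
  set t := wavg κ C f
  have hle : ∀ x, Real.exp t * ((1 - t) * wt κ x + wt κ x * f x) ≤ wt κ x * Real.exp (f x) := by
    intro x
    have h := mul_le_mul_of_nonneg_left (Real.add_one_le_exp (f x - t))
      (mul_pos (wt_pos κ x) (Real.exp_pos t)).le
    rw [mul_assoc, mul_assoc, ← Real.exp_add] at h
    simp only [add_sub_cancel] at h
    linarith
  refine le_trans ?_ (integral_mono (((hint.const_mul (1 - t)).add hint1).const_mul _) hint2 hle)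
  simp only [Pi.add_apply]
  rw [integral_const_mul, integral_add (hint.const_mul _) hint1, integral_const_mul]
  have : ∫ x in C, wt κ x * f x = t * wmass κ C := by
    simp only [t, wavg]; field_simp
  rw [this]
  unfold wmass
  exact le_of_eq (by ring)

theorem sq_setIntegral_abs_le {C : Set (Euc d)} {η : Euc d → ℝ}
    (h1 : IntegrableOn (fun x => |η x|) C) (h2 : IntegrableOn (fun x => η x ^ 2) C)
    (h0 : IntegrableOn (fun _ => (1 : ℝ)) C) (hpos : 0 < ∫ _x in C, (1 : ℝ)) :
    (∫ x in C, |η x|) ^ 2 ≤ (∫ _x in C, (1 : ℝ)) * ∫ x in C, η x ^ 2 := by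
  set N := ∫ x in C, |η x|
  set A := ∫ _x in C, (1 : ℝ)
  set l := N / A
  have h : 2 * l * N - l ^ 2 * A ≤ ∫ x in C, η x ^ 2 := by
    rw [← integral_const_mul, ← integral_const_mul,
      ← integral_sub (h1.const_mul _) (h0.const_mul _)]
    refine integral_mono ((h1.const_mul _).sub (h0.const_mul _)) h2 fun x => ?_
    simp only
    nlinarith [sq_nonneg (|η x| - l), sq_abs (η x)]
  have : 2 * l * N - l ^ 2 * A = N ^ 2 / A := by
    simp only [l]; field_simp; ring
  rw [this, div_le_iff₀ hpos] at h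
  linarith

/-- Strengthened midpoint inequality for one cell. -/
theorem gain {K C C' D : Set (Euc d)} (hK : IsCompact K) (hCK : C ⊆ K) (hC'K : C' ⊆ K)
    (hDK : D ⊆ K) (hC : MeasurableSet C) (hC' : MeasurableSet C') (hD : MeasurableSet D)
    (hmid : ∀ x ∈ C, ∀ z ∈ C', (1 / 2 : ℝ) • (x + z) ∈ D) {κ : ℝ} (hκ : 0 ≤ κ)
    {f : Euc d → ℝ} (hf : Continuous f) (hflip : ∀ x ∈ K, ∀ z ∈ K, |f x - f z| ≤ ‖x - z‖)
    (ha : 0 < wmass κ C) (hb : 0 < wmass κ C') :
    Real.sqrt (wmass κ C * wmass κ C') * (1 + κ * (wavg κ C f - wavg κ C' f) ^ 2 / 4)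
      ≤ wmass κ D := by
  set G := wavg κ C f - wavg κ C' f with hG
  set A : Euc d → ℝ := fun x => κ * G * f x - κ * G ^ 2 / 2
  set B : Euc d → ℝ := fun z => -(κ * G * f z)
  have hw := continuous_wt (d := d) κ
  have cA : Continuous fun x => wt κ x * Real.exp (A x) := by fun_prop
  have cB : Continuous fun x => wt κ x * Real.exp (B x) := by fun_prop
  have iA : IntegrableOn (fun x => wt κ x * Real.exp (A x)) C :=
    (integrableOn_of_cont hK cA).mono_set hCK
  have iB : IntegrableOn (fun x => wt κ x * Real.exp (B x)) C' :=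
    (integrableOn_of_cont hK cB).mono_set hC'K
  have iD : IntegrableOn (wt κ) D := (integrableOn_of_cont hK hw).mono_set hDK
  have key := pl_euclid (f := C.indicator fun x => ENNReal.ofReal (wt κ x * Real.exp (A x)))
    (g := C'.indicator fun x => ENNReal.ofReal (wt κ x * Real.exp (B x)))
    (h := D.indicator fun x => ENNReal.ofReal (wt κ x))
    (cA.measurable.ennreal_ofReal.indicator hC) (cB.measurable.ennreal_ofReal.indicator hC')
    (hw.measurable.ennreal_ofReal.indicator hD) ?_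
  swap
  · intro x z
    by_cases hx : x ∈ C
    swap
    · simp [indicator_of_notMem hx]
    by_cases hz : z ∈ C'
    swap
    · simp [indicator_of_notMem hz]
    rw [indicator_of_mem hx, indicator_of_mem hz, indicator_of_mem (hmid x hx z hz),
      ← ENNReal.ofReal_mul (by positivity [wt_pos κ x]), ← ENNReal.ofReal_pow (wt_pos κ _).le]
    refine ENNReal.ofReal_le_ofReal ?_
    simp only [wt, ← Real.exp_add, ← Real.exp_nat_mul]
    refine Real.exp_le_exp.2 ?_
    have hn : ‖(1 / 2 : ℝ) • (x + z)‖ ^ 2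
        = (‖x‖ ^ 2 + ‖z‖ ^ 2) / 2 - ‖x - z‖ ^ 2 / 4 := by
      rw [norm_smul, Real.norm_eq_abs, mul_pow, norm_add_sq_real, norm_sub_sq_real]
      norm_num; ring
    have hl := hflip x (hCK hx) z (hC'K hz)
    have h1 : G * (f x - f z) - G ^ 2 / 2 ≤ ‖x - z‖ ^ 2 / 2 := by
      nlinarith [sq_nonneg (G - (f x - f z)), sq_abs (f x - f z), abs_nonneg (f x - f z)]
    simp only [A, B]
    rw [hn]
    push_cast
    nlinarith [mul_le_mul_of_nonneg_left h1 hκ]
  have conv : ∀ {S : Set (Euc d)} {F : Euc d → ℝ}, MeasurableSet S → IntegrableOn F S →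
      (∀ x, 0 ≤ F x) → ∫⁻ x, S.indicator (fun x => ENNReal.ofReal (F x)) x
        = ENNReal.ofReal (∫ x in S, F x) := by
    intro S F hS hF hF0
    rw [lintegral_indicator hS, ofReal_integral_eq_lintegral_ofReal hF
      (Filter.Eventually.of_forall hF0)]
  rw [conv hC iA (fun x => (mul_pos (wt_pos κ x) (Real.exp_pos _)).le),
    conv hC' iB (fun x => (mul_pos (wt_pos κ x) (Real.exp_pos _)).le),
    conv hD iD (fun x => (wt_pos κ x).le), ← ENNReal.ofReal_mul, ← ENNReal.ofReal_pow] at key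
  rotate_left
  · exact integral_nonneg fun x => (wt_pos κ x).le
  · exact integral_nonneg fun x => (mul_pos (wt_pos κ x) (Real.exp_pos _)).le
  rw [ENNReal.ofReal_le_ofReal_iff (sq_nonneg _)] at key
  have iw : ∀ {S : Set (Euc d)}, S ⊆ K → IntegrableOn (wt κ) S := fun h =>
    (integrableOn_of_cont hK hw).mono_set h
  have cwA : Continuous fun x => wt κ x * A x := by fun_prop
  have cwB : Continuous fun x => wt κ x * B x := by fun_prop
  have eA : wavg κ C A = κ * G * wavg κ C f - κ * G ^ 2 / 2 := by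
    have : ∀ x, wt κ x * A x = κ * G * (wt κ x * f x) - κ * G ^ 2 / 2 * wt κ x :=
      fun x => by simp only [A]; ring
    simp only [wavg, this]
    have hi : IntegrableOn (fun x => wt κ x * f x) C :=
      (integrableOn_of_cont hK (hw.mul hf)).mono_set hCK
    rw [integral_sub (hi.const_mul _) ((iw hCK).const_mul _), integral_const_mul, integral_const_mul]
    change (κ * G * _ - κ * G ^ 2 / 2 * wmass κ C) / wmass κ C = _
    field_simp
  have eB : wavg κ C' B = -(κ * G * wavg κ C' f) := by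
    have : ∀ x, wt κ x * B x = (-(κ * G)) * (wt κ x * f x) := fun x => by simp only [B]; ring
    simp only [wavg, this]
    rw [integral_const_mul]
    ring
  have jA := integral_exp_ge (iw hCK) ((integrableOn_of_cont hK cwA).mono_set hCK) iA ha
  have jB := integral_exp_ge (iw hC'K) ((integrableOn_of_cont hK cwB).mono_set hC'K) iB hb
  rw [eA] at jA
  rw [eB] at jB
  have h2 : wmass κ C * wmass κ C' * Real.exp (κ * G ^ 2 / 2) ≤ wmass κ D ^ 2 := by
    refine le_trans ?_ key
    refine le_trans (le_of_eq ?_) (mul_le_mul jA jB (mul_pos hb (Real.exp_pos _)).le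
      (integral_nonneg fun x => (mul_pos (wt_pos κ x) (Real.exp_pos _)).le))
    have : Real.exp (κ * G ^ 2 / 2)
        = Real.exp (κ * G * wavg κ C f - κ * G ^ 2 / 2) * Real.exp (-(κ * G * wavg κ C' f)) := by
      rw [← Real.exp_add]
      congr 1
      have e : wavg κ C f = G + wavg κ C' f := by rw [hG]; ring
      rw [e]; ring
    rw [this]; ring
  have h3 := Real.sqrt_le_sqrt h2
  rw [Real.sqrt_sq (show 0 ≤ wmass κ D from integral_nonneg fun x => (wt_pos κ x).le),
    Real.sqrt_mul (mul_pos ha hb).le, ← Real.exp_half] at h3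
  refine le_trans ?_ h3
  refine mul_le_mul_of_nonneg_left ?_ (Real.sqrt_nonneg _)
  have := Real.add_one_le_exp (κ * G ^ 2 / 2 / 2)
  linarith

theorem alg_gain {a b m κ G : ℝ} (hκ : 0 ≤ κ) (ha : m / 2 ≤ a) (hb : m / 3 ≤ b) (hm : 0 < m) :
    (a + b) / 2 + κ / 12 * (m * G ^ 2) - (b - a) ^ 2 / m
      ≤ Real.sqrt (a * b) * (1 + κ * G ^ 2 / 4) := by
  have ha0 : 0 < a := by linarith
  have hb0 : 0 < b := by linarith
  set sa := Real.sqrt a
  set sb := Real.sqrt b
  have h1 : sa ^ 2 = a := Real.sq_sqrt ha0.le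
  have h2 : sb ^ 2 = b := Real.sq_sqrt hb0.le
  have hsa0 : 0 ≤ sa := Real.sqrt_nonneg _
  have hsb0 : 0 ≤ sb := Real.sqrt_nonneg _
  rw [Real.sqrt_mul ha0.le]
  change _ ≤ sa * sb * _
  have hlow : m / 3 ≤ sa * sb := by
    have : (m / 3) ^ 2 ≤ (sa * sb) ^ 2 := by
      rw [mul_pow, h1, h2]
      nlinarith
    exact le_of_pow_le_pow_left₀ two_ne_zero (by positivity) this
  have hdiff : (sa - sb) ^ 2 / 2 ≤ (b - a) ^ 2 / m := by
    rw [div_le_div_iff₀ two_pos hm]
    have e : (b - a) ^ 2 = (sa - sb) ^ 2 * (sa + sb) ^ 2 := by rw [← h1, ← h2]; ring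
    rw [e]
    have : m ≤ 2 * (sa + sb) ^ 2 := by nlinarith [mul_nonneg hsa0 hsb0]
    nlinarith [mul_le_mul_of_nonneg_left this (sq_nonneg (sa - sb))]
  nlinarith [mul_le_mul_of_nonneg_right hlow (show (0 : ℝ) ≤ κ * G ^ 2 / 4 by positivity)]

theorem alg_defect {a b m p G κ R : ℝ} (hm : 0 < m) (ha0 : 0 < a) (hb0 : 0 < b) (ham : a ≤ m)
    (hbm : b ≤ 2 * m) (hL : 0 < 4 * κ * R) (hκR : κ * R ^ 2 = 1 / 3072)
    (hG : 4 * κ * R * G = m / a - p / b) :
    (b - a) ^ 2 / m ≤ 2 * ((p - m) ^ 2 / m) + κ / 24 * (m * G ^ 2) := by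
  have e : m * (b - a) = (p - m) * a + a * b * (4 * κ * R * G) := by
    rw [hG]; field_simp; ring
  have e' : b - a = (p - m) * (a / m) + a * b / m * (4 * κ * R * G) := by
    field_simp; linarith
  have h1 : |(p - m) * (a / m)| ≤ |p - m| := by
    rw [abs_mul, abs_of_pos (div_pos ha0 hm)]
    exact mul_le_of_le_one_right (abs_nonneg _) ((div_le_one hm).2 ham)
  have h2 : |a * b / m * (4 * κ * R * G)| ≤ 2 * m * (4 * κ * R) * |G| := by
    rw [abs_mul, abs_mul (4 * κ * R) G, abs_of_pos hL,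
      abs_of_pos (div_pos (mul_pos ha0 hb0) hm), ← mul_assoc]
    refine mul_le_mul_of_nonneg_right (mul_le_mul_of_nonneg_right ?_ hL.le) (abs_nonneg _)
    rw [div_le_iff₀ hm]
    nlinarith [mul_le_mul ham hbm hb0.le hm.le]
  have h3 : |b - a| ≤ |p - m| + 2 * m * (4 * κ * R) * |G| := by
    rw [e']; exact (abs_add_le _ _).trans (add_le_add h1 h2)
  have h4 := pow_le_pow_left₀ (abs_nonneg _) h3 2
  rw [sq_abs] at h4
  rw [div_le_iff₀ hm, add_mul, mul_assoc 2 ((p - m) ^ 2 / m), div_mul_cancel₀ _ hm.ne']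
  have h5 : κ / 24 * (m * G ^ 2) * m = 2 * (2 * m * (4 * κ * R) * |G|) ^ 2 := by
    rw [mul_pow, sq_abs]
    have : κ = 3072 * (κ * R) ^ 2 := by
      rw [mul_pow, show κ ^ 2 * R ^ 2 = κ * (κ * R ^ 2) by ring, hκR]; ring
    linear_combination (m ^ 2 * G ^ 2 / 24) * this
  nlinarith [sq_nonneg (|p - m| - 2 * m * (4 * κ * R) * |G|), sq_abs (p - m)]

theorem alg_coord {Δ ab m G N S R : ℝ} (hm : 0 < m)
    (hdiff : |Δ| ≤ 2 * R * |ab| + 6 * m * |G| + R * N) (hN : N ^ 2 / m ≤ 2 * S) :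
    Δ ^ 2 / m ≤ 12 * R ^ 2 * (ab ^ 2 / m) + 108 * (m * G ^ 2) + 6 * R ^ 2 * S := by
  rw [div_le_iff₀ hm]
  have h4 := pow_le_pow_left₀ (abs_nonneg _) hdiff 2
  rw [sq_abs] at h4
  have h5 : N ^ 2 ≤ 2 * S * m := (div_le_iff₀ hm).1 hN
  have h6 : 12 * R ^ 2 * (ab ^ 2 / m) * m = 12 * R ^ 2 * ab ^ 2 := by field_simp
  have h7 : (2 * R * |ab| + 6 * m * |G| + R * N) ^ 2
      ≤ 12 * R ^ 2 * ab ^ 2 + 108 * (m * G ^ 2) * m + 3 * (R ^ 2 * N ^ 2) := by
    rw [← sq_abs ab, ← sq_abs G]
    nlinarith [sq_nonneg (2 * R * |ab| - 6 * m * |G|), sq_nonneg (2 * R * |ab| - R * N),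
      sq_nonneg (6 * m * |G| - R * N)]
  have h8 := mul_le_mul_of_nonneg_left h5 (sq_nonneg R)
  linarith

/-- The constant of centroid stability. -/
noncomputable def cstab (R : ℝ) : ℝ := 40000000 * R ^ 2

/-- Centroid stability, coordinatewise. -/
theorem centroid_coord {K : Set (Euc d)} (hK : IsCompact K) (hKc : Convex ℝ K) {R : ℝ}
    (hR1 : 1 ≤ R) (hR : ∀ x ∈ K, ‖x‖ ≤ R) {g : Euc d → ℝ} (hg : Continuous g)
    (hgl : ∀ x ∈ K, 1 / 2 ≤ g x) (hgu : ∀ x ∈ K, g x ≤ 3 / 2)
    {y : ι → Euc d} (hy : Function.Injective y) {m : ι → ℝ} (hm0 : ∀ i, 0 < m i) {q q' : ι → ℝ}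
    (hq : ∀ i, ∫ _x in cell K y q i, (1 : ℝ) = m i)
    (hq' : ∀ i, ∫ x in cell K y q' i, g x = m i) (k : Fin d) :
    ∑ i, ((∫ x in cell K y q i, x k) - ∫ x in cell K y q' i, g x * x k) ^ 2 / m i
      ≤ cstab R * ∫ x in K, (g x - 1) ^ 2 := by
  set κ : ℝ := 1 / (3072 * R ^ 2) with hκdef
  have hκ : 0 < κ := by positivity
  have hκR : κ * R ^ 2 = 1 / 3072 := by rw [hκdef]; field_simp
  set C := cell K y q with hCdef
  set C' := cell K y q' with hC'def
  set a : ι → ℝ := fun i => wmass κ (C i)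
  set b : ι → ℝ := fun i => wmass κ (C' i)
  set p : ι → ℝ := fun i => ∫ _x in C' i, (1 : ℝ)
  set N : ι → ℝ := fun i => ∫ x in C' i, |g x - 1|
  set S : ι → ℝ := fun i => ∫ x in C' i, (g x - 1) ^ 2
  have hCm : ∀ i, MeasurableSet (C i) := fun i => measurableSet_cell hK.isClosed y q i
  have hC'm : ∀ i, MeasurableSet (C' i) := fun i => measurableSet_cell hK.isClosed y q' i
  have hCK : ∀ i, C i ⊆ K := fun i => cell_subset y q i
  have hC'K : ∀ i, C' i ⊆ K := fun i => cell_subset y q' i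
  have int : ∀ {F : Euc d → ℝ}, Continuous F → ∀ {T : Set (Euc d)}, T ⊆ K → IntegrableOn F T :=
    fun hF _ hT => (integrableOn_of_cont hK hF).mono_set hT
  have hwl : ∀ x ∈ K, (1 / 2 : ℝ) ≤ wt κ x := by
    intro x hx
    have h1 : κ * ‖x‖ ^ 2 ≤ κ * R ^ 2 :=
      mul_le_mul_of_nonneg_left (pow_le_pow_left₀ (norm_nonneg x) (hR x hx) 2) hκ.le
    have := Real.add_one_le_exp (-(κ * ‖x‖ ^ 2))
    unfold wt
    linarith
  have hwu : ∀ x : Euc d, wt κ x ≤ 1 := fun x => by
    unfold wt; exact Real.exp_le_one_iff.2 (neg_nonpos.2 (by positivity))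
  have hp : ∀ i, 2 / 3 * m i ≤ p i ∧ p i ≤ 2 * m i := by
    intro i
    constructor
    · have : m i ≤ ∫ x in C' i, 3 / 2 * (1 : ℝ) := by
        rw [← hq' i]
        exact setIntegral_mono_on (int hg (hC'K i)) (int (by fun_prop) (hC'K i)) (hC'm i)
          fun x hx => by simpa using hgu x (hC'K i hx)
      rw [integral_const_mul] at this
      simp only [p]; linarith
    · have : ∫ x in C' i, 1 / 2 * (1 : ℝ) ≤ m i := by
        rw [← hq' i]
        exact setIntegral_mono_on (int (by fun_prop) (hC'K i)) (int hg (hC'K i)) (hC'm i)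
          fun x hx => by simpa using hgl x (hC'K i hx)
      rw [integral_const_mul] at this
      simp only [p]; linarith
  have ha : ∀ i, m i / 2 ≤ a i ∧ a i ≤ m i := by
    intro i
    constructor
    · have : ∫ x in C i, 1 / 2 * (1 : ℝ) ≤ a i :=
        setIntegral_mono_on (int (by fun_prop) (hCK i)) (int (continuous_wt κ) (hCK i)) (hCm i)
          fun x hx => by simpa using hwl x (hCK i hx)
      rw [integral_const_mul, hq i] at this
      linarith
    · rw [← hq i]
      exact setIntegral_mono_on (int (continuous_wt κ) (hCK i)) (int (by fun_prop) (hCK i)) (hCm i)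
        fun x _ => hwu x
  have hb : ∀ i, m i / 3 ≤ b i ∧ b i ≤ 2 * m i := by
    intro i
    constructor
    · have : ∫ x in C' i, 1 / 2 * (1 : ℝ) ≤ b i :=
        setIntegral_mono_on (int (by fun_prop) (hC'K i)) (int (continuous_wt κ) (hC'K i)) (hC'm i)
          fun x hx => by simpa using hwl x (hC'K i hx)
      rw [integral_const_mul] at this
      have := (hp i).1
      simp only [p] at this
      linarith
    · have : b i ≤ p i :=
        setIntegral_mono_on (int (continuous_wt κ) (hC'K i)) (int (by fun_prop) (hC'K i)) (hC'm i)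
          fun x _ => hwu x
      linarith [(hp i).2]
  have ha0 : ∀ i, 0 < a i := fun i => by linarith [(ha i).1, hm0 i]
  have hb0 : ∀ i, 0 < b i := fun i => by linarith [(hb i).1, hm0 i]
  -- key inequality
  have star : ∀ (f : Euc d → ℝ), Continuous f →
      (∀ x ∈ K, ∀ z ∈ K, |f x - f z| ≤ ‖x - z‖) →
      κ / 12 * ∑ i, m i * (wavg κ (C i) f - wavg κ (C' i) f) ^ 2
        ≤ ∑ i, (b i - a i) ^ 2 / m i := by
    intro f hf hlip
    set qm : ι → ℝ := fun j => (q j + q' j) / 2
    have hg1 : ∀ i, Real.sqrt (a i * b i)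
        * (1 + κ * (wavg κ (C i) f - wavg κ (C' i) f) ^ 2 / 4) ≤ wmass κ (cell K y qm i) :=
      fun i => gain hK (hCK i) (hC'K i) (cell_subset y qm i) (hCm i) (hC'm i)
        (measurableSet_cell hK.isClosed y qm i)
        (fun x hx z hz => convex_cell hKc y q q' i hx hz) hκ.le hf hlip (ha0 i) (hb0 i)
    have hw1 : ∑ i, wmass κ (cell K y qm i) = wmass κ K :=
      sum_cell hK.isClosed hy qm (integrableOn_of_cont hK (continuous_wt κ))
    have hsa : ∑ i, a i = wmass κ K :=
      sum_cell hK.isClosed hy q (integrableOn_of_cont hK (continuous_wt κ))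
    have hsb : ∑ i, b i = wmass κ K :=
      sum_cell hK.isClosed hy q' (integrableOn_of_cont hK (continuous_wt κ))
    have hterm : ∀ i, (a i + b i) / 2 + κ / 12 * (m i * (wavg κ (C i) f - wavg κ (C' i) f) ^ 2)
        - (b i - a i) ^ 2 / m i ≤ Real.sqrt (a i * b i)
          * (1 + κ * (wavg κ (C i) f - wavg κ (C' i) f) ^ 2 / 4) :=
      fun i => alg_gain hκ.le (ha i).1 (hb i).1 (hm0 i)
    have := Finset.sum_le_sum fun i (_ : i ∈ Finset.univ) => (hterm i).trans (hg1 i)
    rw [hw1, Finset.sum_sub_distrib, Finset.sum_add_distrib, ← Finset.sum_div,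
      Finset.sum_add_distrib, hsa, hsb, ← Finset.mul_sum] at this
    linarith
  -- Lipschitz bound for the inverse weight
  set f₀ : Euc d → ℝ := fun x => Real.exp (κ * ‖x‖ ^ 2)
  have hcf₀ : Continuous f₀ := by simp only [f₀]; fun_prop
  have hwf : ∀ x : Euc d, wt κ x * f₀ x = 1 := fun x => by
    simp only [f₀, wt, ← Real.exp_add]; simp
  have hf₀bd : ∀ x ∈ K, f₀ x ≤ 2 := fun x hx => by
    nlinarith [hwl x hx, hwf x, Real.exp_pos (κ * ‖x‖ ^ 2)]
  have hf₀lip : ∀ x ∈ K, ∀ z ∈ K, |f₀ x - f₀ z| ≤ 4 * κ * R * ‖x - z‖ := by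
    have h : ∀ x ∈ K, ∀ z ∈ K, f₀ x - f₀ z ≤ 4 * κ * R * ‖x - z‖ := by
      intro x hx z hz
      have h1 := Real.add_one_le_exp (κ * ‖z‖ ^ 2 - κ * ‖x‖ ^ 2)
      have h2 : f₀ x * (κ * ‖z‖ ^ 2 - κ * ‖x‖ ^ 2 + 1) ≤ f₀ z := by
        refine (mul_le_mul_of_nonneg_left h1 (Real.exp_pos _).le).trans (le_of_eq ?_)
        simp only [f₀, ← Real.exp_add]; ring_nf
      have h3 : f₀ x - f₀ z ≤ f₀ x * (κ * ((‖x‖ - ‖z‖) * (‖x‖ + ‖z‖))) := by nlinarith
      have h4 : (‖x‖ - ‖z‖) * (‖x‖ + ‖z‖) ≤ ‖x - z‖ * (2 * R) :=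
        mul_le_mul (norm_sub_norm_le x z) (by linarith [hR x hx, hR z hz])
          (by positivity) (norm_nonneg _)
      refine h3.trans ?_
      refine (mul_le_mul_of_nonneg_left (mul_le_mul_of_nonneg_left h4 hκ.le)
        (Real.exp_pos _).le).trans ?_
      refine (mul_le_mul_of_nonneg_right (hf₀bd x hx) (by positivity)).trans (le_of_eq ?_)
      ring
    intro x hx z hz
    rw [abs_le]
    constructor
    · have := h z hz x hx; rw [norm_sub_rev] at this; linarith
    · exact h x hx z hz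
  have hL : 0 < 4 * κ * R := by positivity
  -- masses
  set δ : ι → ℝ := fun i => p i - m i
  have hδN : ∀ i, |δ i| ≤ N i := by
    intro i
    have : δ i = ∫ x in C' i, (1 - g x) := by
      simp only [δ, p]
      rw [integral_sub (int (by fun_prop) (hC'K i)) (int hg (hC'K i)), hq' i]
    rw [this]
    refine abs_integral_le_integral_abs.trans (le_of_eq ?_)
    exact integral_congr_ae (Filter.Eventually.of_forall fun x => abs_sub_comm _ _)
  have hNS : ∀ i, N i ^ 2 / m i ≤ 2 * S i := by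
    intro i
    rw [div_le_iff₀ (hm0 i)]
    have h1 := sq_setIntegral_abs_le (C := C' i) (η := fun x => g x - 1)
      (int (by fun_prop) (hC'K i)) (int (by fun_prop) (hC'K i)) (int (by fun_prop) (hC'K i))
      (lt_of_lt_of_le (by linarith [hm0 i]) (hp i).1)
    have h2 : 0 ≤ S i := integral_nonneg fun x => sq_nonneg _
    have h3 := (hp i).2
    simp only [p] at h3
    nlinarith [mul_le_mul_of_nonneg_right h3 h2]
  have hS : ∑ i, S i = ∫ x in K, (g x - 1) ^ 2 :=
    sum_cell hK.isClosed hy q' (integrableOn_of_cont hK (by fun_prop))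
  set T := ∫ x in K, (g x - 1) ^ 2
  have hδS : ∑ i, δ i ^ 2 / m i ≤ 2 * T := by
    rw [← hS, Finset.mul_sum]
    refine Finset.sum_le_sum fun i _ => le_trans ?_ (hNS i)
    have := hm0 i
    refine div_le_div_of_nonneg_right ?_ this.le
    rw [← sq_abs]
    exact pow_le_pow_left₀ (abs_nonneg _) (hδN i) 2
  -- control of the weighted mass defect
  have hab : ∑ i, (b i - a i) ^ 2 / m i ≤ 8 * T := by
    set f : Euc d → ℝ := fun x => (4 * κ * R)⁻¹ * f₀ x
    set G : ι → ℝ := fun i => wavg κ (C i) f - wavg κ (C' i) f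
    have hs := star f (hcf₀.const_smul (4 * κ * R)⁻¹ |>.congr fun x => rfl) (fun x hx z hz => by
      simp only [f]
      rw [← mul_sub, abs_mul, abs_of_pos (inv_pos.2 hL), inv_mul_le_iff₀ hL]
      exact hf₀lip x hx z hz)
    have hG : ∀ i, 4 * κ * R * G i = m i / a i - p i / b i := by
      intro i
      have e : ∀ T : Set (Euc d), ∫ x in T, wt κ x * f x
          = (4 * κ * R)⁻¹ * ∫ _x in T, (1 : ℝ) := by
        intro T
        rw [← integral_const_mul]
        refine integral_congr_ae (Filter.Eventually.of_forall fun x => ?_)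
        simp only [f]; rw [mul_one, mul_comm (wt κ x), mul_assoc, mul_comm (f₀ x), hwf, mul_one]
      have h1 : wavg κ (C i) f = (4 * κ * R)⁻¹ * m i / a i := by
        simp only [wavg, e, hq i, a]
      have h2 : wavg κ (C' i) f = (4 * κ * R)⁻¹ * p i / b i := by
        simp only [wavg, e, p, b]
      simp only [G, h1, h2]
      field_simp
    have hbd : ∀ i, (b i - a i) ^ 2 / m i ≤ 2 * (δ i ^ 2 / m i) + κ / 24 * (m i * G i ^ 2) :=
      fun i => alg_defect (hm0 i) (ha0 i) (hb0 i) (ha i).2 (hb i).2 hL hκR (hG i)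
    have hsum := Finset.sum_le_sum fun i (_ : i ∈ Finset.univ) => hbd i
    rw [Finset.sum_add_distrib, ← Finset.mul_sum, ← Finset.mul_sum] at hsum
    linarith
  -- coordinate function
  set f : Euc d → ℝ := fun x => (1 / 3 : ℝ) * (x k * f₀ x)
  have hxk : ∀ x : Euc d, |x k| ≤ ‖x‖ := fun x => PiLp.norm_apply_le x k
  have hcx : Continuous fun x : Euc d => x k := PiLp.continuous_apply 2 (fun _ => ℝ) k
  have hcf : Continuous f := continuous_const.mul (hcx.mul hcf₀)
  have hflip : ∀ x ∈ K, ∀ z ∈ K, |f x - f z| ≤ ‖x - z‖ := by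
    intro x hx z hz
    simp only [f, ← mul_sub]
    rw [abs_mul, abs_of_pos (by norm_num : (0 : ℝ) < 1 / 3)]
    have e : x k * f₀ x - z k * f₀ z = (x k - z k) * f₀ x + z k * (f₀ x - f₀ z) := by ring
    rw [e]
    have h1 : |(x k - z k) * f₀ x| ≤ ‖x - z‖ * 2 := by
      rw [abs_mul, abs_of_pos (show 0 < f₀ x from Real.exp_pos _)]
      exact mul_le_mul (by simpa using hxk (x - z)) (hf₀bd x hx) (Real.exp_pos _).le (norm_nonneg _)
    have h2 : |z k * (f₀ x - f₀ z)| ≤ R * (4 * κ * R * ‖x - z‖) := by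
      rw [abs_mul]
      exact mul_le_mul ((hxk z).trans (hR z hz)) (hf₀lip x hx z hz) (abs_nonneg _) (by linarith)
    have h3 : R * (4 * κ * R * ‖x - z‖) = 4 / 3072 * ‖x - z‖ := by
      linear_combination (4 * ‖x - z‖) * hκR
    have := abs_add_le ((x k - z k) * f₀ x) (z k * (f₀ x - f₀ z))
    linarith [norm_nonneg (x - z)]
  set G : ι → ℝ := fun i => wavg κ (C i) f - wavg κ (C' i) f
  have hGsum : κ / 12 * ∑ i, m i * G i ^ 2 ≤ 8 * T := (star f hcf hflip).trans hab
  have hGsum' : ∑ i, m i * G i ^ 2 ≤ 294912 * R ^ 2 * T := by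
    have h1 := mul_le_mul_of_nonneg_left hGsum (show (0:ℝ) ≤ 12 * 3072 * R ^ 2 by positivity)
    have h2 : 12 * 3072 * R ^ 2 * (κ / 12 * ∑ i, m i * G i ^ 2) = ∑ i, m i * G i ^ 2 := by
      linear_combination (3072 * ∑ i, m i * G i ^ 2) * hκR
    rw [h2] at h1
    linarith
  have hterm : ∀ i, ((∫ x in C i, x k) - ∫ x in C' i, g x * x k) ^ 2 / m i
      ≤ 12 * R ^ 2 * ((b i - a i) ^ 2 / m i) + 108 * (m i * G i ^ 2) + 6 * R ^ 2 * S i := by
    intro i
    have hm := hm0 i
    have e : ∀ T : Set (Euc d), ∫ x in T, x k = 3 * ∫ x in T, wt κ x * f x := by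
      intro T
      rw [← integral_const_mul]
      refine integral_congr_ae (Filter.Eventually.of_forall fun x => ?_)
      simp only [f]
      linear_combination (-(x k)) * hwf x
    have e1 : ∫ x in C i, x k = a i * (3 * wavg κ (C i) f) := by
      rw [e]; simp only [wavg]; change _ = a i * (3 * (_ / a i))
      field_simp [(ha0 i).ne']
    have e2 : ∫ x in C' i, g x * x k
        = b i * (3 * wavg κ (C' i) f) + ∫ x in C' i, (g x - 1) * x k := by
      have : ∫ x in C' i, x k = b i * (3 * wavg κ (C' i) f) := by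
        rw [e]; simp only [wavg]; change _ = b i * (3 * (_ / b i))
        field_simp [(hb0 i).ne']
      rw [← this, ← integral_add (int hcx (hC'K i))
        (int (F := fun x => (g x - 1) * x k) ((hg.sub continuous_const).mul hcx) (hC'K i))]
      refine integral_congr_ae (Filter.Eventually.of_forall fun x => ?_)
      simp only; ring
    have hbdA : |3 * wavg κ (C i) f| ≤ 2 * R := by
      have h1 : |∫ x in C i, x k| ≤ R * m i := by
        refine abs_integral_le_integral_abs.trans ?_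
        rw [← hq i, ← integral_const_mul]
        exact setIntegral_mono_on (int (by fun_prop) (hCK i)) (int (by fun_prop) (hCK i)) (hCm i)
          fun x hx => by simpa using (hxk x).trans (hR x (hCK i hx))
      rw [e1, abs_mul, abs_of_pos (ha0 i)] at h1
      have h2 : m i / 2 * |3 * wavg κ (C i) f| ≤ a i * |3 * wavg κ (C i) f| :=
        mul_le_mul_of_nonneg_right (ha i).1 (abs_nonneg _)
      nlinarith
    have hbdN : |∫ x in C' i, (g x - 1) * x k| ≤ R * N i := by
      refine abs_integral_le_integral_abs.trans ?_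
      rw [← integral_const_mul]
      refine setIntegral_mono_on (int (by fun_prop) (hC'K i)) (int (by fun_prop) (hC'K i)) (hC'm i)
        fun x hx => ?_
      rw [abs_mul, mul_comm]
      exact mul_le_mul_of_nonneg_right ((hxk x).trans (hR x (hC'K i hx))) (abs_nonneg _)
    have hdiff : |(∫ x in C i, x k) - ∫ x in C' i, g x * x k|
        ≤ 2 * R * |b i - a i| + 6 * m i * |G i| + R * N i := by
      have e3 : (∫ x in C i, x k) - ∫ x in C' i, g x * x k = (a i - b i) * (3 * wavg κ (C i) f)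
          + b i * (3 * G i) - ∫ x in C' i, (g x - 1) * x k := by
        rw [e1, e2]; simp only [G]; ring
      rw [e3]
      refine (abs_sub _ _).trans (add_le_add ((abs_add_le _ _).trans (add_le_add ?_ ?_)) hbdN)
      · rw [abs_mul, abs_sub_comm, mul_comm (2 * R)]
        exact mul_le_mul_of_nonneg_left hbdA (abs_nonneg _)
      · rw [abs_mul, abs_mul, abs_of_pos (hb0 i), abs_of_pos (by norm_num : (0:ℝ) < 3)]
        nlinarith [mul_le_mul_of_nonneg_right (hb i).2 (abs_nonneg (G i))]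
    exact alg_coord hm hdiff (hNS i)
  have hfin := Finset.sum_le_sum fun i (_ : i ∈ Finset.univ) => hterm i
  rw [Finset.sum_add_distrib, Finset.sum_add_distrib, ← Finset.mul_sum, ← Finset.mul_sum,
    ← Finset.mul_sum, hS] at hfin
  refine hfin.trans ?_
  have hT : 0 ≤ T := integral_nonneg fun x => sq_nonneg _
  have hR2 : 0 ≤ R ^ 2 * T := by positivity
  unfold cstab
  have h7 := mul_le_mul_of_nonneg_left hab (show (0:ℝ) ≤ 12 * R ^ 2 by positivity)
  nlinarith

theorem coord_integral {T : Set (Euc d)} {F : Euc d → Euc d} (hF : IntegrableOn F T) (k : Fin d) :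
    (∫ x in T, F x) k = ∫ x in T, F x k :=
  ((EuclideanSpace.proj (𝕜 := ℝ) k).integral_comp_comm hF).symm

/-- Pairing of a velocity field with the displacement of centroids. -/
theorem centroid_pairing {K : Set (Euc d)} (hK : IsCompact K) (hKc : Convex ℝ K) {R : ℝ}
    (hR1 : 1 ≤ R) (hR : ∀ x ∈ K, ‖x‖ ≤ R) {g : Euc d → ℝ} (hg : Continuous g)
    (hgl : ∀ x ∈ K, 1 / 2 ≤ g x) (hgu : ∀ x ∈ K, g x ≤ 3 / 2)
    {y : ι → Euc d} (hy : Function.Injective y) {m : ι → ℝ} (hm0 : ∀ i, 0 < m i) {q q' : ι → ℝ}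
    (hq : ∀ i, ∫ _x in cell K y q i, (1 : ℝ) = m i)
    (hq' : ∀ i, ∫ x in cell K y q' i, g x = m i) (v : ι → Euc d) :
    ∑ i, ⟪v i, mom K g y q' i - mom K (fun _ => 1) y q i⟫
      ≤ Real.sqrt (∑ i, m i * ‖v i‖ ^ 2)
        * Real.sqrt (d * cstab R * ∫ x in K, (g x - 1) ^ 2) := by
  set D : ι → Euc d := fun i => mom K g y q' i - mom K (fun _ => 1) y q i
  have hD : ∑ i, ‖D i‖ ^ 2 / m i ≤ d * cstab R * ∫ x in K, (g x - 1) ^ 2 := by
    have e : ∀ i, ‖D i‖ ^ 2 / m i = ∑ k : Fin d,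
        ((∫ x in cell K y q i, x k) - ∫ x in cell K y q' i, g x * x k) ^ 2 / m i := by
      intro i
      rw [EuclideanSpace.norm_sq_eq, Finset.sum_div]
      refine Finset.sum_congr rfl fun k _ => ?_
      rw [Real.norm_eq_abs, sq_abs]
      simp only [D, mom]
      rw [PiLp.sub_apply, coord_integral
          (F := fun x => g x • x)
          ((integrableOn_of_cont hK (hg.smul continuous_id)).mono_set (cell_subset y q' i)) k,
        coord_integral (F := fun x => (1 : ℝ) • x)
          ((integrableOn_of_cont hK (show Continuous fun x : Euc d => (1 : ℝ) • x from by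
            fun_prop)).mono_set (cell_subset y q i)) k]
      simp only [PiLp.smul_apply, smul_eq_mul, one_mul]
      ring
    simp only [e]
    rw [Finset.sum_comm]
    refine (Finset.sum_le_sum fun k _ => centroid_coord hK hKc hR1 hR hg hgl hgu hy hm0 hq hq' k).trans ?_
    simp [mul_assoc]
  calc ∑ i, ⟪v i, D i⟫
      ≤ ∑ i, (Real.sqrt (m i) * ‖v i‖) * (‖D i‖ / Real.sqrt (m i)) := by
        refine Finset.sum_le_sum fun i _ => (real_inner_le_norm _ _).trans (le_of_eq ?_)
        have := (Real.sqrt_pos.2 (hm0 i)).ne'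
        field_simp
    _ ≤ Real.sqrt (∑ i, (Real.sqrt (m i) * ‖v i‖) ^ 2)
        * Real.sqrt (∑ i, (‖D i‖ / Real.sqrt (m i)) ^ 2) := Real.sum_mul_le_sqrt_mul_sqrt _ _ _
    _ ≤ _ := by
        have e1 : ∀ i, (Real.sqrt (m i) * ‖v i‖) ^ 2 = m i * ‖v i‖ ^ 2 := fun i => by
          rw [mul_pow, Real.sq_sqrt (hm0 i).le]
        have e2 : ∀ i, (‖D i‖ / Real.sqrt (m i)) ^ 2 = ‖D i‖ ^ 2 / m i := fun i => by
          rw [div_pow, Real.sq_sqrt (hm0 i).le]
        simp only [e1, e2]
        exact mul_le_mul_of_nonneg_left (Real.sqrt_le_sqrt hD) (Real.sqrt_nonneg _)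

end Vale.Agent.P074
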