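import Mathlib
import Vale.Agent.P074.Centroid

/-!
L² stability of semi-discrete Kantorovich potentials with respect to the displacement of atoms.
-/

open MeasureTheory Set Filter
open scoped RealInnerProductSpace Topology

namespace Vale.Agent.P074

set_option linter.unusedSectionVars false

variable {d : ℕ} {ι : Type*} [Fintype ι] [Nonempty ι]

theorem norm_mom_le {K : Set (Euc d)} (hK : IsCompact K) {R : ℝ} (hR : ∀ x ∈ K, ‖x‖ ≤ R)
    {g : Euc d → ℝ} (hg : Continuous g) (hg0 : ∀ x ∈ K, 0 ≤ g x) (y : ι → Euc d) (q : ι → ℝ)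
    (i : ι) : ‖mom K g y q i‖ ≤ R * ∫ x in cell K y q i, g x := by
  refine (norm_integral_le_integral_norm _).trans ?_
  rw [← integral_const_mul]
  refine setIntegral_mono_on
    ((integrableOn_of_cont hK (by fun_prop)).mono_set (cell_subset y q i))
    ((integrableOn_of_cont hK (by fun_prop)).mono_set (cell_subset y q i))
    (measurableSet_cell hK.isClosed y q i) fun x hx => ?_
  rw [norm_smul, Real.norm_eq_abs, abs_of_nonneg (hg0 x hx.1), mul_comm]
  exact mul_le_mul_of_nonneg_right (hR x hx.1) (hg0 x hx.1)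

theorem abs_pairing_le {K : Set (Euc d)} (hK : IsCompact K) {R : ℝ} (hR : ∀ x ∈ K, ‖x‖ ≤ R)
    {g : Euc d → ℝ} (hg : Continuous g) (hg0 : ∀ x ∈ K, 0 ≤ g x) (y : ι → Euc d) {m q : ι → ℝ}
    (hmass : ∀ i, ∫ x in cell K y q i, g x = m i) (v : ι → Euc d) :
    |∑ i, ⟪v i, mom K g y q i⟫| ≤ R * ∑ i, m i * ‖v i‖ := by
  refine (Finset.abs_sum_le_sum_abs _ _).trans ?_
  rw [Finset.mul_sum]
  refine Finset.sum_le_sum fun i _ => (abs_real_inner_le_norm _ _).trans ?_
  have := norm_mom_le hK hR hg hg0 y q i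
  rw [hmass i] at this
  calc ‖v i‖ * ‖mom K g y q i‖ ≤ ‖v i‖ * (R * m i) := mul_le_mul_of_nonneg_left this (norm_nonneg _)
    _ = R * (m i * ‖v i‖) := by ring

/-- Motion of the sites: `y t = a + t (b - a)`. -/
theorem value_diff {K : Set (Euc d)} (hK : IsCompact K) (hKc : Convex ℝ K) {R : ℝ}
    (hR1 : 1 ≤ R) (hR : ∀ x ∈ K, ‖x‖ ≤ R) {a b : ι → Euc d} (ha : Function.Injective a)
    {m : ι → ℝ} (hm0 : ∀ i, 0 < m i) {g : Euc d → ℝ} (hg : Continuous g)
    (hgl : ∀ x ∈ K, 1 / 2 ≤ g x) (hgu : ∀ x ∈ K, g x ≤ 3 / 2)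
    (hmg : ∑ i, m i = ∫ x in K, g x) (hm1 : ∑ i, m i = ∫ _x in K, (1 : ℝ))
    {pa pb ra rb : ι → ℝ} (hpa : IsMinPot K g a m pa) (hpb : IsMinPot K g b m pb)
    (hra : IsMinPot K (fun _ => 1) a m ra) (hrb : IsMinPot K (fun _ => 1) b m rb) :
    (Phi K g b m pb - Phi K (fun _ => 1) b m rb) - (Phi K g a m pa - Phi K (fun _ => 1) a m ra)
      ≤ Real.sqrt (∑ i, m i * ‖b i - a i‖ ^ 2)
        * Real.sqrt (d * cstab R * ∫ x in K, (g x - 1) ^ 2) := by
  set v : ι → Euc d := fun i => b i - a i with hv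
  set y : ℝ → ι → Euc d := fun t i => a i + t • v i with hy
  have hy0 : y 0 = a := by funext i; simp [hy]
  have hy1 : y 1 = b := by funext i; simp [hy, hv]
  have hg0 : ∀ x ∈ K, 0 ≤ g x := fun x hx => by linarith [hgl x hx]
  have h10 : ∀ x ∈ K, (0 : ℝ) ≤ (fun _ : Euc d => (1 : ℝ)) x := fun _ _ => zero_le_one
  set J := Real.sqrt (∑ i, m i * ‖v i‖ ^ 2) * Real.sqrt (d * cstab R * ∫ x in K, (g x - 1) ^ 2)
  -- minimisers for every parameter
  have hM : ∀ (t : ℝ) (i : ι), ‖y t i‖ ≤ ∑ j, ‖y t j‖ := fun t i =>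
    Finset.single_le_sum (f := fun j => ‖y t j‖) (fun j _ => norm_nonneg _) (Finset.mem_univ i)
  choose qg hqgb hqg using fun t : ℝ => exists_min hK hR hg hg0 (hM t) hm0 hmg
  choose q1 hq1b hq1 using fun t : ℝ =>
    exists_min hK hR (g := fun _ => (1 : ℝ)) continuous_const h10 (hM t) hm0 hm1
  set P : ℝ → ℝ := fun t => Phi K g (y t) m (qg t) - Phi K (fun _ => 1) (y t) m (q1 t) with hP
  have hP0 : P 0 = Phi K g a m pa - Phi K (fun _ => 1) a m ra := by
    have e1 := le_antisymm (hqg 0 pa) (by have := hpa (qg 0); rwa [hy0])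
    have e2 := le_antisymm (hq1 0 ra) (by have := hra (q1 0); rwa [hy0])
    rw [hP]; simp only; rw [e1, e2, hy0]
  have hP1 : P 1 = Phi K g b m pb - Phi K (fun _ => 1) b m rb := by
    have e1 := le_antisymm (hqg 1 pb) (by have := hpb (qg 1); rwa [hy1])
    have e2 := le_antisymm (hq1 1 rb) (by have := hrb (q1 1); rwa [hy1])
    rw [hP]; simp only; rw [e1, e2, hy1]
  rw [← hP0, ← hP1]
  -- Lipschitz bound
  set S := ∑ i, ‖v i‖
  set V := ∑ i, m i
  have hlip : ∀ (G : Euc d → ℝ), Continuous G → (∀ x ∈ K, 0 ≤ G x) → (∫ x in K, G x) = V →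
      ∀ (t t' : ℝ) (p p' : ι → ℝ), IsMinPot K G (y t') m p' →
        Phi K G (y t') m p' ≤ Phi K G (y t) m p + R * (|t' - t| * S) * V := by
    intro G hG hG0 hGV t t' p p' hp'
    refine (hp' p).trans ?_
    unfold Phi
    rw [← hGV, ← integral_const_mul, add_right_comm,
      ← integral_add (integrableOn_of_cont hK (F := fun x => pot (y t) p x * G x)
          ((continuous_pot _ _).mul hG))
        ((integrableOn_of_cont hK hG).const_mul _)]
    refine add_le_add (setIntegral_mono_on (integrableOn_of_cont hK ((continuous_pot _ _).mul hG))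
      (integrableOn_of_cont hK (((continuous_pot _ _).mul hG).add (continuous_const.mul hG)))
      hK.measurableSet fun x hx => ?_) le_rfl
    rw [← add_mul]
    refine mul_le_mul_of_nonneg_right (pot_sub_le_of_site (fun i => ?_) p (hR x hx)) (hG0 x hx)
    have : y t' i - y t i = (t' - t) • v i := by simp only [hy, sub_smul]; abel
    rw [this, norm_smul, Real.norm_eq_abs]
    exact mul_le_mul_of_nonneg_left
      (Finset.single_le_sum (f := fun j => ‖v j‖) (fun j _ => norm_nonneg _) (Finset.mem_univ i))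
      (abs_nonneg _)
  have hPlip : ∀ t t', P t' - P t ≤ 2 * (R * (|t' - t| * S) * V) := by
    intro t t'
    have h1 := hlip g hg hg0 hmg.symm t t' (qg t) (qg t') (hqg t')
    have h2 := hlip (fun _ => 1) continuous_const h10 hm1.symm t' t (q1 t') (q1 t) (hq1 t)
    rw [abs_sub_comm t t'] at h2
    simp only [hP]; linarith
  -- collision times
  set B : Set ℝ := {t | ¬ Function.Injective (y t)}
  have hB : B.Finite := by
    have hsub : B ⊆ ⋃ p : ι × ι, {t | p.1 ≠ p.2 ∧ y t p.1 = y t p.2} := by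
      intro t ht
      simp only [B, mem_ofPred_eq, Function.Injective] at ht
      push Not at ht
      obtain ⟨i, j, hij, hne⟩ := ht
      exact mem_iUnion.2 ⟨(i, j), hne, hij⟩
    refine (finite_iUnion fun p => ?_).subset hsub
    refine Set.Subsingleton.finite ?_
    rintro t ⟨hne, ht⟩ t' ⟨-, ht'⟩
    by_contra htt
    have key : ∀ r : ℝ, y r p.1 - y r p.2 = (a p.1 - a p.2) + r • (v p.1 - v p.2) := by
      intro r; simp only [hy, hv, smul_sub]; abel
    have e1 := key t
    have e2 := key t'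
    rw [ht, sub_self] at e1
    rw [ht', sub_self] at e2
    have h1 : (t - t') • (v p.1 - v p.2) = 0 := by
      rw [sub_smul, sub_eq_zero]
      exact add_left_cancel (e1.symm.trans e2)
    have h2 : v p.1 = v p.2 :=
      sub_eq_zero.1 ((smul_eq_zero.1 h1).resolve_left (sub_ne_zero.2 htt))
    rw [h2, sub_self, smul_zero, add_zero] at e1
    exact hne (ha (sub_eq_zero.1 e1.symm))
  set L := R * ∑ i, m i * ‖v i‖
  -- discretised bound
  have hN : ∀ N : ℕ, 1 ≤ N → P 1 - P 0 ≤ J + (4 * (R * S * V) + 2 * L) / N := by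
    intro N hN1
    have hNpos : (0 : ℝ) < N := by exact_mod_cast hN1
    obtain ⟨θ, hθ, hθB⟩ : ∃ θ ∈ Ioo (0 : ℝ) 1,
        θ ∉ ⋃ j ∈ Finset.range N, (fun s => ((j : ℝ) + s) / N) ⁻¹' B := by
      refine ((Ioo_infinite zero_lt_one).sdiff ((Finset.range N).finite_toSet.biUnion fun j _ =>
        hB.preimage (Function.Injective.injOn fun s s' h => ?_))).nonempty
      have := (div_left_inj' hNpos.ne').1 h
      linarith
    simp only [mem_iUnion, mem_preimage, not_exists] at hθB
    set T : ℕ → ℝ := fun j => ((j : ℝ) + θ) / N with hT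
    have hinj : ∀ j < N, Function.Injective (y (T j)) := by
      intro j hj
      have := hθB j (Finset.mem_range.2 hj)
      simpa [B] using this
    set A : ℕ → ℝ := fun j => ∑ i, ⟪v i, mom K g (y (T j)) (qg (T j)) i⟫
    set X : ℕ → ℝ := fun j => ∑ i, ⟪v i, mom K (fun _ => 1) (y (T j)) (q1 (T j)) i⟫
    have hmA : ∀ j < N, ∀ i, ∫ x in cell K (y (T j)) (qg (T j)) i, g x = m i := fun j hj =>
      min_mass hK hg hg0 (hinj j hj) hmg (hqg _)
    have hmX : ∀ j < N, ∀ i, ∫ _x in cell K (y (T j)) (q1 (T j)) i, (1 : ℝ) = m i := fun j hj =>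
      min_mass hK continuous_const h10 (hinj j hj) hm1 (hq1 _)
    have hexp : ∀ (t t' : ℝ) (Z : ι → Euc d), ∑ i, ⟪y t i, Z i⟫
        = ∑ i, ⟪y t' i, Z i⟫ + (t - t') * ∑ i, ⟪v i, Z i⟫ := by
      intro t t' Z
      rw [Finset.mul_sum, ← Finset.sum_add_distrib]
      refine Finset.sum_congr rfl fun i _ => ?_
      simp only [hy, inner_add_left, real_inner_smul_left]
      ring
    have hstep : ∀ j, j + 1 < N → P (T (j + 1)) - P (T j) ≤ (A (j + 1) - X j) / N := by
      intro j hj
      have hj' : j < N := by omega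
      have hdt : T (j + 1) - T j = 1 / (N : ℝ) := by simp only [hT]; push_cast; ring
      have e1 := strong_duality hK hg (hinj _ hj) (hmA _ hj)
      have e2 := weak_duality hK hg hg0 (hinj _ hj) (hmA _ hj) (y (T j)) (qg (T j))
      have e3 := strong_duality hK (g := fun _ => (1 : ℝ)) continuous_const (hinj _ hj') (hmX _ hj')
      have e4 := weak_duality hK (g := fun _ => (1 : ℝ)) continuous_const h10 (hinj _ hj')
        (hmX _ hj') (y (T (j + 1))) (q1 (T (j + 1)))
      have h1 : Phi K g (y (T (j + 1))) m (qg (T (j + 1))) - Phi K g (y (T j)) m (qg (T j))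
          ≤ (T (j + 1) - T j) * A (j + 1) := by
        have := hexp (T (j + 1)) (T j) (mom K g (y (T (j + 1))) (qg (T (j + 1))))
        simp only [A]; linarith
      have h2 : (T (j + 1) - T j) * X j ≤ Phi K (fun _ => 1) (y (T (j + 1))) m (q1 (T (j + 1)))
          - Phi K (fun _ => 1) (y (T j)) m (q1 (T j)) := by
        have := hexp (T (j + 1)) (T j) (mom K (fun _ => 1) (y (T j)) (q1 (T j)))
        simp only [X]; linarith
      rw [hdt] at h1 h2
      have h3 : (A (j + 1) - X j) / N = 1 / (N : ℝ) * A (j + 1) - 1 / (N : ℝ) * X j := by ring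
      simp only [hP]; linarith
    obtain ⟨n, rfl⟩ : ∃ n, N = n + 1 := ⟨N - 1, by omega⟩
    have htel : P (T n) - P (T 0) ≤ ∑ j ∈ Finset.range n, (A (j + 1) - X j) / ((n + 1 : ℕ) : ℝ) := by
      rw [← Finset.sum_range_sub (fun j => P (T j)) n]
      exact Finset.sum_le_sum fun j hj => hstep j (by have := Finset.mem_range.1 hj; omega)
    have hsum : ∑ j ∈ Finset.range n, (A (j + 1) - X j) ≤ (n : ℝ) * J + 2 * L := by
      have e : ∑ j ∈ Finset.range n, (A (j + 1) - X j)
          = ∑ j ∈ Finset.range n, (A j - X j) + (A n - A 0) := by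
        rw [← Finset.sum_range_sub A n, ← Finset.sum_add_distrib]
        exact Finset.sum_congr rfl fun j _ => by ring
      rw [e]
      refine add_le_add ?_ ?_
      · refine le_trans (Finset.sum_le_sum (g := fun _ => J) fun j hj => ?_) (by simp)
        have hj' : j < n + 1 := by have := Finset.mem_range.1 hj; omega
        have := centroid_pairing hK hKc hR1 hR hg hgl hgu (hinj j hj') hm0 (hmX j hj') (hmA j hj') v
        simp only [inner_sub_right, Finset.sum_sub_distrib] at this
        exact this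
      · have h1 := abs_pairing_le hK hR hg hg0 _ (hmA n (by omega)) v
        have h2 := abs_pairing_le hK hR hg hg0 _ (hmA 0 (by omega)) v
        linarith [(abs_le.1 h1).2, (abs_le.1 h2).1]
    have hJ : 0 ≤ J := mul_nonneg (Real.sqrt_nonneg _) (Real.sqrt_nonneg _)
    have hN' : ((n + 1 : ℕ) : ℝ) = (n : ℝ) + 1 := by push_cast; ring
    have hend0 : P (T 0) - P 0 ≤ 2 * (R * S * V) / ((n + 1 : ℕ) : ℝ) := by
      refine (hPlip 0 (T 0)).trans ?_
      have : |T 0 - 0| ≤ 1 / ((n + 1 : ℕ) : ℝ) := by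
        simp only [hT, Nat.cast_zero, zero_add, sub_zero]
        rw [abs_of_nonneg (div_nonneg hθ.1.le hNpos.le)]
        gcongr; exact hθ.2.le
      calc 2 * (R * (|T 0 - 0| * S) * V) = 2 * (R * S * V) * |T 0 - 0| := by ring
        _ ≤ 2 * (R * S * V) * (1 / ((n + 1 : ℕ) : ℝ)) :=
          mul_le_mul_of_nonneg_left this (by
            have : 0 ≤ V := Finset.sum_nonneg fun i _ => (hm0 i).le
            positivity)
        _ = _ := by ring
    have hend1 : P 1 - P (T n) ≤ 2 * (R * S * V) / ((n + 1 : ℕ) : ℝ) := by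
      refine (hPlip (T n) 1).trans ?_
      have : |1 - T n| ≤ 1 / ((n + 1 : ℕ) : ℝ) := by
        have e : 1 - T n = (1 - θ) / ((n + 1 : ℕ) : ℝ) := by
          simp only [hT]; push_cast; field_simp; ring
        rw [e, abs_of_nonneg (div_nonneg (by linarith [hθ.2]) hNpos.le)]
        gcongr; linarith [hθ.1]
      calc 2 * (R * (|1 - T n| * S) * V) = 2 * (R * S * V) * |1 - T n| := by ring
        _ ≤ 2 * (R * S * V) * (1 / ((n + 1 : ℕ) : ℝ)) :=
          mul_le_mul_of_nonneg_left this (by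
            have : 0 ≤ V := Finset.sum_nonneg fun i _ => (hm0 i).le
            positivity)
        _ = _ := by ring
    rw [← Finset.sum_div] at htel
    have hmid : P (T n) - P (T 0) ≤ J + 2 * L / ((n + 1 : ℕ) : ℝ) := by
      refine htel.trans ?_
      rw [div_le_iff₀ hNpos, add_mul, div_mul_cancel₀ _ hNpos.ne']
      refine hsum.trans ?_
      rw [hN']
      nlinarith
    have e5 : (4 * (R * S * V) + 2 * L) / ((n + 1 : ℕ) : ℝ)
        = 2 * (R * S * V) / ((n + 1 : ℕ) : ℝ) + 2 * (R * S * V) / ((n + 1 : ℕ) : ℝ)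
          + 2 * L / ((n + 1 : ℕ) : ℝ) := by ring
    linarith
  have hlim : Tendsto (fun N : ℕ => J + (4 * (R * S * V) + 2 * L) / (N : ℝ)) atTop (𝓝 (J + 0)) :=
    tendsto_const_nhds.add (tendsto_const_div_atTop_nhds_zero_nat _)
  rw [add_zero] at hlim
  exact ge_of_tendsto hlim (eventually_atTop.2 ⟨1, hN⟩)

/-- The potential stability estimate. -/
theorem potential_stability {K : Set (Euc d)} (hK : IsCompact K) (hKc : Convex ℝ K)
    (hKi : (interior K).Nonempty) {R : ℝ} (hR1 : 1 ≤ R) (hR : ∀ x ∈ K, ‖x‖ ≤ R)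
    {a b : ι → Euc d} (ha : Function.Injective a) (hb : Function.Injective b)
    {m : ι → ℝ} (hm0 : ∀ i, 0 < m i) (hm : ∑ i, m i = ∫ _x in K, (1 : ℝ))
    {qa qb : ι → ℝ} (hqa : IsMinPot K (fun _ => 1) a m qa)
    (hqb : IsMinPot K (fun _ => 1) b m qb) :
    ∃ c, ∫ x in K, (pot b qb x - pot a qa x - c) ^ 2
      ≤ d * cstab R * ∑ i, m i * ‖b i - a i‖ ^ 2 := by
  set V := ∫ _x in K, (1 : ℝ)
  have hV : 0 < V := hm ▸ Finset.sum_pos (fun i _ => hm0 i) Finset.univ_nonempty
  set u : Euc d → ℝ := fun x => pot b qb x - pot a qa x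
  have hu : Continuous u := (continuous_pot b qb).sub (continuous_pot a qa)
  set c := (∫ x in K, u x) / V
  refine ⟨c, ?_⟩
  set h : Euc d → ℝ := fun x => u x - c
  have hh : Continuous h := hu.sub continuous_const
  have hh0 : ∫ x in K, h x = 0 := by
    have hc : ∫ _x in K, c = c * V := by rw [← integral_const_mul]; simp
    simp only [h]
    rw [integral_sub (integrableOn_of_cont hK hu) (integrableOn_of_cont hK continuous_const), hc]
    simp only [c]; field_simp; ring
  obtain ⟨H, hH⟩ := hK.exists_bound_of_continuousOn hh.continuousOn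
  set H' := max H 1
  have hH'0 : 0 < H' := lt_of_lt_of_le one_pos (le_max_right _ _)
  set e : ℕ → ℝ := fun n => 1 / (2 * H') * (1 / ((n : ℝ) + 1))
  have he0 : ∀ n, 0 < e n := fun n => by positivity
  have hel : ∀ n, e n ≤ 1 / (2 * H') := fun n =>
    mul_le_of_le_one_right (by positivity) (by
      rw [div_le_one (by positivity)]; linarith [(Nat.cast_nonneg n : (0:ℝ) ≤ n)])
  set g : ℕ → Euc d → ℝ := fun n x => 1 + e n * h x
  have hgc : ∀ n, Continuous (g n) := fun n => continuous_const.add (continuous_const.mul hh)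
  have hgb : ∀ n, ∀ x ∈ K, |e n * h x| ≤ 1 / 2 := by
    intro n x hx
    rw [abs_mul, abs_of_pos (he0 n)]
    have h1 : |h x| ≤ H' := (hH x hx).trans (le_max_left _ _)
    calc e n * |h x| ≤ 1 / (2 * H') * H' := mul_le_mul (hel n) h1 (abs_nonneg _) (by positivity)
      _ = 1 / 2 := by field_simp
  have hgl : ∀ n, ∀ x ∈ K, 1 / 2 ≤ g n x := fun n x hx => by
    have := (abs_le.1 (hgb n x hx)).1; simp only [g]; linarith
  have hgu : ∀ n, ∀ x ∈ K, g n x ≤ 3 / 2 := fun n x hx => by
    have := (abs_le.1 (hgb n x hx)).2; simp only [g]; linarith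
  have hg0 : ∀ n, ∀ x ∈ K, 0 ≤ g n x := fun n x hx => by linarith [hgl n x hx]
  have hgV : ∀ n, ∫ x in K, g n x = V := by
    intro n
    simp only [g]
    rw [integral_add (integrableOn_of_cont hK continuous_const)
      ((integrableOn_of_cont hK hh).const_mul _), integral_const_mul, hh0, mul_zero, add_zero]
  have hM : ∀ (y : ι → Euc d) (i : ι), ‖y i‖ ≤ ∑ j, ‖y j‖ := fun y i =>
    Finset.single_le_sum (f := fun j => ‖y j‖) (fun j _ => norm_nonneg _) (Finset.mem_univ i)
  choose pb hpbb hpb using fun n => exists_min hK hR (hgc n) (hg0 n) (hM b) hm0 (hm.trans (hgV n).symm)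
  choose pa hpab hpa using fun n => exists_min hK hR (hgc n) (hg0 n) (hM a) hm0 (hm.trans (hgV n).symm)
  have hsplit : ∀ (y : ι → Euc d) (n : ℕ) (q : ι → ℝ),
      Phi K (g n) y m q = Phi K (fun _ => 1) y m q + e n * ∫ x in K, pot y q x * h x := by
    intro y n q
    unfold Phi
    rw [← integral_const_mul]
    simp only [mul_one]
    rw [add_right_comm, ← integral_add (integrableOn_of_cont hK (continuous_pot y q))
      ((integrableOn_of_cont hK (F := fun x => pot y q x * h x)
        ((continuous_pot y q).mul hh)).const_mul _)]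
    congr 1
    refine integral_congr_ae (Eventually.of_forall fun x => ?_)
    simp only [g]; ring
  set W := Real.sqrt (∑ i, m i * ‖b i - a i‖ ^ 2)
  set Q := ∫ x in K, h x ^ 2
  have hQ : 0 ≤ Q := integral_nonneg fun x => sq_nonneg _
  have hD : 0 ≤ (d : ℝ) * cstab R := mul_nonneg (Nat.cast_nonneg d) (by unfold cstab; positivity)
  set J := W * Real.sqrt (d * cstab R * Q)
  have hmain : ∀ n, (∫ x in K, pot b (pb n) x * h x) - ∫ x in K, pot a qa x * h x ≤ J := by
    intro n
    have hv := value_diff (b := b) hK hKc hR1 hR ha hm0 (hgc n) (hgl n) (hgu n)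
      (hm.trans (hgV n).symm) hm (hpa n) (hpb n) hqa hqb
    have e1 : ∫ x in K, (g n x - 1) ^ 2 = e n ^ 2 * Q := by
      rw [← integral_const_mul]
      exact integral_congr_ae (Eventually.of_forall fun x => by simp only [g]; ring)
    rw [e1, show (d : ℝ) * cstab R * (e n ^ 2 * Q) = e n ^ 2 * (d * cstab R * Q) by ring,
      Real.sqrt_mul (sq_nonneg _), Real.sqrt_sq (he0 n).le, mul_left_comm] at hv
    have h1 := hsplit b n (pb n)
    have h2 := hsplit a n qa
    have h3 := hpa n qa
    have h4 := hqb (pb n)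
    have : e n * ((∫ x in K, pot b (pb n) x * h x) - ∫ x in K, pot a qa x * h x) ≤ e n * J := by
      linarith
    exact le_of_mul_le_mul_left this (he0 n)
  -- compactness
  have hbox : ∀ n, pb n ∈ Set.univ.pi fun i => Icc (0 : ℝ) (2 * ((∑ j, ‖b j‖) * R) * V / m i) :=
    fun n i _ => by have := hpbb n i; rw [hgV n] at this; exact this
  obtain ⟨q₀, -, φ, hφ, hlim⟩ :=
    (isCompact_univ_pi fun i => isCompact_Icc).tendsto_subseq hbox
  set F : (ι → ℝ) → ℝ := fun q => ∫ x in K, pot b q x * h x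
  have hF : Continuous F := by
    have hh' := continuous_Phi hK hh b (fun _ => (0 : ℝ))
    refine hh'.congr fun q => ?_
    simp [Phi, F]
  have heto : Tendsto (fun n => e (φ n)) atTop (𝓝 0) := by
    have := (tendsto_one_div_add_atTop_nhds_zero_nat.const_mul (1 / (2 * H'))).comp hφ.tendsto_atTop
    simpa [e, Function.comp_def] using this
  have hFlim : Tendsto (fun n => F (pb (φ n))) atTop (𝓝 (F q₀)) := (hF.tendsto q₀).comp hlim
  have hq₀ : IsMinPot K (fun _ => 1) b m q₀ := by
    intro q'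
    have hPc : Tendsto (fun n => Phi K (fun _ => 1) b m (pb (φ n)) + e (φ n) * F (pb (φ n))) atTop
        (𝓝 (Phi K (fun _ => 1) b m q₀ + 0 * F q₀)) :=
      (((continuous_Phi hK continuous_const b m).tendsto q₀).comp hlim).add (heto.mul hFlim)
    have hR' : Tendsto (fun n => Phi K (fun _ => 1) b m q' + e (φ n) * F q') atTop
        (𝓝 (Phi K (fun _ => 1) b m q' + 0 * F q')) :=
      tendsto_const_nhds.add (heto.mul tendsto_const_nhds)
    rw [zero_mul, add_zero] at hPc hR'
    refine le_of_tendsto_of_tendsto' hPc hR' fun n => ?_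
    have := hpb (φ n) q'
    rw [hsplit, hsplit] at this
    exact this
  obtain ⟨c', hc'⟩ := min_unique hK hKc hKi hb hm hq₀ hqb
  have hQJ : Q ≤ J := by
    have h5 : F q₀ - ∫ x in K, pot a qa x * h x ≤ J :=
      le_of_tendsto' (hFlim.sub tendsto_const_nhds) fun n => hmain (φ n)
    have h6 : F q₀ - ∫ x in K, pot a qa x * h x = Q := by
      simp only [F]
      rw [← integral_sub
        (integrableOn_of_cont hK (F := fun x => pot b q₀ x * h x) ((continuous_pot b q₀).mul hh))
        (integrableOn_of_cont hK (F := fun x => pot a qa x * h x) ((continuous_pot a qa).mul hh))]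
      have h7 : ∫ x in K, (pot b q₀ x * h x - pot a qa x * h x)
          = ∫ x in K, (h x ^ 2 + (c' + c) * h x) := by
        refine setIntegral_congr_fun hK.measurableSet fun x hx => ?_
        have := hc' x hx
        simp only [h, u]
        linear_combination (pot b qb x - pot a qa x - c) * this
      rw [h7, integral_add (integrableOn_of_cont hK (F := fun x => h x ^ 2) (hh.pow 2))
        ((integrableOn_of_cont hK hh).const_mul _), integral_const_mul, hh0, mul_zero, add_zero]
    linarith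
  change Q ≤ _
  have hW2 : W ^ 2 = ∑ i, m i * ‖b i - a i‖ ^ 2 :=
    Real.sq_sqrt (Finset.sum_nonneg fun i _ => mul_nonneg (hm0 i).le (sq_nonneg _))
  rcases eq_or_lt_of_le hQ with hQ0 | hQ0
  · rw [← hQ0]
    exact mul_nonneg hD (by rw [← hW2]; positivity)
  have h8 : Q ^ 2 ≤ J ^ 2 := pow_le_pow_left₀ hQ hQJ 2
  simp only [J, mul_pow, hW2, Real.sq_sqrt (mul_nonneg hD hQ)] at h8
  nlinarith

end Vale.Agent.P074
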