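import Mathlib
import Vale.Agent.P074.Potential
import Vale.Agent.P074.Interp
import Vale.Agent.P074.Atom

/-!
Existence of maximal-correlation maps for arbitrary compactly supported targets and their
Hölder-1/3 stability (Lebesgue measure on `K`, unnormalised).
-/

open MeasureTheory Set Filter
open scoped RealInnerProductSpace Topology ENNReal

namespace Vale.Agent.P074

variable {d : ℕ}

/-- `T` pushes Lebesgue measure on `K` to `ν` and maximises the correlation with the identity. -/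
def MaxCorr (K : Set (Euc d)) (ν : Measure (Euc d)) (T : Euc d → Euc d) : Prop :=
  Measurable T ∧ (volume.restrict K).map T = ν ∧
    ∀ S, Measurable S → (volume.restrict K).map S = ν →
      ∫ x in K, ⟪x, S x⟫ ≤ ∫ x in K, ⟪x, T x⟫

/-- Data of an optimal atomic transport problem. -/
structure Semi (K : Set (Euc d)) (M : ℝ) {ι : Type} [Fintype ι] [Nonempty ι] (a : ι → Euc d)
    (m : ι → ℝ) where
  /-- potential weights -/
  q : ι → ℝ
  /-- the map -/
  S : Euc d → Euc d
  isMin : IsMinPot K (fun _ => 1) a m q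
  meas : Measurable S
  bound : ∀ x, ‖S x‖ ≤ M
  sub : ApproxSub K (pot a q) S fun _ => 0
  push : ∀ f : Euc d → ℝ, Continuous f → ∫ x in K, f (S x) = ∑ i, m i * f (a i)
  corr : ∫ x in K, ⟪x, S x⟫ = Phi K (fun _ => 1) a m q

theorem exists_semi {K : Set (Euc d)} (hK : IsCompact K) {R : ℝ} (hR : ∀ x ∈ K, ‖x‖ ≤ R)
    {M : ℝ} (hM0 : 0 ≤ M) {ι : Type} [Fintype ι] [Nonempty ι] {a : ι → Euc d}
    (ha : Function.Injective a) (hM : ∀ i, ‖a i‖ ≤ M) {m : ι → ℝ} (hm0 : ∀ i, 0 < m i)
    (hm : ∑ i, m i = ∫ _x in K, (1 : ℝ)) : Nonempty (Semi K M a m) := by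
  classical
  obtain ⟨q, -, hq⟩ := exists_min hK hR (g := fun _ => (1 : ℝ)) continuous_const
    (fun _ _ => zero_le_one) hM hm0 hm
  have hmass := min_mass hK continuous_const (fun _ _ => zero_le_one) ha hm hq
  set S : Euc d → Euc d := fun x => ∑ i, (scell K a q i).indicator (fun _ => a i) x
  have hScell : ∀ i, ∀ x ∈ scell K a q i, S x = a i := by
    intro i x hx
    simp only [S]
    rw [Finset.sum_eq_single i]
    · exact indicator_of_mem hx _
    · intro j _ hj
      refine indicator_of_notMem (fun hxj => ?_) _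
      have h1 := hx.2 j hj
      have h2 := hxj.2 i (Ne.symm hj)
      linarith
    · simp
  have hSm : Measurable S := Finset.measurable_sum _ fun i _ =>
    measurable_const.indicator (measurableSet_scell hK.isClosed a q i)
  have hb : ∀ x, ‖S x‖ ≤ M := by
    intro x
    by_cases h : ∃ i, x ∈ scell K a q i
    · obtain ⟨i, hi⟩ := h; rw [hScell i x hi]; exact hM i
    · push Not at h
      have : S x = 0 := Finset.sum_eq_zero fun i _ => indicator_of_notMem (h i) _
      rw [this, norm_zero]; exact hM0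
  have hae := ae_mem_scell (K := K) ha q
  have hcover : ∀ x ∈ K, ∃ i, x ∈ cell K a q i := fun x hx =>
    mem_iUnion.1 (show x ∈ ⋃ i, cell K a q i from (iUnion_cell K a q).symm ▸ hx)
  have hcellS : ∀ i, ∀ᵐ x : Euc d, x ∈ cell K a q i → S x = a i := fun i => by
    filter_upwards [hae] with x hx hc using hScell i x (hx i hc)
  have hsplit : ∀ F : Euc d → Euc d → ℝ, Continuous (fun p : Euc d × Euc d => F p.1 p.2) →
      ∫ x in K, F x (S x) = ∑ i, ∫ x in cell K a q i, F x (a i) := by
    intro F hF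
    have hi : IntegrableOn (fun x => F x (S x)) K := by
      obtain ⟨C, hC⟩ := (hK.prod (isCompact_closedBall (0 : Euc d) M)).exists_bound_of_continuousOn
        hF.continuousOn
      refine integrableOn_of_bdd hK (hF.measurable.comp (measurable_id.prodMk hSm)) (C := C) ?_
      refine (ae_restrict_mem hK.measurableSet).mono fun x hx => ?_
      exact hC (x, S x) ⟨hx, mem_closedBall_zero_iff.2 (hb x)⟩
    rw [← sum_cell hK.isClosed ha q hi]
    refine Finset.sum_congr rfl fun i _ => setIntegral_congr_ae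
      (measurableSet_cell hK.isClosed a q i) ?_
    filter_upwards [hcellS i] with x hx hc
    rw [hx hc]
  refine ⟨⟨q, S, hq, hSm, hb, ?_, ?_, ?_⟩⟩
  · change ∀ᵐ x ∂(volume.restrict K), _
    rw [ae_restrict_iff' hK.measurableSet]
    filter_upwards [hae] with x hx hxK z _
    obtain ⟨i, hi⟩ := hcover x hxK
    rw [hScell i x (hx i hi), pot_eq_of_mem_cell hi, inner_sub_right, real_inner_comm z (a i),
      real_inner_comm x (a i)]
    have := le_pot a q z i
    linarith
  · intro f hf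
    rw [hsplit (fun _ w => f w) (by fun_prop)]
    refine Finset.sum_congr rfl fun i _ => ?_
    rw [← hmass i, ← integral_mul_const]
    simp
  · rw [hsplit (fun x w => ⟪x, w⟫) (by fun_prop), strong_duality hK continuous_const ha hmass]
    refine Finset.sum_congr rfl fun i _ => ?_
    rw [inner_mom hK continuous_const]
    simp

variable {K : Set (Euc d)}

theorem semi_near {ι : Type} [Fintype ι] [Nonempty ι] (hK : IsCompact K) (hne : K.Nonempty)
    {R : ℝ} (hR : ∀ x ∈ K, ‖x‖ ≤ R) {ν : Measure (Euc d)} {δ M : ℝ} (A : Atoms ν δ ι)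
    (s : Semi K M A.a A.m) (φ : Euc d → ℝ) (hφ : Continuous φ) :
    (∫ x in K, ⟪x, s.S x⟫) ≤ (∫ x in K, φ x) + (∫ y, conj K φ y ∂ν) + R * δ * ν.real univ := by
  have hR0 : 0 ≤ R := by obtain ⟨x, hx⟩ := hne; exact (norm_nonneg x).trans (hR x hx)
  have hc := continuous_conj hK hne hR hφ
  have h1 := A.near _ hc R hR0 fun x y => conj_lipschitz hK hne hR hφ x y
  have h2 : (∫ x in K, ⟪x, s.S x⟫) ≤ (∫ x in K, φ x) + ∫ x in K, conj K φ (s.S x) := by
    obtain ⟨C, hC⟩ :=
      (isCompact_closedBall (0 : Euc d) M).exists_bound_of_continuousOn hc.continuousOn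
    have hi : IntegrableOn (fun x => conj K φ (s.S x)) K :=
      integrableOn_of_bdd hK (hc.measurable.comp s.meas) (C := C)
        (Eventually.of_forall fun x => hC _ (mem_closedBall_zero_iff.2 (s.bound x)))
    rw [← integral_add (integrableOn_of_cont hK hφ) hi]
    refine setIntegral_mono_on ?_ ((integrableOn_of_cont hK hφ).add hi) hK.measurableSet
      fun x hx => ?_
    · refine integrableOn_of_bdd hK (measurable_id.inner s.meas) (C := R * M) ?_
      refine (ae_restrict_mem hK.measurableSet).mono fun x hx => ?_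
      exact (abs_real_inner_le_norm _ _).trans (mul_le_mul (hR x hx) (s.bound x) (norm_nonneg _) hR0)
    · have := le_conj hK hφ (s.S x) hx
      linarith
  rw [s.push _ hc] at h2
  linarith [(abs_le.1 h1).2]

theorem semi_pot {ι : Type} [Fintype ι] [Nonempty ι] (hK : IsCompact K) (hne : K.Nonempty)
    {R : ℝ} (hR : ∀ x ∈ K, ‖x‖ ≤ R) {ν : Measure (Euc d)} {δ M : ℝ} (A : Atoms ν δ ι)
    (s : Semi K M A.a A.m) :
    (∫ x in K, pot A.a s.q x) + (∫ y, conj K (pot A.a s.q) y ∂ν)
      ≤ (∫ x in K, ⟪x, s.S x⟫) + R * δ * ν.real univ := by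
  have hR0 : 0 ≤ R := by obtain ⟨x, hx⟩ := hne; exact (norm_nonneg x).trans (hR x hx)
  have hp := continuous_pot A.a s.q
  have h1 := A.near _ (continuous_conj hK hne hR hp) R hR0 fun x y =>
    conj_lipschitz hK hne hR hp x y
  have h2 : ∑ i, A.m i * conj K (pot A.a s.q) (A.a i) ≤ ∑ i, A.m i * s.q i :=
    Finset.sum_le_sum fun i _ => mul_le_mul_of_nonneg_left (conj_pot_site hne _ _ i) (A.pos i).le
  rw [s.corr]
  simp only [Phi, mul_one]
  linarith [(abs_le.1 h1).1]

/-- Lebesgue measure of `K` in the two forms used. -/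
theorem integral_one_eq (K : Set (Euc d)) : ∫ _x in K, (1 : ℝ) = volume.real K := by
  rw [setIntegral_const, smul_eq_mul, mul_one]

/-- A selection nearly attaining the dual value is close to the semi-discrete optimal map. -/
theorem near_semi (hK : IsCompact K) (hKc : Convex ℝ K) {c : Euc d} {r : ℝ} (hr : 0 < r)
    (hball : Metric.closedBall c r ⊆ K) {R : ℝ} (hR : ∀ x ∈ K, ‖x‖ ≤ R)
    {ι : Type} [Fintype ι] [Nonempty ι] {a : ι → Euc d} {m : ι → ℝ} {M : ℝ} (hM0 : 0 ≤ M)
    (hM : ∀ i, ‖a i‖ ≤ M) (s : Semi K M a m) {T : Euc d → Euc d} (hT : Measurable T)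
    (hTM : ∀ᵐ x ∂(volume.restrict K), ‖T x‖ ≤ M) {σ : ℝ}
    (hσ : (∫ x in K, pot a s.q x) + (∫ x in K, conj K (pot a s.q) (T x))
      - ∫ x in K, ⟪x, T x⟫ ≤ σ) {t : ℝ} (ht : 0 < t) :
    ∫ x in K, ‖T x - s.S x‖ ^ 2
      ≤ d * (28 * M ^ 2 * (d * t / r * volume.real K) + 18 * M * σ / t) := by
  have hne : K.Nonempty := ⟨c, hball (Metric.mem_closedBall_self hr.le)⟩
  have hp := continuous_pot a s.q
  have hc := continuous_conj hK hne hR hp
  set g : Euc d → ℝ := fun x => pot a s.q x + conj K (pot a s.q) (T x) - ⟪x, T x⟫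
  have hi1 : IntegrableOn (fun x => conj K (pot a s.q) (T x)) K := by
    obtain ⟨C, hC⟩ :=
      (isCompact_closedBall (0 : Euc d) M).exists_bound_of_continuousOn hc.continuousOn
    exact integrableOn_of_bdd hK (hc.measurable.comp hT) (C := C)
      (hTM.mono fun x hx => hC _ (mem_closedBall_zero_iff.2 hx))
  have hR0 : 0 ≤ R := by obtain ⟨x, hx⟩ := hne; exact (norm_nonneg x).trans (hR x hx)
  have hi2 : IntegrableOn (fun x => ⟪x, T x⟫) K := by
    refine integrableOn_of_bdd hK (measurable_id.inner hT) (C := R * M) ?_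
    filter_upwards [ae_restrict_mem hK.measurableSet, hTM] with x hx hxT
    exact (abs_real_inner_le_norm _ _).trans (mul_le_mul (hR x hx) hxT (norm_nonneg _) hR0)
  have hgi : IntegrableOn g K := ((integrableOn_of_cont hK hp).add hi1).sub hi2
  have hg0 : ∀ᵐ x ∂(volume.restrict K), 0 ≤ g x :=
    (ae_restrict_mem hK.measurableSet).mono fun x hx => by
      have := le_conj hK hp (T x) hx
      simp only [g]; linarith
  have hTs : ApproxSub K (pot a s.q) T g := by
    refine Eventually.of_forall fun x z hz => ?_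
    have := le_conj hK hp (T x) hz
    simp only [g, inner_sub_right]
    rw [real_inner_comm z (T x), real_inner_comm x (T x)]
    linarith
  have h := interp hK hKc hr hball hM0 hp hp (fun x z => pot_lipschitz hM s.q x z)
    (fun x z => pot_lipschitz hM s.q x z) hT s.meas hTM (Eventually.of_forall s.bound) hgi hg0 hTs
    s.sub ht
  refine h.trans ?_
  simp only [sub_self, ne_eq, OfNat.ofNat_ne_zero, not_false_eq_true, zero_pow, integral_zero,
    mul_zero, zero_div, zero_add]
  have hgs : ∫ x in K, g x ≤ σ := by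
    simp only [g]
    have hi3 : IntegrableOn (fun x => pot a s.q x + conj K (pot a s.q) (T x)) K :=
      (integrableOn_of_cont hK hp).add hi1
    rw [integral_sub hi3 hi2,
      integral_add (integrableOn_of_cont hK hp) hi1]
    exact hσ
  gcongr

theorem ae_norm_le_of_map {ν : Measure (Euc d)} {M : ℝ} (hν : ∀ᵐ y ∂ν, ‖y‖ ≤ M)
    {T : Euc d → Euc d} (hT : Measurable T) (hmap : (volume.restrict K).map T = ν) :
    ∀ᵐ x ∂(volume.restrict K), ‖T x‖ ≤ M := by
  rw [← hmap] at hν
  exact ae_of_ae_map hT.aemeasurable hν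

/-- Atomic approximation of a single measure. -/
theorem atom_single (hd : 1 ≤ d) (ν : Measure (Euc d)) [IsFiniteMeasure ν] (hν : ν ≠ 0)
    {M : ℝ} (hM : 0 ≤ M) (hsupp : ∀ᵐ y ∂ν, ‖y‖ ≤ M) {δ : ℝ} (hδ : 0 < δ) (hδ1 : δ ≤ 1) :
    ∃ (ι : Type) (_ : Fintype ι) (_ : Nonempty ι) (A : Atoms ν δ ι), ∀ i, ‖A.a i‖ ≤ M + 1 := by
  set γ : Measure (Euc d × Euc d) := ν.map fun y => (y, y) with hγdef
  have hfst : γ.map Prod.fst = ν := by
    rw [hγdef, Measure.map_map measurable_fst (by fun_prop)]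
    exact Measure.map_id
  have hγ : γ ≠ 0 := fun h => hν (by rw [← hfst, h, Measure.map_zero])
  have hγs : ∀ᵐ p ∂γ, ‖p.1‖ ≤ M ∧ ‖p.2‖ ≤ M := by
    have hset : MeasurableSet {p : Euc d × Euc d | ‖p.1‖ ≤ M ∧ ‖p.2‖ ≤ M} :=
      ((isClosed_le (f := fun p : Euc d × Euc d => ‖p.1‖) (by fun_prop) continuous_const).inter
        (isClosed_le (f := fun p : Euc d × Euc d => ‖p.2‖) (by fun_prop)
          continuous_const)).measurableSet
    rw [hγdef, ae_map_iff (by fun_prop) hset]
    exact hsupp.mono fun y hy => ⟨hy, hy⟩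
  obtain ⟨ι, i1, i2, A, B, -, hA, -, -⟩ := atomize hd γ hγ hM hγs hδ hδ1
  refine ⟨ι, i1, i2, ⟨A.a, A.m, A.inj, A.pos, ?_, ?_⟩, hA⟩
  · rw [A.mass, hfst]
  · intro f hf L hL hfl
    have h1 := congrArg (fun m : Measure (Euc d) => ∫ y, f y ∂m) hfst
    have h2 := congrArg (fun m : Measure (Euc d) => m.real univ) hfst
    have h3 := A.near f hf L hL hfl
    rw [h1, h2] at h3
    exact h3

theorem ext_of_lipschitz_integral {μ ν : Measure (Euc d)} [IsFiniteMeasure μ] [IsFiniteMeasure ν]
    (h : ∀ (f : Euc d → ℝ), Continuous f → (∀ x, |f x| ≤ 1) →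
      ∀ L : ℝ, 0 ≤ L → (∀ x y, |f x - f y| ≤ L * ‖x - y‖) → ∫ x, f x ∂μ = ∫ x, f x ∂ν) :
    μ = ν := by
  refine Measure.ext_of_charFun (funext fun t => ?_)
  have hint : ∀ (m : Measure (Euc d)) [IsFiniteMeasure m],
      Integrable (fun x => Complex.exp ((⟪x, t⟫ : ℝ) * Complex.I)) m := fun m _ =>
    Integrable.of_bound (by fun_prop : Continuous fun x : Euc d =>
        Complex.exp ((⟪x, t⟫ : ℝ) * Complex.I)).aestronglyMeasurable 1
      (Eventually.of_forall fun x => by rw [Complex.norm_exp_ofReal_mul_I])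
  have hl : ∀ x y : Euc d, |⟪x, t⟫ - ⟪y, t⟫| ≤ ‖t‖ * ‖x - y‖ := fun x y => by
    rw [← inner_sub_left, mul_comm]; exact abs_real_inner_le_norm _ _
  have hc := h (fun x => Real.cos ⟪x, t⟫) (by fun_prop) (fun x => Real.abs_cos_le_one _) ‖t‖
    (norm_nonneg _) fun x y => (Real.abs_cos_sub_cos_le _ _).trans (hl x y)
  have hs := h (fun x => Real.sin ⟪x, t⟫) (by fun_prop) (fun x => Real.abs_sin_le_one _) ‖t‖
    (norm_nonneg _) fun x y => (Real.abs_sin_sub_sin_le _ _).trans (hl x y)
  rw [charFun_apply, charFun_apply]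
  apply Complex.ext
  · have e : ∀ (m : Measure (Euc d)) [IsFiniteMeasure m],
        (∫ x, Complex.exp ((⟪x, t⟫ : ℝ) * Complex.I) ∂m).re = ∫ x, Real.cos ⟪x, t⟫ ∂m := fun m _ => by
      rw [← RCLike.re_eq_complex_re, ← integral_re (hint m)]
      simp [Complex.exp_ofReal_mul_I_re]
    rw [e μ, e ν, hc]
  · have e : ∀ (m : Measure (Euc d)) [IsFiniteMeasure m],
        (∫ x, Complex.exp ((⟪x, t⟫ : ℝ) * Complex.I) ∂m).im = ∫ x, Real.sin ⟪x, t⟫ ∂m := fun m _ => by
      rw [← RCLike.im_eq_complex_im, ← integral_im (hint m)]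
      simp [Complex.exp_ofReal_mul_I_im]
    rw [e μ, e ν, hs]

/-- Existence of a maximal-correlation map, approximating every atomic optimum from above. -/
theorem exists_maxCorr (hd : 1 ≤ d) (hK : IsCompact K) (hKc : Convex ℝ K) {c : Euc d} {r : ℝ}
    (hr : 0 < r) (hball : Metric.closedBall c r ⊆ K) {R : ℝ} (hR : ∀ x ∈ K, ‖x‖ ≤ R)
    {ν : Measure (Euc d)} [IsFiniteMeasure ν] (hν : ν.real univ = volume.real K)
    {M : ℝ} (hM : 0 ≤ M) (hsupp : ∀ᵐ y ∂ν, ‖y‖ ≤ M) :
    ∃ T, MaxCorr K ν T ∧ ∀ {ι : Type} [Fintype ι] [Nonempty ι] (δ : ℝ) (A : Atoms ν δ ι)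
      (M' : ℝ) (s : Semi K M' A.a A.m),
        (∫ x in K, ⟪x, s.S x⟫) ≤ (∫ x in K, ⟪x, T x⟫) + R * δ * ν.real univ := by
  have hne : K.Nonempty := ⟨c, hball (Metric.mem_closedBall_self hr.le)⟩
  have hR0 : 0 ≤ R := by obtain ⟨x, hx⟩ := hne; exact (norm_nonneg x).trans (hR x hx)
  have hVpos : 0 < volume.real K := by
    rw [measureReal_def]
    exact ENNReal.toReal_pos (ne_of_gt ((Metric.measure_closedBall_pos volume c hr).trans_le
      (measure_mono hball))) hK.measure_lt_top.ne
  set V := volume.real K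
  have hν0 : ν ≠ 0 := fun h => by rw [h] at hν; simp at hν; linarith
  set dl : ℕ → ℝ := fun n => (1 / 4096 : ℝ) ^ n
  have hdl : ∀ n, 0 < dl n ∧ dl n ≤ 1 := fun n =>
    ⟨by positivity, pow_le_one₀ (by norm_num) (by norm_num)⟩
  have hdata : ∀ n, ∃ (ι : Type) (_ : Fintype ι) (_ : Nonempty ι) (A : Atoms ν (dl n) ι)
      (_s : Semi K (M + 1) A.a A.m), ∀ i, ‖A.a i‖ ≤ M + 1 := by
    intro n
    obtain ⟨ι, i1, i2, A, hA⟩ := atom_single hd ν hν0 hM hsupp (hdl n).1 (hdl n).2
    obtain ⟨s⟩ := exists_semi hK hR (M := M + 1) (by linarith) A.inj hA A.pos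
      (by rw [A.mass, hν, integral_one_eq])
    exact ⟨ι, i1, i2, A, s, hA⟩
  choose ι hFι hNι A s hA using hdata
  set S : ℕ → Euc d → Euc d := fun n => (s n).S
  set I : ℕ → ℝ := fun n => ∫ x in K, ⟪x, S n x⟫
  set φ : ℕ → Euc d → ℝ := fun n => @pot d (ι n) (hFι n) (hNι n) (A n).a (s n).q
  set P : ℕ → ℝ := fun n => (∫ x in K, φ n x) + ∫ y, conj K (φ n) y ∂ν
  have hφc : ∀ n, Continuous (φ n) := fun n =>
    @continuous_pot d (ι n) (hFι n) (hNι n) (A n).a (s n).q
  have hPI : ∀ n, P n ≤ I n + R * dl n * V := fun n => by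
    have := @semi_pot d K (ι n) (hFι n) (hNι n) hK hne R hR ν (dl n) (M + 1) (A n) (s n)
    rwa [hν] at this
  have hIP : ∀ m (f : Euc d → ℝ), Continuous f →
      I m ≤ (∫ x in K, f x) + (∫ y, conj K f y ∂ν) + R * dl m * V := fun m f hf => by
    have := @semi_near d K (ι m) (hFι m) (hNι m) hK hne R hR ν (dl m) (M + 1) (A m) (s m) f hf
    rwa [hν] at this
  have hII : ∀ n m, I m ≤ I n + R * V * (dl n + dl m) := fun n m => by
    have h1 := hIP m (φ n) (hφc n)
    have h2 := hPI n
    simp only [P] at h2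
    linarith
  set C0 : ℝ := d * (28 * (M + 1) ^ 2 * (d / r * V) + 18 * (M + 1) * (4 * R * V))
  have hC0 : 0 ≤ C0 := by positivity
  have hE : ∀ n, ∫ x in K, ‖S (n + 1) x - S n x‖ ^ 2 ≤ C0 * (1 / 64) ^ n := by
    intro n
    have hpush := @Semi.push d K (M + 1) (ι (n + 1)) (hFι _) (hNι _) (A (n + 1)).a (A (n + 1)).m
      (s (n + 1)) _ (continuous_conj hK hne hR (hφc n))
    have hnear := (A (n + 1)).near _ (continuous_conj hK hne hR (hφc n)) R hR0
      (fun x y => conj_lipschitz hK hne hR (hφc n) x y)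
    rw [hν, ← hpush] at hnear
    have hσ : (∫ x in K, φ n x) + (∫ x in K, conj K (φ n) (S (n + 1) x))
        - ∫ x in K, ⟪x, S (n + 1) x⟫ ≤ 4 * R * V * dl n := by
      have h1 := (abs_le.1 hnear).2
      have h2 := hPI n
      have h3 := hII (n + 1) n
      simp only [P] at h2
      simp only [I, S] at h2 h3
      have h4 : dl (n + 1) ≤ dl n := by
        simp only [dl, pow_succ]; exact mul_le_of_le_one_right (by positivity) (by norm_num)
      have h5 : 0 ≤ R * V := by positivity
      have h6 := mul_le_mul_of_nonneg_left h4 h5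
      simp only [S]
      linarith
    have ht : (0 : ℝ) < (1 / 64) ^ n := by positivity
    refine (@near_semi d K hK hKc c r hr hball R hR (ι n) (hFι n) (hNι n) (A n).a (A n).m (M + 1)
      (by linarith) (hA n) (s n) (S (n + 1)) (s (n + 1)).meas
      (Eventually.of_forall (s (n + 1)).bound) _ hσ _ ht).trans (le_of_eq ?_)
    have e : dl n = (1 / 64) ^ n * (1 / 64) ^ n := by simp only [dl, ← mul_pow]; norm_num
    rw [e]
    simp only [C0]
    field_simp
    ring
  -- almost everywhere convergence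
  have hSm : ∀ n, Measurable (S n) := fun n => (s n).meas
  set f : ℕ → Euc d → ℝ := fun n x => 2 ^ n * ‖S (n + 1) x - S n x‖ ^ 2
  have hfi : ∀ n, IntegrableOn (f n) K := fun n => by
    refine integrableOn_of_bdd hK ((((hSm (n + 1)).sub (hSm n)).norm.pow_const 2).const_mul _)
      (C := 2 ^ n * (2 * (M + 1)) ^ 2) (Eventually.of_forall fun x => ?_)
    change |2 ^ n * ‖S (n + 1) x - S n x‖ ^ 2| ≤ _
    rw [abs_of_nonneg (by positivity)]
    refine mul_le_mul_of_nonneg_left (pow_le_pow_left₀ (norm_nonneg _) ?_ 2) (by positivity)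
    exact (norm_sub_le _ _).trans (by linarith [(s (n + 1)).bound x, (s n).bound x])
  have hfint : ∀ n, ∫⁻ x in K, ENNReal.ofReal (f n x) ≤ ENNReal.ofReal (C0 * (1 / 32) ^ n) := by
    intro n
    rw [← ofReal_integral_eq_lintegral_ofReal (hfi n)
      (Eventually.of_forall fun x => by simp only [f, Pi.zero_apply]; positivity)]
    refine ENNReal.ofReal_le_ofReal ?_
    simp only [f]
    rw [integral_const_mul]
    refine (mul_le_mul_of_nonneg_left (hE n) (by positivity)).trans (le_of_eq ?_)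
    rw [show (1 / 32 : ℝ) = 2 * (1 / 64) by norm_num, mul_pow]; ring
  have hfin : ∫⁻ x in K, ∑' n, ENNReal.ofReal (f n x) ≠ ⊤ := by
    rw [lintegral_tsum fun n => ((show Measurable fun x => ENNReal.ofReal (f n x) from
      ENNReal.measurable_ofReal.comp
        ((((hSm (n + 1)).sub (hSm n)).norm.pow_const 2).const_mul _))).aemeasurable]
    refine ne_top_of_le_ne_top ?_ (ENNReal.tsum_le_tsum hfint)
    rw [← ENNReal.ofReal_tsum_of_nonneg (fun n => by positivity)
      ((summable_geometric_of_lt_one (by norm_num) (by norm_num)).mul_left C0)]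
    exact ENNReal.ofReal_ne_top
  have hmeasf : Measurable fun x => ∑' n, ENNReal.ofReal (f n x) :=
    Measurable.tsum fun n => ENNReal.measurable_ofReal.comp
      ((((hSm (n + 1)).sub (hSm n)).norm.pow_const 2).const_mul _)
  have hcau : ∀ᵐ x ∂(volume.restrict K), ∃ l, Tendsto (fun n => S n x) atTop (𝓝 l) := by
    filter_upwards [ae_lt_top hmeasf hfin] with x hx
    refine cauchySeq_tendsto_of_complete (cauchySeq_of_summable_dist ?_)
    have hs : Summable fun n => f n x :=
      (ENNReal.summable_toReal hx.ne).congr fun n =>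
        ENNReal.toReal_ofReal (by simp only [f]; positivity)
    refine Summable.of_nonneg_of_le (fun n => dist_nonneg) (fun n => ?_)
      ((summable_geometric_of_lt_one (by norm_num : (0:ℝ) ≤ 1 / 2) (by norm_num)).add hs)
    rw [dist_comm, dist_eq_norm]
    simp only [f, Nat.succ_eq_add_one]
    set z := ‖S (n + 1) x - S n x‖
    have hz : 0 ≤ z := norm_nonneg _
    have h2n : (0 : ℝ) < 2 ^ n := by positivity
    have e : (1 / 2 : ℝ) ^ n = 1 / 2 ^ n := by rw [div_pow, one_pow]
    rw [e]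
    have : 2 * z ≤ 1 / 2 ^ n + 2 ^ n * z ^ 2 := by
      have h0 := div_nonneg (sq_nonneg (2 ^ n * z - 1)) h2n.le
      have : (2 ^ n * z - 1) ^ 2 / 2 ^ n = 1 / 2 ^ n + 2 ^ n * z ^ 2 - 2 * z := by
        field_simp; ring
      linarith
    linarith
  obtain ⟨T, hTm, hT⟩ := measurable_limit_of_tendsto_metrizable_ae (fun n => (hSm n).aemeasurable) hcau
  have hfinK : IsFiniteMeasure (volume.restrict K) := ⟨by simpa using hK.measure_lt_top⟩
  have hmap : (volume.restrict K).map T = ν := by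
    refine ext_of_lipschitz_integral fun g hg hg1 L hL hgl => ?_
    rw [integral_map hTm.aemeasurable hg.aestronglyMeasurable]
    have h1 : Tendsto (fun n => ∫ x in K, g (S n x)) atTop (𝓝 (∫ x in K, g (T x))) :=
      tendsto_integral_of_dominated_convergence (fun _ => 1)
        (fun n => (hg.measurable.comp (hSm n)).aestronglyMeasurable) (integrable_const _)
        (fun n => Eventually.of_forall fun x => hg1 _)
        (hT.mono fun x hx => (hg.tendsto _).comp hx)
    have h2 : Tendsto (fun n => ∫ x in K, g (S n x)) atTop (𝓝 (∫ y, g y ∂ν)) := by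
      rw [tendsto_iff_norm_sub_tendsto_zero]
      refine squeeze_zero (fun n => norm_nonneg _) (fun n => ?_) (g := fun n => L * dl n * V)
        (by
          have := ((tendsto_pow_atTop_nhds_zero_of_lt_one
            (by norm_num : (0:ℝ) ≤ 1 / 4096) (by norm_num)).const_mul L).mul_const V
          rw [mul_zero, zero_mul] at this
          exact this)
      have hp := @Semi.push d K (M + 1) (ι n) (hFι n) (hNι n) (A n).a (A n).m (s n) g hg
      have hn := (A n).near g hg L hL hgl
      rw [hν, ← hp] at hn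
      exact hn
    exact tendsto_nhds_unique h1 h2
  have hI : Tendsto I atTop (𝓝 (∫ x in K, ⟪x, T x⟫)) := by
    refine tendsto_integral_of_dominated_convergence (fun _ => R * (M + 1))
      (fun n => (measurable_id.inner (hSm n)).aestronglyMeasurable) (integrable_const _)
      (fun n => ?_) (hT.mono fun x hx => (continuous_const.inner continuous_id).tendsto _ |>.comp hx)
    refine (ae_restrict_mem hK.measurableSet).mono fun x hx => ?_
    exact (abs_real_inner_le_norm _ _).trans
      (mul_le_mul (hR x hx) ((s n).bound x) (norm_nonneg _) hR0)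
  have hdl0 : Tendsto dl atTop (𝓝 0) :=
    tendsto_pow_atTop_nhds_zero_of_lt_one (by norm_num : (0:ℝ) ≤ 1 / 4096) (by norm_num)
  refine ⟨T, ⟨hTm, hmap, fun S' hS' hmap' => ?_⟩, ?_⟩
  · have hS'M := ae_norm_le_of_map hsupp hS' hmap'
    have hlim : Tendsto (fun n => I n + R * dl n * V) atTop
        (𝓝 ((∫ x in K, ⟪x, T x⟫) + R * 0 * V)) := hI.add ((hdl0.const_mul R).mul_const V)
    rw [mul_zero, zero_mul, add_zero] at hlim
    refine ge_of_tendsto' hlim fun n => le_trans ?_ (hPI n)
    have hcc := continuous_conj hK hne hR (hφc n)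
    have hi : IntegrableOn (fun x => conj K (φ n) (S' x)) K := by
      obtain ⟨C, hC⟩ :=
        (isCompact_closedBall (0 : Euc d) M).exists_bound_of_continuousOn hcc.continuousOn
      exact integrableOn_of_bdd hK (hcc.measurable.comp hS') (C := C)
        (hS'M.mono fun x hx => hC _ (mem_closedBall_zero_iff.2 hx))
    have hi2 : IntegrableOn (fun x => ⟪x, S' x⟫) K := by
      refine integrableOn_of_bdd hK (measurable_id.inner hS') (C := R * M) ?_
      filter_upwards [ae_restrict_mem hK.measurableSet, hS'M] with x hx hxS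
      exact (abs_real_inner_le_norm _ _).trans (mul_le_mul (hR x hx) hxS (norm_nonneg _) hR0)
    have : ∫ y, conj K (φ n) y ∂ν = ∫ x in K, conj K (φ n) (S' x) := by
      rw [← hmap', integral_map hS'.aemeasurable hcc.aestronglyMeasurable]
    simp only [P]
    rw [this, ← integral_add (integrableOn_of_cont hK (hφc n)) hi]
    refine setIntegral_mono_on hi2 ((integrableOn_of_cont hK (hφc n)).add hi) hK.measurableSet
      fun x hx => ?_
    have := le_conj hK (hφc n) (S' x) hx
    linarith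
  · intro κ i1 i2 δ B M' t
    have hb : ∀ n, (∫ x in K, ⟪x, t.S x⟫) ≤ I n + R * dl n * V + R * δ * ν.real univ := fun n => by
      have h1 := semi_near hK hne hR B t (φ n) (hφc n)
      have h2 := hPI n
      simp only [P] at h2
      linarith
    have hlim : Tendsto (fun n => I n + R * dl n * V + R * δ * ν.real univ) atTop
        (𝓝 ((∫ x in K, ⟪x, T x⟫) + R * 0 * V + R * δ * ν.real univ)) :=
      (hI.add ((hdl0.const_mul R).mul_const V)).add_const _
    rw [mul_zero, zero_mul, add_zero] at hlim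
    exact ge_of_tendsto' hlim hb

/-- A maximal-correlation map is close to every atomic optimum. -/
theorem maxCorr_near (hd : 1 ≤ d) (hK : IsCompact K) (hKc : Convex ℝ K) {c : Euc d} {r : ℝ}
    (hr : 0 < r) (hball : Metric.closedBall c r ⊆ K) {R : ℝ} (hR : ∀ x ∈ K, ‖x‖ ≤ R)
    {ν : Measure (Euc d)} [IsFiniteMeasure ν] (hν : ν.real univ = volume.real K)
    {M : ℝ} (hM : 0 ≤ M) (hsupp : ∀ᵐ y ∂ν, ‖y‖ ≤ M) {T : Euc d → Euc d} (hT : MaxCorr K ν T)
    {ι : Type} [Fintype ι] [Nonempty ι] {δ : ℝ} (hδ : 0 < δ) (A : Atoms ν δ ι)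
    (hA : ∀ i, ‖A.a i‖ ≤ M + 1) (s : Semi K (M + 1) A.a A.m) :
    ∫ x in K, ‖T x - s.S x‖ ^ 2 ≤ d * (28 * (M + 1) ^ 2 * (d / r * volume.real K)
      + 36 * (M + 1) * R * volume.real K) * Real.sqrt δ := by
  have hne : K.Nonempty := ⟨c, hball (Metric.mem_closedBall_self hr.le)⟩
  obtain ⟨T', hT', happ⟩ := exists_maxCorr hd hK hKc hr hball hR hν hM hsupp
  have h1 := happ δ A (M + 1) s
  have h2 := hT.2.2 T' hT'.1 hT'.2.1
  have h3 := semi_pot hK hne hR A s
  have hTM := ae_norm_le_of_map hsupp hT.1 hT.2.1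
  have hp := continuous_pot A.a s.q
  have e : ∫ y, conj K (pot A.a s.q) y ∂ν = ∫ x in K, conj K (pot A.a s.q) (T x) := by
    have h := congrArg (fun m : Measure (Euc d) => ∫ y, conj K (pot A.a s.q) y ∂m) hT.2.1
    rw [← h, integral_map hT.1.aemeasurable (continuous_conj hK hne hR hp).aestronglyMeasurable]
  rw [e] at h3
  rw [hν] at h1 h3
  have h4 := near_semi hK hKc hr hball hR (by linarith) hA s hT.1
    (hTM.mono fun x hx => hx.trans (by linarith)) (σ := 2 * (R * δ * volume.real K))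
    (by linarith) (Real.sqrt_pos.2 hδ)
  refine h4.trans (le_of_eq ?_)
  have hs : Real.sqrt δ ^ 2 = δ := Real.sq_sqrt hδ.le
  field_simp
  linear_combination (-(36 * R * volume.real K * r)) * hs

/-- Hölder-1/3 stability of maximal-correlation maps. -/
theorem maxCorr_stability (hd : 1 ≤ d) (hK : IsCompact K) (hKc : Convex ℝ K) {c : Euc d} {r : ℝ}
    (hr : 0 < r) (hball : Metric.closedBall c r ⊆ K) {R : ℝ} (hR1 : 1 ≤ R)
    (hR : ∀ x ∈ K, ‖x‖ ≤ R) {M : ℝ} (hM : 0 ≤ M) :
    ∃ C, 0 ≤ C ∧ ∀ γ : Measure (Euc d × Euc d), IsFiniteMeasure γ →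
      γ.real univ = volume.real K → (∀ᵐ p ∂γ, ‖p.1‖ ≤ M ∧ ‖p.2‖ ≤ M) →
      ∀ T S, MaxCorr K (γ.map Prod.fst) T → MaxCorr K (γ.map Prod.snd) S →
        ∫ x in K, ‖T x - S x‖ ^ 2 ≤ C * (∫ p, ‖p.2 - p.1‖ ^ 2 ∂γ) ^ (1 / 3 : ℝ) := by
  set V := volume.real K
  have hV0 : 0 ≤ V := measureReal_nonneg
  set M' := M + 1
  have hM' : 0 ≤ M' := by linarith
  set D : ℝ := d * cstab R
  have hD : 0 ≤ D := mul_nonneg (Nat.cast_nonneg d) (by unfold cstab; positivity)
  set C1 : ℝ := d * (28 * M' ^ 2 * (d / r * V) + 36 * M' * R * V)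
  set C2 : ℝ := d * (12 * D + 28 * M' ^ 2 * (d / r * V))
  have hC2 : 0 ≤ C2 := by positivity
  refine ⟨3 * C2, by positivity, fun γ hγf hγV hsupp T S hT hS => ?_⟩
  have hVpos : 0 < V := by
    simp only [V, measureReal_def]
    exact ENNReal.toReal_pos (ne_of_gt ((Metric.measure_closedBall_pos volume c hr).trans_le
      (measure_mono hball))) hK.measure_lt_top.ne
  have hγ : γ ≠ 0 := fun h => by rw [h] at hγV; simp at hγV; linarith
  set J := ∫ p, ‖p.2 - p.1‖ ^ 2 ∂γ
  have hJ : 0 ≤ J := integral_nonneg fun p => sq_nonneg _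
  have hu : ∀ pr : Euc d × Euc d → Euc d, Continuous pr → (γ.map pr).real univ = V := fun pr hpr => by
    rw [measureReal_def, Measure.map_apply hpr.measurable MeasurableSet.univ, preimage_univ,
      ← measureReal_def, hγV]
  have hpt : ∀ δ, 0 < δ → δ ≤ 1 → ∫ x in K, ‖T x - S x‖ ^ 2
      ≤ 3 * (C1 * Real.sqrt δ + C2 * (J + 8 * M' * δ * V) ^ (1 / 3 : ℝ) + C1 * Real.sqrt δ) := by
    intro δ hδ hδ1
    obtain ⟨ι, i1, i2, A, B, hm, hA, hB, hc⟩ := atomize hd γ hγ hM hsupp hδ hδ1
    rw [hγV] at hc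
    have hsa : ∀ᵐ y ∂γ.map Prod.fst, ‖y‖ ≤ M :=
      (ae_map_iff measurable_fst.aemeasurable
        (isClosed_le continuous_norm continuous_const).measurableSet).2 (hsupp.mono fun p h => h.1)
    have hsb : ∀ᵐ y ∂γ.map Prod.snd, ‖y‖ ≤ M :=
      (ae_map_iff measurable_snd.aemeasurable
        (isClosed_le continuous_norm continuous_const).measurableSet).2 (hsupp.mono fun p h => h.2)
    have hma : ∑ i, A.m i = ∫ _x in K, (1 : ℝ) := by
      rw [A.mass, hu _ continuous_fst, integral_one_eq]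
    have hmb : ∑ i, B.m i = ∫ _x in K, (1 : ℝ) := by
      rw [B.mass, hu _ continuous_snd, integral_one_eq]
    obtain ⟨sa⟩ := exists_semi hK hR hM' A.inj hA A.pos hma
    obtain ⟨sb⟩ := exists_semi hK hR hM' B.inj hB B.pos hmb
    have e1 := maxCorr_near hd hK hKc hr hball hR (hu _ continuous_fst) hM hsa hT hδ A hA sa
    have e3 := maxCorr_near hd hK hKc hr hball hR (hu _ continuous_snd) hM hsb hS hδ B hB sb
    have hKi : (interior K).Nonempty :=
      ⟨c, interior_mono hball (mem_interior.2 ⟨Metric.ball c r, Metric.ball_subset_closedBall,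
        Metric.isOpen_ball, Metric.mem_ball_self hr⟩)⟩
    have hbmin : IsMinPot K (fun _ => 1) B.a A.m sb.q := by rw [hm]; exact sb.isMin
    obtain ⟨c0, hc0⟩ := potential_stability hK hKc hKi hR1 hR A.inj B.inj A.pos hma sa.isMin hbmin
    set W := J + 8 * M' * δ * V
    have hW : 0 < W := by
      have h1 : 0 < δ * (M' * V) := mul_pos hδ (mul_pos (by linarith) hVpos)
      simp only [W]
      linarith
    set t := W ^ (1 / 3 : ℝ)
    have ht : 0 < t := Real.rpow_pos_of_pos hW _
    have hWt : W = t ^ 2 * t := by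
      simp only [t]
      rw [← pow_succ, ← Real.rpow_natCast, ← Real.rpow_mul hW.le]
      norm_num
    have hφ : ∀ x z, |(pot B.a sb.q x - c0) - (pot B.a sb.q z - c0)| ≤ M' * ‖x - z‖ := fun x z => by
      rw [sub_sub_sub_cancel_right]; exact pot_lipschitz hB sb.q x z
    have hsub : ApproxSub K (fun x => pot B.a sb.q x - c0) sb.S fun _ => 0 :=
      Filter.Eventually.mono sb.sub fun x hx z hz => by have := hx z hz; linarith
    have e2 := interp hK hKc hr hball hM'
      ((continuous_pot B.a sb.q).sub continuous_const) (continuous_pot A.a sa.q) hφ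
      (fun x z => pot_lipschitz hA sa.q x z) sb.meas sa.meas (Eventually.of_forall sb.bound)
      (Eventually.of_forall sa.bound) (s := fun _ => 0) (integrableOn_of_cont hK continuous_const)
      (Eventually.of_forall fun _ => le_rfl) hsub sa.sub ht
    have hA2 : ∫ x in K, (pot B.a sb.q x - c0 - pot A.a sa.q x) ^ 2 ≤ D * W := by
      refine le_trans (le_of_eq ?_) (hc0.trans (mul_le_mul_of_nonneg_left hc hD))
      exact integral_congr_ae (Eventually.of_forall fun x => by ring)
    have e2' : ∫ x in K, ‖sb.S x - sa.S x‖ ^ 2 ≤ C2 * t := by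
      refine e2.trans ?_
      have h12 : 12 * (∫ x in K, (pot B.a sb.q x - c0 - pot A.a sa.q x) ^ 2) / t ^ 2 ≤ 12 * D * t := by
        rw [div_le_iff₀ (by positivity)]
        have h7 : D * W = D * t * t ^ 2 := by rw [hWt]; ring
        linarith [mul_le_mul_of_nonneg_left hA2 (show (0:ℝ) ≤ 12 by norm_num)]
      simp only [integral_zero, mul_zero, zero_div, add_zero, C2]
      have : (d : ℝ) * t / r * V = d / r * V * t := by ring
      rw [this]
      calc (d : ℝ) * (12 * (∫ x in K, (pot B.a sb.q x - c0 - pot A.a sa.q x) ^ 2) / t ^ 2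
            + 28 * M' ^ 2 * (d / r * V * t))
          ≤ d * (12 * D * t + 28 * M' ^ 2 * (d / r * V * t)) := by gcongr
        _ = _ := by ring
    have hb : ∀ (X Y : Euc d → Euc d), Measurable X → Measurable Y →
        (∀ᵐ x ∂(volume.restrict K), ‖X x‖ ≤ M') → (∀ᵐ x ∂(volume.restrict K), ‖Y x‖ ≤ M') →
        IntegrableOn (fun x => ‖X x - Y x‖ ^ 2) K := by
      intro X Y hX hY hXb hYb
      refine integrableOn_of_bdd hK ((hX.sub hY).norm.pow_const 2) (C := (2 * M') ^ 2) ?_
      filter_upwards [hXb, hYb] with x h1 h2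
      rw [abs_of_nonneg (sq_nonneg _)]
      exact pow_le_pow_left₀ (norm_nonneg _) ((norm_sub_le _ _).trans (by linarith)) 2
    have bT : ∀ᵐ x ∂(volume.restrict K), ‖T x‖ ≤ M' :=
      (ae_norm_le_of_map hsa hT.1 hT.2.1).mono fun x h => by linarith
    have bS : ∀ᵐ x ∂(volume.restrict K), ‖S x‖ ≤ M' :=
      (ae_norm_le_of_map hsb hS.1 hS.2.1).mono fun x h => by linarith
    have ia := hb T sa.S hT.1 sa.meas bT (Eventually.of_forall sa.bound)
    have iab := hb sb.S sa.S sb.meas sa.meas (Eventually.of_forall sb.bound)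
      (Eventually.of_forall sa.bound)
    have ib := hb S sb.S hS.1 sb.meas bS (Eventually.of_forall sb.bound)
    calc ∫ x in K, ‖T x - S x‖ ^ 2
        ≤ ∫ x in K, 3 * (‖T x - sa.S x‖ ^ 2 + ‖sb.S x - sa.S x‖ ^ 2 + ‖S x - sb.S x‖ ^ 2) := by
          refine integral_mono (hb T S hT.1 hS.1 bT bS) (((ia.add iab).add ib).const_mul 3) fun x => ?_
          have h1 : T x - S x = (T x - sa.S x) - (sb.S x - sa.S x) - (S x - sb.S x) := by abel
          have h2 : ‖T x - S x‖ ≤ ‖T x - sa.S x‖ + ‖sb.S x - sa.S x‖ + ‖S x - sb.S x‖ := by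
            rw [h1]; exact (norm_sub_le _ _).trans (add_le_add (norm_sub_le _ _) le_rfl)
          have h3 := pow_le_pow_left₀ (norm_nonneg _) h2 2
          nlinarith [sq_nonneg (‖T x - sa.S x‖ - ‖sb.S x - sa.S x‖),
            sq_nonneg (‖T x - sa.S x‖ - ‖S x - sb.S x‖),
            sq_nonneg (‖sb.S x - sa.S x‖ - ‖S x - sb.S x‖)]
      _ = 3 * ((∫ x in K, ‖T x - sa.S x‖ ^ 2) + (∫ x in K, ‖sb.S x - sa.S x‖ ^ 2)
            + ∫ x in K, ‖S x - sb.S x‖ ^ 2) := by
          rw [integral_const_mul, ← integral_add ia iab]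
          congr 1
          exact integral_add (ia.add iab) ib
      _ ≤ _ := by gcongr
  -- let δ tend to 0
  have hlim : Tendsto (fun δ : ℝ =>
      3 * (C1 * Real.sqrt δ + C2 * (J + 8 * M' * δ * V) ^ (1 / 3 : ℝ) + C1 * Real.sqrt δ))
      (𝓝[>] 0) (𝓝 (3 * C2 * J ^ (1 / 3 : ℝ))) := by
    have hcont : Continuous fun δ : ℝ =>
        3 * (C1 * Real.sqrt δ + C2 * (J + 8 * M' * δ * V) ^ (1 / 3 : ℝ) + C1 * Real.sqrt δ) := by
      have : Continuous fun δ : ℝ => (J + 8 * M' * δ * V) ^ (1 / 3 : ℝ) :=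
        (by fun_prop : Continuous fun δ : ℝ => J + 8 * M' * δ * V).rpow_const fun _ => Or.inr (by norm_num)
      fun_prop
    have := hcont.tendsto 0
    simp only [Real.sqrt_zero, mul_zero, zero_mul, add_zero, zero_add] at this
    rw [← mul_assoc] at this
    exact this.mono_left nhdsWithin_le_nhds
  refine ge_of_tendsto hlim ?_
  filter_upwards [Ioo_mem_nhdsGT (show (0:ℝ) < 1 by norm_num)] with δ hδ using hpt δ hδ.1 hδ.2.le

end Vale.Agent.P074
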