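import Mathlib
import Vale.Agent.P074.Defs
import Vale.Agent.P074.General

/-!
From Lebesgue measure on `K` and correlations to probability measures and transport costs.
-/

open MeasureTheory Set Filter
open scoped RealInnerProductSpace ENNReal NNReal Topology

namespace Vale.Agent.P074

variable {d : ℕ} {K : Set (Euc d)}

theorem vol_ne_zero (hKi : (interior K).Nonempty) : volume K ≠ 0 :=
  ne_of_gt ((isOpen_interior.measure_pos volume hKi).trans_le (measure_mono interior_subset))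

theorem restrict_eq_smul_src (hK : IsCompact K) (hKi : (interior K).Nonempty) :
    volume.restrict K = volume K • srcMeasure K := by
  rw [srcMeasure, smul_smul, ENNReal.mul_inv_cancel (vol_ne_zero hKi) hK.measure_lt_top.ne, one_smul]

theorem lintegral_src (K : Set (Euc d)) (f : Euc d → ℝ≥0∞) :
    ∫⁻ x, f x ∂srcMeasure K = (volume K)⁻¹ * ∫⁻ x in K, f x := by
  rw [srcMeasure, lintegral_smul_measure, smul_eq_mul]

theorem map_restrict_iff (hK : IsCompact K) (hKi : (interior K).Nonempty) (T : Euc d → Euc d)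
    (μ : Measure (Euc d)) :
    (volume.restrict K).map T = volume K • μ ↔ (srcMeasure K).map T = μ := by
  constructor
  · intro h
    rw [srcMeasure, Measure.map_smul, h, smul_smul,
      ENNReal.inv_mul_cancel (vol_ne_zero hKi) hK.measure_lt_top.ne, one_smul]
  · intro h
    rw [restrict_eq_smul_src hK hKi, Measure.map_smul, h]

theorem integrableOn_sqdist (hK : IsCompact K) {R M : ℝ} (hR : ∀ x ∈ K, ‖x‖ ≤ R)
    {T : Euc d → Euc d} (hT : Measurable T) (hTM : ∀ᵐ x ∂(volume.restrict K), ‖T x‖ ≤ M) :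
    IntegrableOn (fun x => ‖x - T x‖ ^ 2) K := by
  refine integrableOn_of_bdd hK ((measurable_id.sub hT).norm.pow_const 2) (C := (R + M) ^ 2) ?_
  filter_upwards [ae_restrict_mem hK.measurableSet, hTM] with x hx hxT
  rw [abs_of_nonneg (sq_nonneg _)]
  exact pow_le_pow_left₀ (norm_nonneg _) ((norm_sub_le _ _).trans (add_le_add (hR x hx) hxT)) 2

theorem integral_sqdist (hK : IsCompact K) {R M : ℝ} (hR : ∀ x ∈ K, ‖x‖ ≤ R)
    {T : Euc d → Euc d} (hT : Measurable T) (hTM : ∀ᵐ x ∂(volume.restrict K), ‖T x‖ ≤ M) :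
    ∫ x in K, ‖x - T x‖ ^ 2
      = (∫ x in K, ‖x‖ ^ 2) - 2 * (∫ x in K, ⟪x, T x⟫) + ∫ x in K, ‖T x‖ ^ 2 := by
  have h1 : IntegrableOn (fun x => ⟪x, T x⟫) K := by
    refine integrableOn_of_bdd hK (measurable_id.inner hT) (C := |R| * |M|) ?_
    filter_upwards [ae_restrict_mem hK.measurableSet, hTM] with x hx hxT
    exact (abs_real_inner_le_norm _ _).trans (mul_le_mul ((hR x hx).trans (le_abs_self R))
      (hxT.trans (le_abs_self M)) (norm_nonneg _) (abs_nonneg R))
  have h2 : IntegrableOn (fun x => ‖T x‖ ^ 2) K := by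
    refine integrableOn_of_bdd hK (hT.norm.pow_const 2) (C := M ^ 2) (hTM.mono fun x hx => ?_)
    rw [abs_of_nonneg (sq_nonneg _)]
    exact pow_le_pow_left₀ (norm_nonneg _) hx 2
  have h3 : IntegrableOn (fun x : Euc d => ‖x‖ ^ 2) K := integrableOn_of_cont hK (by fun_prop)
  simp only [norm_sub_sq_real]
  have h13 : IntegrableOn (fun x : Euc d => ‖x‖ ^ 2 - 2 * ⟪x, T x⟫) K := h3.sub (h1.const_mul 2)
  rw [integral_add h13 h2, integral_sub h3 (h1.const_mul 2), integral_const_mul]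

theorem lintegral_sqdist (hK : IsCompact K) {R M : ℝ} (hR : ∀ x ∈ K, ‖x‖ ≤ R)
    {T : Euc d → Euc d} (hT : Measurable T) (hTM : ∀ᵐ x ∂(volume.restrict K), ‖T x‖ ≤ M) :
    ∫⁻ x in K, edist x (T x) ^ 2 = ENNReal.ofReal (∫ x in K, ‖x - T x‖ ^ 2) := by
  rw [ofReal_integral_eq_lintegral_ofReal (integrableOn_sqdist hK hR hT hTM)
    (Eventually.of_forall fun x => sq_nonneg _)]
  refine lintegral_congr fun x => ?_
  rw [edist_dist, dist_eq_norm, ENNReal.ofReal_pow (norm_nonneg _)]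

theorem norm_sq_moment {T S : Euc d → Euc d} (hT : Measurable T) (hS : Measurable S)
    (h : (volume.restrict K).map T = (volume.restrict K).map S) :
    ∫ x in K, ‖T x‖ ^ 2 = ∫ x in K, ‖S x‖ ^ 2 := by
  have hc : Continuous fun y : Euc d => ‖y‖ ^ 2 := by fun_prop
  rw [← integral_map (f := fun y : Euc d => ‖y‖ ^ 2) hT.aemeasurable hc.aestronglyMeasurable, h,
    integral_map hS.aemeasurable hc.aestronglyMeasurable]

theorem ot_iff_maxCorr (hK : IsCompact K) (hKi : (interior K).Nonempty) {R : ℝ}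
    (hR : ∀ x ∈ K, ‖x‖ ≤ R) {μ : Measure (Euc d)} {M : ℝ} (hμ : ∀ᵐ y ∂μ, ‖y‖ ≤ M)
    (T : Euc d → Euc d) :
    IsOTMap (srcMeasure K) μ T ↔ MaxCorr K (volume K • μ) T := by
  have hν : ∀ᵐ y ∂(volume K • μ), ‖y‖ ≤ M := Measure.ae_smul_measure hμ _
  have key : ∀ {T S : Euc d → Euc d}, Measurable T → Measurable S →
      (volume.restrict K).map T = volume K • μ → (volume.restrict K).map S = volume K • μ →
      (∫⁻ x, edist x (T x) ^ 2 ∂srcMeasure K ≤ ∫⁻ x, edist x (S x) ^ 2 ∂srcMeasure K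
        ↔ ∫ x in K, ⟪x, S x⟫ ≤ ∫ x in K, ⟪x, T x⟫) := by
    intro T S hT hS hTm hSm
    have bT := ae_norm_le_of_map hν hT hTm
    have bS := ae_norm_le_of_map hν hS hSm
    rw [lintegral_src, lintegral_src, ENNReal.mul_le_mul_iff_right
      (ENNReal.inv_ne_zero.2 hK.measure_lt_top.ne) (ENNReal.inv_ne_top.2 (vol_ne_zero hKi)),
      lintegral_sqdist hK hR hT bT, lintegral_sqdist hK hR hS bS,
      ENNReal.ofReal_le_ofReal_iff (integral_nonneg fun x => sq_nonneg _),
      integral_sqdist hK hR hT bT, integral_sqdist hK hR hS bS,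
      norm_sq_moment hT hS (hTm.trans hSm.symm)]
    constructor <;> intro h <;> linarith
  constructor
  · rintro ⟨hT, hTm, hopt⟩
    have hTm' := (map_restrict_iff hK hKi T μ).2 hTm
    exact ⟨hT, hTm', fun S hS hSm =>
      (key hT hS hTm' hSm).1 (hopt S hS ((map_restrict_iff hK hKi S μ).1 hSm))⟩
  · rintro ⟨hT, hTm, hopt⟩
    refine ⟨hT, (map_restrict_iff hK hKi T μ).1 hTm, fun S hS hSm => ?_⟩
    have hSm' := (map_restrict_iff hK hKi S μ).2 hSm
    exact (key hT hS hTm hSm').2 (hopt S hS hSm')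

theorem ball_data (hK : IsCompact K) (hKi : (interior K).Nonempty) :
    ∃ (c : Euc d) (r R : ℝ), 0 < r ∧ Metric.closedBall c r ⊆ K ∧ 1 ≤ R ∧ ∀ x ∈ K, ‖x‖ ≤ R := by
  obtain ⟨c, hc⟩ := hKi
  obtain ⟨r, hr, hball⟩ := Metric.nhds_basis_closedBall.mem_iff.1 (mem_interior_iff_mem_nhds.1 hc)
  obtain ⟨R, hR⟩ := hK.exists_bound_of_continuousOn continuous_id.continuousOn
  exact ⟨c, r, max R 1, hr, hball, le_max_right _ _, fun x hx => (hR x hx).trans (le_max_left _ _)⟩

theorem bound_data {Y : Set (Euc d)} (hY : IsCompact Y) :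
    ∃ M, 0 ≤ M ∧ ∀ μ : Measure (Euc d), μ Yᶜ = 0 → ∀ᵐ y ∂μ, ‖y‖ ≤ M := by
  obtain ⟨M, hM⟩ := hY.exists_bound_of_continuousOn continuous_id.continuousOn
  refine ⟨max M 0, le_max_right _ _, fun μ hμ => ?_⟩
  have : ∀ᵐ y ∂μ, y ∈ Y := ae_iff.2 hμ
  exact this.mono fun y hy => (hM y hy).trans (le_max_left _ _)

theorem smul_real_univ (μ : Measure (Euc d)) [IsProbabilityMeasure μ] :
    (volume K • μ).real univ = volume.real K := by
  simp [measureReal_def]

/-- Existence of optimal maps. -/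
theorem exists_ot (hd : 1 ≤ d) (hK : IsCompact K) (hKc : Convex ℝ K) (hKi : (interior K).Nonempty)
    {Y : Set (Euc d)} (hY : IsCompact Y) (μ : Measure (Euc d)) [IsProbabilityMeasure μ]
    (hμ : μ Yᶜ = 0) : ∃ T, IsOTMap (srcMeasure K) μ T := by
  obtain ⟨c, r, R, hr, hball, -, hR⟩ := ball_data hK hKi
  obtain ⟨M, hM, hYb⟩ := bound_data hY
  have : IsFiniteMeasure (volume K • μ) := Measure.smul_finite μ hK.measure_lt_top.ne
  obtain ⟨T, hT, -⟩ := exists_maxCorr hd hK hKc hr hball hR (ν := volume K • μ) (smul_real_univ μ) hM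
    (Measure.ae_smul_measure (hYb μ hμ) _)
  exact ⟨T, (ot_iff_maxCorr hK hKi hR (hYb μ hμ) T).2 hT⟩

/-- The exponent 1/3 is admissible. -/
theorem admissible_third (hd : 1 ≤ d) : Admissible d (1 / 3) := by
  refine ⟨by norm_num, by norm_num, fun K Y hK hKc hKi hY _ => ?_⟩
  obtain ⟨c, r, R, hr, hball, hR1, hR⟩ := ball_data hK hKi
  obtain ⟨M, hM, hYb⟩ := bound_data hY
  obtain ⟨C, hC0, hC⟩ := maxCorr_stability hd hK hKc hr hball hR1 hR hM
  set V := volume.real K
  have hVpos : 0 < V := by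
    simp only [V, measureReal_def]
    exact ENNReal.toReal_pos (vol_ne_zero hKi) hK.measure_lt_top.ne
  have hVe : volume K = ENNReal.ofReal V := (ofReal_measureReal hK.measure_lt_top.ne).symm
  set D : ℝ := C * V ^ (1 / 3 : ℝ) / V + 1
  have hD : 0 < D := by positivity
  refine ⟨(D.toNNReal) ^ (1 / 2 : ℝ), fun μ ν hμp hνp hμ hν T S hT hS => ?_⟩
  set E := ∫⁻ x, edist (T x) (S x) ^ 2 ∂srcMeasure K
  set I := ⨅ (π : Measure (Euc d × Euc d)) (_ : Measure.map Prod.fst π = μ)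
    (_ : Measure.map Prod.snd π = ν), ∫⁻ p, edist p.1 p.2 ^ 2 ∂π
  have hT' := (ot_iff_maxCorr hK hKi hR (hYb μ hμ) T).1 hT
  have hS' := (ot_iff_maxCorr hK hKi hR (hYb ν hν) S).1 hS
  have hπ : ∀ (π : Measure (Euc d × Euc d)), π.map Prod.fst = μ → π.map Prod.snd = ν →
      E ≤ ENNReal.ofReal D * (∫⁻ p, edist p.1 p.2 ^ 2 ∂π) ^ (1 / 3 : ℝ) := by
    intro π h1 h2
    have hπp : IsProbabilityMeasure π := ⟨by
      have := hμp.measure_univ
      rwa [← h1, Measure.map_apply measurable_fst MeasurableSet.univ, preimage_univ] at this⟩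
    have hb : ∀ᵐ p ∂π, ‖p.1‖ ≤ M ∧ ‖p.2‖ ≤ M := by
      have a : ∀ᵐ p ∂π, ‖p.1‖ ≤ M :=
        ae_of_ae_map measurable_fst.aemeasurable (p := fun y => ‖y‖ ≤ M) (h1.symm ▸ hYb μ hμ)
      have b : ∀ᵐ p ∂π, ‖p.2‖ ≤ M :=
        ae_of_ae_map measurable_snd.aemeasurable (p := fun y => ‖y‖ ≤ M) (h2.symm ▸ hYb ν hν)
      exact a.and b
    set γ := volume K • π
    have hγf : IsFiniteMeasure γ := Measure.smul_finite π hK.measure_lt_top.ne
    have hγV : γ.real univ = V := by simp [γ, V, measureReal_def]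
    have hmain := hC γ hγf hγV (Measure.ae_smul_measure hb _) T S
      (by rw [Measure.map_smul, h1]; exact hT') (by rw [Measure.map_smul, h2]; exact hS')
    set P := ∫ p, ‖p.2 - p.1‖ ^ 2 ∂π
    have hP0 : 0 ≤ P := integral_nonneg fun p => sq_nonneg _
    have hPi : Integrable (fun p => ‖p.2 - p.1‖ ^ 2) π := by
      refine Integrable.of_bound (by fun_prop : Continuous fun p : Euc d × Euc d =>
        ‖p.2 - p.1‖ ^ 2).aestronglyMeasurable ((2 * M) ^ 2) (hb.mono fun p hp => ?_)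
      rw [Real.norm_eq_abs, abs_of_nonneg (sq_nonneg _)]
      exact pow_le_pow_left₀ (norm_nonneg _) ((norm_sub_le _ _).trans (by linarith [hp.1, hp.2])) 2
    have hPe : ∫⁻ p, edist p.1 p.2 ^ 2 ∂π = ENNReal.ofReal P := by
      rw [ofReal_integral_eq_lintegral_ofReal hPi (Eventually.of_forall fun p => sq_nonneg _)]
      refine lintegral_congr fun p => ?_
      rw [edist_comm, edist_dist, dist_eq_norm, ENNReal.ofReal_pow (norm_nonneg _)]
    have hJ : ∫ p, ‖p.2 - p.1‖ ^ 2 ∂γ = V * P := by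
      rw [integral_smul_measure, smul_eq_mul, ← measureReal_def]
    rw [hJ] at hmain
    have bT := ae_norm_le_of_map (Measure.ae_smul_measure (hYb μ hμ) _) hT'.1 hT'.2.1
    have bS := ae_norm_le_of_map (Measure.ae_smul_measure (hYb ν hν) _) hS'.1 hS'.2.1
    have hXi : IntegrableOn (fun x => ‖T x - S x‖ ^ 2) K := by
      refine integrableOn_of_bdd hK ((hT'.1.sub hS'.1).norm.pow_const 2) (C := (2 * M) ^ 2) ?_
      filter_upwards [bT, bS] with x a b
      rw [abs_of_nonneg (sq_nonneg _)]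
      exact pow_le_pow_left₀ (norm_nonneg _) ((norm_sub_le _ _).trans (by linarith)) 2
    have hEe : E = ENNReal.ofReal ((∫ x in K, ‖T x - S x‖ ^ 2) / V) := by
      simp only [E]
      rw [lintegral_src, ENNReal.ofReal_div_of_pos hVpos, hVe, div_eq_mul_inv, mul_comm,
        ofReal_integral_eq_lintegral_ofReal hXi (Eventually.of_forall fun x => sq_nonneg _)]
      congr 1
      refine lintegral_congr fun x => ?_
      rw [edist_dist, dist_eq_norm, ENNReal.ofReal_pow (norm_nonneg _)]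
    rw [hEe, hPe, ENNReal.ofReal_rpow_of_nonneg hP0 (by norm_num), ← ENNReal.ofReal_mul hD.le]
    refine ENNReal.ofReal_le_ofReal ?_
    rw [div_le_iff₀ hVpos]
    refine hmain.trans ?_
    rw [Real.mul_rpow hVpos.le hP0]
    have e : D * P ^ (1 / 3 : ℝ) * V
        = C * (V ^ (1 / 3 : ℝ) * P ^ (1 / 3 : ℝ)) + P ^ (1 / 3 : ℝ) * V := by
      simp only [D]; field_simp
    rw [e]
    exact le_add_of_nonneg_right (by positivity)
  have hDne : ENNReal.ofReal D ^ (3 : ℝ) ≠ 0 := by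
    simp [hD]
  have hDtop : ENNReal.ofReal D ^ (3 : ℝ) ≠ ⊤ := ENNReal.rpow_ne_top_of_nonneg (by norm_num) (by simp)
  have hI : E ^ (3 : ℝ) / ENNReal.ofReal D ^ (3 : ℝ) ≤ I := by
    refine le_iInf fun π => le_iInf fun h1 => le_iInf fun h2 => ?_
    rw [ENNReal.div_le_iff hDne hDtop, mul_comm]
    refine (ENNReal.rpow_le_rpow (hπ π h1 h2) (by norm_num : (0:ℝ) ≤ 3)).trans (le_of_eq ?_)
    rw [ENNReal.mul_rpow_of_nonneg _ _ (by norm_num : (0:ℝ) ≤ 3), ← ENNReal.rpow_mul]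
    norm_num
  rw [ENNReal.div_le_iff hDne hDtop] at hI
  have h6 := ENNReal.rpow_le_rpow hI (by norm_num : (0:ℝ) ≤ 1 / 6)
  rw [ENNReal.mul_rpow_of_nonneg _ _ (by norm_num : (0:ℝ) ≤ 1 / 6), ← ENNReal.rpow_mul,
    ← ENNReal.rpow_mul, mul_comm] at h6
  have e1 : (1 / 6 : ℝ) * 3 = 1 / 2 := by norm_num
  rw [e1] at h6
  refine h6.trans (le_of_eq ?_)
  rw [mul_comm]
  unfold W2
  rw [← ENNReal.rpow_mul, show (1 / 2 : ℝ) * (1 / 3) = 1 / 6 by norm_num,
    ENNReal.coe_rpow_of_nonneg _ (by norm_num : (0:ℝ) ≤ 1 / 2)]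
  rfl

/-- Optimal maps are unique almost everywhere. -/
theorem ot_unique (hd : 1 ≤ d) (hK : IsCompact K) (hKc : Convex ℝ K) (hKi : (interior K).Nonempty)
    {Y : Set (Euc d)} (hY : IsCompact Y) (μ : Measure (Euc d)) [hμp : IsProbabilityMeasure μ]
    (hμ : μ Yᶜ = 0) {T S : Euc d → Euc d} (hT : IsOTMap (srcMeasure K) μ T)
    (hS : IsOTMap (srcMeasure K) μ S) : T =ᵐ[srcMeasure K] S := by
  have hne : Y.Nonempty := by
    by_contra h
    rw [not_nonempty_iff_eq_empty.1 h, compl_empty, measure_univ] at hμ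
    exact one_ne_zero hμ
  obtain ⟨C, hC⟩ := (admissible_third hd).2.2 K Y hK hKc hKi hY hne
  have h := hC μ μ hμp hμp hμ hμ T S hT hS
  have hdiag : Measurable fun y : Euc d => (y, y) := measurable_id.prodMk measurable_id
  have hW : W2 μ μ = 0 := by
    unfold W2
    rw [ENNReal.rpow_eq_zero_iff_of_pos (by norm_num)]
    refine le_antisymm (iInf_le_of_le (μ.map fun y => (y, y)) (iInf_le_of_le ?_
      (iInf_le_of_le ?_ ?_))) (zero_le)
    · rw [Measure.map_map measurable_fst hdiag]; exact Measure.map_id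
    · rw [Measure.map_map measurable_snd hdiag]; exact Measure.map_id
    · rw [lintegral_map (by fun_prop) hdiag]
      simp
  rw [hW, ENNReal.zero_rpow_of_pos (by norm_num), mul_zero, nonpos_iff_eq_zero,
    ENNReal.rpow_eq_zero_iff_of_pos (by norm_num),
    lintegral_eq_zero_iff ((hT.1.edist hS.1).pow_const 2)] at h
  filter_upwards [h] with x hx
  simpa using hx

end Vale.Agent.P074
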