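import Mathlib
import Vale.Agent.P074.Bridge

/-!
The three-atom example: no exponent above 1/3 is admissible.
-/

open MeasureTheory Set Filter
open scoped RealInnerProductSpace ENNReal NNReal Topology

namespace Vale.Agent.P074

variable {d : ℕ}

/-- An exact subgradient selection is a maximal-correlation map onto its image measure. -/
theorem maxCorr_of_sub {K : Set (Euc d)} (hK : IsCompact K) (hne : K.Nonempty) {R M : ℝ}
    (hR : ∀ x ∈ K, ‖x‖ ≤ R) {T : Euc d → Euc d} (hT : Measurable T) (hTM : ∀ x, ‖T x‖ ≤ M)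
    {φ : Euc d → ℝ} (hφ : Continuous φ)
    (hsub : ∀ x ∈ K, ∀ z ∈ K, φ x + ⟪T x, z - x⟫ ≤ φ z) :
    MaxCorr K ((volume.restrict K).map T) T := by
  refine ⟨hT, rfl, fun S hS hmap => ?_⟩
  have hc := continuous_conj hK hne hR hφ
  have hR0 : 0 ≤ R := by obtain ⟨x, hx⟩ := hne; exact (norm_nonneg x).trans (hR x hx)
  have hν : ∀ᵐ y ∂((volume.restrict K).map T), ‖y‖ ≤ M :=
    (ae_map_iff hT.aemeasurable (isClosed_le continuous_norm continuous_const).measurableSet).2
      (Eventually.of_forall hTM)
  have hSM := ae_norm_le_of_map hν hS hmap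
  have he : ∫ x in K, conj K φ (S x) = ∫ x in K, conj K φ (T x) := by
    rw [← integral_map (f := conj K φ) hS.aemeasurable hc.aestronglyMeasurable, hmap,
      integral_map hT.aemeasurable hc.aestronglyMeasurable]
  obtain ⟨C, hC⟩ :=
    (isCompact_closedBall (0 : Euc d) M).exists_bound_of_continuousOn hc.continuousOn
  have hi : ∀ {U : Euc d → Euc d}, Measurable U → (∀ᵐ x ∂(volume.restrict K), ‖U x‖ ≤ M) →
      IntegrableOn (fun x => conj K φ (U x)) K ∧ IntegrableOn (fun x => ⟪x, U x⟫) K := by
    intro U hU hUM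
    refine ⟨integrableOn_of_bdd hK (hc.measurable.comp hU) (C := C)
      (hUM.mono fun x hx => hC _ (mem_closedBall_zero_iff.2 hx)),
      integrableOn_of_bdd hK (measurable_id.inner hU) (C := R * M) ?_⟩
    filter_upwards [ae_restrict_mem hK.measurableSet, hUM] with x hx hxU
    exact (abs_real_inner_le_norm _ _).trans (mul_le_mul (hR x hx) hxU (norm_nonneg _) hR0)
  obtain ⟨iS, iS'⟩ := hi hS hSM
  obtain ⟨iT, iT'⟩ := hi hT (Eventually.of_forall hTM)
  have iφ := integrableOn_of_cont hK hφ
  have h1 : ∫ x in K, ⟪x, S x⟫ ≤ (∫ x in K, φ x) + ∫ x in K, conj K φ (S x) := by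
    rw [← integral_add iφ iS]
    refine setIntegral_mono_on iS' (iφ.add iS) hK.measurableSet fun x hx => ?_
    have := le_conj hK hφ (S x) hx
    linarith
  have h2 : (∫ x in K, φ x) + ∫ x in K, conj K φ (T x) ≤ ∫ x in K, ⟪x, T x⟫ := by
    rw [← integral_add iφ iT]
    refine setIntegral_mono_on (iφ.add iT) iT' hK.measurableSet fun x hx => ?_
    have : conj K φ (T x) ≤ ⟪x, T x⟫ - φ x := conj_le hne _ fun z hz => by
      have := hsub x hx z hz
      rw [inner_sub_right, real_inner_comm z (T x), real_inner_comm x (T x)] at this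
      linarith
    linarith
  linarith

/-- The coordinate cube. -/
def cube (d : ℕ) : Set (Euc d) := {x | ∀ i, -(1 / 2) ≤ x i ∧ x i ≤ 1 / 2}

theorem volume_box (l u : Fin d → ℝ) :
    volume {x : Euc d | ∀ i, l i ≤ x i ∧ x i ≤ u i} = ∏ i, ENNReal.ofReal (u i - l i) := by
  have : {x : Euc d | ∀ i, l i ≤ x i ∧ x i ≤ u i} = WithLp.ofLp ⁻¹' (Icc l u) := by
    ext x; simp [Pi.le_def, forall_and]
  rw [this, (PiLp.volume_preserving_ofLp (Fin d)).measure_preimage
    measurableSet_Icc.nullMeasurableSet, Real.volume_Icc_pi]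

theorem isCompact_cube (d : ℕ) : IsCompact (cube d) := by
  have : cube d = WithLp.toLp 2 '' (Icc (fun _ : Fin d => -(1 / 2 : ℝ)) fun _ => 1 / 2) := by
    ext x
    constructor
    · exact fun h => ⟨WithLp.ofLp x, ⟨fun i => (h i).1, fun i => (h i).2⟩, rfl⟩
    · rintro ⟨y, hy, rfl⟩ i; exact ⟨hy.1 i, hy.2 i⟩
  rw [this]
  exact isCompact_Icc.image (PiLp.continuous_toLp 2 _)

theorem convex_cube (d : ℕ) : Convex ℝ (cube d) := by
  intro x hx y hy a b ha hb hab i
  obtain ⟨h1, h2⟩ := hx i
  obtain ⟨h3, h4⟩ := hy i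
  simp only [PiLp.add_apply, PiLp.smul_apply, smul_eq_mul]
  constructor <;> nlinarith [mul_le_mul_of_nonneg_left h1 ha, mul_le_mul_of_nonneg_left h2 ha,
    mul_le_mul_of_nonneg_left h3 hb, mul_le_mul_of_nonneg_left h4 hb]

theorem interior_cube (d : ℕ) : (interior (cube d)).Nonempty := by
  refine ⟨0, mem_interior.2 ⟨Metric.ball 0 (1 / 2), fun x hx i => ?_, Metric.isOpen_ball,
    Metric.mem_ball_self (by norm_num)⟩⟩
  have := (PiLp.norm_apply_le x i).trans (mem_ball_zero_iff.1 hx).le
  rw [Real.norm_eq_abs, abs_le] at this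
  exact this

theorem src_cube (d : ℕ) : srcMeasure (cube d) = volume.restrict (cube d) := by
  have : volume (cube d) = 1 := by
    unfold cube
    rw [volume_box]
    norm_num
  rw [srcMeasure, this, inv_one, one_smul]

/-- The map of the three-atom example with middle atom at `s w e₀`. -/
noncomputable def exMap (i j : Fin d) (s w : ℝ) (x : Euc d) : Euc d :=
  if w * (s * x i + 1 / 2) < x j then EuclideanSpace.single j 1
  else if x j < -(w * (s * x i + 1 / 2)) then EuclideanSpace.single j (-1)
  else EuclideanSpace.single i (s * w)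

theorem norm_exMap_le (i j : Fin d) {s w : ℝ} (hs : |s| = 1) (hw : |w| ≤ 1) (x : Euc d) :
    ‖exMap i j s w x‖ ≤ 1 := by
  unfold exMap
  split_ifs <;> simp [hs, hw]

theorem measurable_exMap (i j : Fin d) (s w : ℝ) : Measurable (exMap i j s w) := by
  have hc : ∀ k : Fin d, Measurable fun x : Euc d => x k := fun k =>
    (PiLp.continuous_apply 2 (fun _ => ℝ) k).measurable
  have hg : Measurable fun x : Euc d => w * (s * x i + 1 / 2) :=
    (((hc i).const_mul s).add_const _).const_mul w
  unfold exMap
  exact Measurable.ite (measurableSet_lt hg (hc j)) measurable_const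
    (Measurable.ite (measurableSet_lt (hc j) hg.neg) measurable_const measurable_const)

theorem maxCorr_exMap (i j : Fin d) {s w : ℝ} (hs : |s| = 1) (hw0 : 0 ≤ w) (hw : w ≤ 1) :
    MaxCorr (cube d) ((volume.restrict (cube d)).map (exMap i j s w)) (exMap i j s w) := by
  obtain ⟨R, hR⟩ := (isCompact_cube d).exists_bound_of_continuousOn continuous_id.continuousOn
  have hci : Continuous fun x : Euc d => x i := PiLp.continuous_apply 2 (fun _ => ℝ) i
  have hcj : Continuous fun x : Euc d => x j := PiLp.continuous_apply 2 (fun _ => ℝ) j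
  refine maxCorr_of_sub (isCompact_cube d) ((interior_cube d).mono interior_subset) hR
    (measurable_exMap i j s w) (norm_exMap_le i j hs (by rw [abs_of_nonneg hw0]; exact hw))
    (φ := fun x => max (max (x j - w / 2) (-x j - w / 2)) (s * w * x i)) (by fun_prop) ?_
  intro x hx z _
  obtain ⟨h1, h2⟩ := hx i
  have hg : 0 ≤ w * (s * x i + 1 / 2) := by
    refine mul_nonneg hw0 ?_
    have : |s * x i| ≤ 1 / 2 := by rw [abs_mul, hs, one_mul, abs_le]; exact ⟨h1, h2⟩
    linarith [(abs_le.1 this).1]
  unfold exMap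
  split_ifs with c1 c2
  · rw [EuclideanSpace.inner_single_left]
    simp only [map_one, one_mul, PiLp.sub_apply]
    have e : max (max (x j - w / 2) (-x j - w / 2)) (s * w * x i) = x j - w / 2 := by
      rw [max_eq_left (by linarith : -x j - w / 2 ≤ x j - w / 2),
        max_eq_left (by nlinarith : s * w * x i ≤ x j - w / 2)]
    rw [e]
    refine le_trans (le_of_eq (by ring)) ((le_max_left (z j - w / 2) (-z j - w / 2)).trans (le_max_left _ _))
  · rw [EuclideanSpace.inner_single_left]
    simp only [map_neg, map_one, neg_mul, one_mul, PiLp.sub_apply]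
    have e : max (max (x j - w / 2) (-x j - w / 2)) (s * w * x i) = -x j - w / 2 := by
      rw [max_eq_right (by linarith : x j - w / 2 ≤ -x j - w / 2),
        max_eq_left (by nlinarith : s * w * x i ≤ -x j - w / 2)]
    rw [e]
    refine le_trans (le_of_eq (by ring)) ((le_max_right (z j - w / 2) (-z j - w / 2)).trans (le_max_left _ _))
  · rw [EuclideanSpace.inner_single_left]
    simp only [PiLp.sub_apply, conj_trivial]
    push Not at c1 c2
    have e : max (max (x j - w / 2) (-x j - w / 2)) (s * w * x i) = s * w * x i :=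
      max_eq_right (max_le (by linarith) (by linarith))
    rw [e]
    refine le_trans (le_of_eq (by ring)) (le_max_right _ (s * w * z i))

/-- Reflection of the `i`-th coordinate. -/
noncomputable def flip (i : Fin d) : Euc d ≃ₗᵢ[ℝ] Euc d :=
  LinearIsometryEquiv.piLpCongrRight 2 fun k =>
    if k = i then LinearIsometryEquiv.neg ℝ else LinearIsometryEquiv.refl ℝ ℝ

theorem flip_apply (i k : Fin d) (x : Euc d) : flip i x k = if k = i then -x k else x k := by
  unfold flip
  rw [LinearIsometryEquiv.piLpCongrRight_apply]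
  split_ifs with h <;> simp [h]

theorem flip_preserving (i : Fin d) :
    MeasurePreserving (flip i) (volume.restrict (cube d)) (volume.restrict (cube d)) := by
  have h := (flip i).measurePreserving.restrict_preimage (isCompact_cube d).measurableSet
  have e : flip i ⁻¹' cube d = cube d := by
    ext x
    simp only [mem_preimage, cube, mem_ofPred_eq, flip_apply]
    refine forall_congr' fun k => ?_
    split_ifs
    · constructor <;> rintro ⟨a, b⟩ <;> exact ⟨by linarith, by linarith⟩
    · rfl
  rwa [e] at h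

/-- The pair of three-atom targets at width `w`. -/
theorem pair_bound (hd : 2 ≤ d) {α : ℝ} (hα : Admissible d α) :
    ∃ C : ℝ≥0, ∀ w : ℝ, 0 < w → w ≤ 1 / 2 →
      ENNReal.ofReal (3 * w / 32) ^ (1 / 2 : ℝ)
        ≤ (C : ℝ≥0∞) * (ENNReal.ofReal (8 * w ^ 3) ^ (1 / 2 : ℝ)) ^ α := by
  obtain ⟨hα0, -, h⟩ := hα
  set i : Fin d := ⟨0, by omega⟩
  set j : Fin d := ⟨1, by omega⟩
  have hij : i ≠ j := by simp [i, j]
  have hK := isCompact_cube d
  have hKi := interior_cube d
  obtain ⟨R, hR⟩ := hK.exists_bound_of_continuousOn continuous_id.continuousOn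
  obtain ⟨C, hC⟩ := h (cube d) (Metric.closedBall 0 1) hK (convex_cube d) hKi
    (isCompact_closedBall 0 1) ⟨0, by simp⟩
  refine ⟨C, fun w hw0 hw => ?_⟩
  have hV : volume (cube d) = 1 := by
    unfold cube; rw [volume_box]; norm_num
  set P := exMap i j 1 w
  set N := exMap i j (-1) w
  set ρ := volume.restrict (cube d)
  have hρ : IsProbabilityMeasure ρ := ⟨by simp [ρ, hV]⟩
  have hPm : Measurable P := measurable_exMap i j 1 w
  have hNm : Measurable N := measurable_exMap i j (-1) w
  have hbP := norm_exMap_le i j (s := 1) (by simp) (by rw [abs_of_pos hw0]; linarith : |w| ≤ 1)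
  have hbN := norm_exMap_le i j (s := -1) (by simp) (by rw [abs_of_pos hw0]; linarith : |w| ≤ 1)
  have hsupp : ∀ {T : Euc d → Euc d}, Measurable T → (∀ x, ‖T x‖ ≤ 1) →
      ρ.map T (Metric.closedBall 0 1)ᶜ = 0 := by
    intro T hT hb
    rw [Measure.map_apply hT measurableSet_closedBall.compl]
    have : T ⁻¹' (Metric.closedBall 0 1)ᶜ = ∅ := by ext x; simp [hb x]
    simp [this]
  have hot : ∀ s : ℝ, |s| = 1 →
      IsOTMap (srcMeasure (cube d)) (ρ.map (exMap i j s w)) (exMap i j s w) := by
    intro s hs
    have hb := norm_exMap_le i j hs (by rw [abs_of_pos hw0]; linarith : |w| ≤ 1)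
    have hm := measurable_exMap i j s w
    rw [ot_iff_maxCorr hK hKi hR (M := 1) ((ae_map_iff hm.aemeasurable
      (isClosed_le continuous_norm continuous_const).measurableSet).2 (Eventually.of_forall hb)),
      hV, one_smul]
    exact maxCorr_exMap i j hs hw0.le (by linarith)
  have hmain := hC (ρ.map P) (ρ.map N) (Measure.isProbabilityMeasure_map hPm.aemeasurable)
    (Measure.isProbabilityMeasure_map hNm.aemeasurable) (hsupp hPm hbP) (hsupp hNm hbN) P N
    (hot 1 (by simp)) (hot (-1) (by simp))
  rw [src_cube] at hmain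
  have hlow : ENNReal.ofReal (3 * w / 32) ≤ ∫⁻ x, edist (P x) (N x) ^ 2 ∂ρ := by
    set l : Fin d → ℝ := Function.update (Function.update (fun _ => -(1 / 2 : ℝ)) i (1 / 4)) j (3 * w / 8)
    set u : Fin d → ℝ := Function.update (fun _ => (1 / 2 : ℝ)) j (3 * w / 4)
    set B := {x : Euc d | ∀ k, l k ≤ x k ∧ x k ≤ u k}
    have hBv : volume B = ENNReal.ofReal (3 * w / 32) := by
      rw [volume_box]
      have e : ∀ k, u k - l k
          = Function.update (Function.update (fun _ => (1 : ℝ)) i (1 / 4)) j (3 * w / 8) k := by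
        intro k
        rcases eq_or_ne k j with rfl | hkj
        · simp [l, u]; ring
        rcases eq_or_ne k i with rfl | hki
        · simp [l, u, hkj]; norm_num
        · simp [l, u, hkj, hki]; norm_num
      simp only [e]
      rw [← ENNReal.ofReal_prod_of_nonneg]
      · congr 1
        rw [Finset.prod_update_of_mem (Finset.mem_univ j),
          Finset.prod_update_of_mem (by simp [hij])]
        simp; ring
      · intro k _
        rcases eq_or_ne k j with rfl | hkj
        · simp; linarith
        rcases eq_or_ne k i with rfl | hki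
        · simp [hkj]
        · simp [hkj, hki]
    have hBsub : B ⊆ cube d := by
      intro x hx k
      obtain ⟨h1, h2⟩ := hx k
      rcases eq_or_ne k j with rfl | hkj
      · simp [l, u] at h1 h2; constructor <;> linarith
      rcases eq_or_ne k i with rfl | hki
      · simp [l, u, hkj] at h1 h2; constructor <;> linarith
      · simp [l, u, hkj, hki] at h1 h2; constructor <;> linarith
    have hpt : ∀ x ∈ B, (1 : ℝ≥0∞) ≤ edist (P x) (N x) ^ 2 := by
      intro x hx
      have hj := hx j
      have hi := hx i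
      simp [l, u, hij] at hi hj
      have eP : P x = EuclideanSpace.single i w := by
        simp only [P, exMap]
        rw [if_neg (by nlinarith), if_neg (by nlinarith), one_mul]
      have eN : N x = EuclideanSpace.single j 1 := by
        simp only [N, exMap]
        rw [if_pos (by nlinarith)]
      rw [eP, eN, edist_dist, dist_eq_norm]
      refine one_le_pow₀ (ENNReal.one_le_ofReal.2 ?_)
      have := PiLp.norm_apply_le (EuclideanSpace.single i w - EuclideanSpace.single j (1 : ℝ)) j
      simp [hij.symm] at this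
      exact this
    calc ENNReal.ofReal (3 * w / 32) = ∫⁻ _x in B, (1 : ℝ≥0∞) := by simp [hBv]
      _ ≤ ∫⁻ x in B, edist (P x) (N x) ^ 2 :=
          setLIntegral_mono ((hPm.edist hNm).pow_const 2) hpt
      _ ≤ ∫⁻ x, edist (P x) (N x) ^ 2 ∂ρ := lintegral_mono_set hBsub
  have hW : W2 (ρ.map P) (ρ.map N) ≤ ENNReal.ofReal (8 * w ^ 3) ^ (1 / 2 : ℝ) := by
    unfold W2
    refine ENNReal.rpow_le_rpow ?_ (by norm_num)
    have hq : Measurable fun x => (P x, N (flip i x)) :=
      hPm.prodMk (hNm.comp (flip i).continuous.measurable)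
    refine iInf_le_of_le (ρ.map fun x => (P x, N (flip i x))) (iInf_le_of_le ?_ (iInf_le_of_le ?_ ?_))
    · rw [Measure.map_map measurable_fst hq]; rfl
    · rw [Measure.map_map measurable_snd hq]
      change ρ.map (N ∘ flip i) = _
      rw [← Measure.map_map hNm (flip i).continuous.measurable, (flip_preserving i).map_eq]
    rw [lintegral_map (by fun_prop) hq]
    set l : Fin d → ℝ := Function.update (fun _ => -(1 / 2 : ℝ)) j (-w)
    set u : Fin d → ℝ := Function.update (fun _ => (1 / 2 : ℝ)) j w
    set Q := {x : Euc d | ∀ k, l k ≤ x k ∧ x k ≤ u k}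
    have hQv : volume Q = ENNReal.ofReal (2 * w) := by
      rw [volume_box]
      have e : ∀ k, u k - l k = Function.update (fun _ => (1 : ℝ)) j (2 * w) k := by
        intro k
        rcases eq_or_ne k j with rfl | hkj
        · simp [l, u]; ring
        · simp [l, u, hkj]; norm_num
      simp only [e]
      rw [← ENNReal.ofReal_prod_of_nonneg]
      · congr 1
        rw [Finset.prod_update_of_mem (Finset.mem_univ j)]
        simp
      · intro k _
        rcases eq_or_ne k j with rfl | hkj
        · simp; linarith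
        · simp [hkj]
    have hQm : MeasurableSet Q := by
      have : Q = ⋂ k, {x : Euc d | l k ≤ x k} ∩ {x : Euc d | x k ≤ u k} := by ext x; simp [Q]
      rw [this]
      exact MeasurableSet.iInter fun k =>
        ((isClosed_le continuous_const (PiLp.continuous_apply 2 (fun _ => ℝ) k)).inter
          (isClosed_le (PiLp.continuous_apply 2 (fun _ => ℝ) k) continuous_const)).measurableSet
    have hpt : ∀ x ∈ cube d, edist (P x) (N (flip i x)) ^ 2
        ≤ Q.indicator (fun _ => ENNReal.ofReal (4 * w ^ 2)) x := by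
      intro x hx
      obtain ⟨a, b⟩ := hx i
      have hfi : flip i x i = -x i := by simp [flip_apply]
      have hfj : flip i x j = x j := by simp [flip_apply, hij.symm]
      simp only [P, N, exMap, hfi, hfj, neg_mul_neg, one_mul]
      split_ifs with c1 c2
      · simp
      · simp
      · push Not at c1 c2
        have hmem : x ∈ Q := by
          intro k
          rcases eq_or_ne k j with rfl | hkj
          · simp only [l, u, Function.update_self]; constructor <;> nlinarith
          · simpa [l, u, hkj, neg_le] using hx k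
        rw [indicator_of_mem hmem, edist_dist, ← ENNReal.ofReal_pow dist_nonneg]
        refine ENNReal.ofReal_le_ofReal ?_
        rw [EuclideanSpace.dist_eq, Finset.sum_eq_single i (fun k _ hk => by simp [hk]) (by simp)]
        simp only [PiLp.single_eq_same, Real.dist_eq]
        rw [Real.sqrt_sq (abs_nonneg _)]
        rw [sq_abs]
        ring_nf
        rfl
    calc ∫⁻ x, edist (P x) (N (flip i x)) ^ 2 ∂ρ
        ≤ ∫⁻ x, Q.indicator (fun _ => ENNReal.ofReal (4 * w ^ 2)) x ∂ρ :=
          setLIntegral_mono ((measurable_const.indicator hQm)) hpt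
      _ ≤ ∫⁻ x, Q.indicator (fun _ => ENNReal.ofReal (4 * w ^ 2)) x :=
          lintegral_mono' Measure.restrict_le_self le_rfl
      _ = ENNReal.ofReal (4 * w ^ 2) * ENNReal.ofReal (2 * w) := by
          rw [lintegral_indicator hQm, setLIntegral_const, hQv]
      _ = _ := by rw [← ENNReal.ofReal_mul (by positivity)]; congr 1; ring
  exact (ENNReal.rpow_le_rpow hlow (by norm_num)).trans
    (hmain.trans (mul_le_mul_of_nonneg_left (ENNReal.rpow_le_rpow hW hα0.le) (zero_le)))

/-- No exponent above 1/3 is admissible. -/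
theorem le_third (hd : 2 ≤ d) {α : ℝ} (hα : Admissible d α) : α ≤ 1 / 3 := by
  obtain ⟨C, hC⟩ := pair_bound hd hα
  by_contra hlt
  push Not at hlt
  set K0 : ℝ := (C : ℝ) ^ 2 * 8 ^ α
  have hbound : ∀ w : ℝ, 0 < w → w ≤ 1 / 2 → 3 / 32 ≤ K0 * w ^ (3 * α - 1) := by
    intro w hw0 hw
    have h := ENNReal.toReal_mono ?_ (hC w hw0 hw)
    · rw [ENNReal.toReal_mul, ← ENNReal.toReal_rpow, ← ENNReal.toReal_rpow, ← ENNReal.toReal_rpow,
        ENNReal.toReal_ofReal (by positivity), ENNReal.toReal_ofReal (by positivity),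
        ENNReal.coe_toReal] at h
      have h2 := pow_le_pow_left₀ (by positivity) h 2
      rw [mul_pow, ← Real.rpow_natCast, ← Real.rpow_mul (by positivity),
        ← Real.rpow_natCast ((_ : ℝ) ^ α), ← Real.rpow_mul (Real.rpow_nonneg (by positivity) _),
        ← Real.rpow_mul (by positivity)] at h2
      norm_num at h2
      rw [show (1 / 2 : ℝ) * (α * 2) = α by ring, Real.mul_rpow (by norm_num) (by positivity),
        ← Real.rpow_natCast w 3, ← Real.rpow_mul hw0.le] at h2
      rw [Real.rpow_sub hw0, Real.rpow_one, ← mul_div_assoc, le_div_iff₀ hw0]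
      simp only [K0]
      push_cast at h2
      linarith
    · exact ENNReal.mul_ne_top (by simp) (ENNReal.rpow_ne_top_of_nonneg hα.1.le
        (ENNReal.rpow_ne_top_of_nonneg (by norm_num) ENNReal.ofReal_ne_top))
  have hlim : Tendsto (fun w : ℝ => K0 * w ^ (3 * α - 1)) (𝓝[>] 0) (𝓝 0) := by
    have h := ((Real.continuousAt_rpow_const 0 (3 * α - 1) (Or.inr (by linarith))).tendsto.const_mul K0)
    rw [Real.zero_rpow (by linarith), mul_zero] at h
    exact h.mono_left nhdsWithin_le_nhds
  have : (3 / 32 : ℝ) ≤ 0 := ge_of_tendsto hlim (by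
    filter_upwards [Ioc_mem_nhdsGT (show (0:ℝ) < 1 / 2 by norm_num)] with w hw
    exact hbound w hw.1 hw.2)
  norm_num at this

end Vale.Agent.P074
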